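import Vale.Agent.P147.Flip.Trial

/-!
# A walk that escapes without return stays in a tilted half space

With the tilt the inverse of the truncated mean lateral extent of a block, height `T` is reached
inside a band of width of order `T` of the tilted functional with probability bounded below.
-/

namespace Vale.Agent.P147.Flip

open MeasureTheory Filter Topology Set Vale.Agent.P147.Balanced Vale.Agent.P147.Linear
open scoped ENNReal

variable {d : ℕ}

/-- The functional tilted in coordinate `c`. -/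
def tilt (l : Fin d → ℝ) (c : Fin d) (ε : ℝ) : Fin d → ℝ := l + Pi.single c ε

lemma dot_tilt (l : Fin d → ℝ) (c : Fin d) (ε : ℝ) (z : Site d) :
    dot (tilt l c ε) z = dot l z + ε * (z c : ℝ) := by
  simp [dot, tilt, mul_add, Finset.sum_add_distrib, Pi.single_apply]
  ring

/-- The lateral extent of a block of height at most `τ`. -/
noncomputable def latBelow (l : Fin d → ℝ) (c : Fin d) (τ : ℝ) (X : ℕ → Site d) : ℝ≥0∞ :=
  {X | blockH l X ≤ τ}.indicator (fun X => (blockX l c X : ℝ≥0∞)) X

variable {l : Fin d → ℝ}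

lemma measurable_blockX (c : Fin d) : Measurable (blockX (d := d) l c) := by
  refine measurable_to_countable' fun k => ?_
  have : blockX l c ⁻¹' {k} = ⋃ n, firstT (d := d) l ⁻¹' {n} ∩ {X | lat c n X = k} := by
    ext X; simp [blockX]
  rw [this]
  refine MeasurableSet.iUnion fun n => (measurable_firstT (measurableSet_singleton n)).inter ?_
  exact measurableSet_of_prefix (n := n) fun X Y h => propext <| by
    simp only [Set.mem_ofPred_eq, lat]
    rw [Finset.sup_congr rfl fun i hi => by
      rw [h i (Nat.le_of_lt_succ (Finset.mem_range.1 hi)), h 0 (Nat.zero_le n)]]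

lemma measurable_latBelow (c : Fin d) (τ : ℝ) : Measurable (latBelow (d := d) l c τ) :=
  ((measurable_of_countable (fun k : ℕ => (k : ℝ≥0∞))).comp (measurable_blockX c)).indicator
    (measurableSet_le measurable_blockH measurable_const)

lemma natAbs_le_blockX (c : Fin d) {Y : ℕ → Site d} {i : ℕ} (hi : i ≤ firstT l Y) :
    |((Y i c : ℝ) - (Y 0 c : ℝ))| ≤ (blockX l c Y : ℝ) := by
  have h : (Y i c - Y 0 c).natAbs ≤ blockX l c Y :=
    Finset.le_sup (f := fun i => (Y i c - Y 0 c).natAbs)
      (Finset.mem_range.2 (Nat.lt_succ_of_le hi))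
  calc |((Y i c : ℝ) - (Y 0 c : ℝ))| = (((Y i c - Y 0 c).natAbs : ℕ) : ℝ) := by
        rw [Nat.cast_natAbs, Int.cast_abs, Int.cast_sub]
    _ ≤ _ := by exact_mod_cast h

lemma blockT_succ' (k : ℕ) (X : ℕ → Site d) :
    blockT l (k + 1) X = blockT l k X + firstT l ((nextB l)^[k] X) :=
  Finset.sum_range_succ _ _

lemma exists_block (i : ℕ) : ∀ (N : ℕ) (X : ℕ → Site d), 0 < N → i ≤ blockT l N X →
    ∃ k < N, blockT l k X ≤ i ∧ i ≤ blockT l (k + 1) X := by
  intro N X
  induction N with
  | zero => intro h; omega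
  | succ N ih =>
    intro _ hi
    by_cases h : blockT l N X ≤ i
    · exact ⟨N, Nat.lt_succ_self N, h, hi⟩
    · rcases Nat.eq_zero_or_pos N with rfl | hN
      · rw [blockT_zero] at h; omega
      · obtain ⟨k, hk, h1, h2⟩ := ih hN (not_le.1 h).le
        exact ⟨k, hk.trans (Nat.lt_succ_self N), h1, h2⟩

lemma coord_le_sum (c : Fin d) {X : ℕ → Site d} (h0 : X 0 = 0) (k : ℕ) :
    ∀ j ≤ firstT l ((nextB l)^[k] X), |(X (blockT l k X + j) c : ℝ)| ≤
      ∑ m ∈ Finset.range (k + 1), (blockX l c ((nextB l)^[m] X) : ℝ) := by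
  induction k with
  | zero =>
    intro j hj
    simpa [blockT_zero, h0] using natAbs_le_blockX c (l := l) (Y := X) hj
  | succ k ih =>
    intro j hj
    have h1 : |(X (blockT l (k + 1) X) c : ℝ)| ≤
        ∑ m ∈ Finset.range (k + 1), (blockX l c ((nextB l)^[m] X) : ℝ) := by
      rw [blockT_succ']; exact ih _ le_rfl
    have h2 := natAbs_le_blockX c (l := l) (Y := (nextB l)^[k + 1] X) hj
    rw [iterate_nextB_apply (k + 1) j X h0, iterate_nextB_apply (k + 1) 0 X h0] at h2
    simp only [Pi.sub_apply, add_zero, sub_self, Int.cast_zero, sub_zero, Int.cast_sub] at h2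
    rw [Finset.sum_range_succ]
    calc |(X (blockT l (k + 1) X + j) c : ℝ)|
        ≤ |(X (blockT l (k + 1) X) c : ℝ)| +
          |(X (blockT l (k + 1) X + j) c : ℝ) - (X (blockT l (k + 1) X) c : ℝ)| := by
          have := abs_add_le (X (blockT l (k + 1) X) c : ℝ)
            ((X (blockT l (k + 1) X + j) c : ℝ) - (X (blockT l (k + 1) X) c : ℝ))
          rwa [add_sub_cancel] at this
      _ ≤ _ := add_le_add h1 h2

open Classical in
/-- The geometry of the cone. -/
lemma cone_geometry (c : Fin d) {X : ℕ → Site d} (h0 : X 0 = 0) {L : ℝ}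
    (hs : ∀ n, dot l (X (n + 1)) ≤ dot l (X n) + L)
    (hG : ∀ i, (nextB l)^[i] X ∈ Good l) {N : ℕ} (hN : 0 < N) {c₁ lam ε T : ℝ} (hc₁ : 0 < c₁)
    (hT : 0 < T) (hε : |ε| * lam ≤ c₁ / 2) (hTN : T ≤ c₁ * N / 2)
    (hlow : ∀ k ≤ N, (((Finset.range k).filter fun i => blockH l ((nextB l)^[i] X) < c₁).card : ℝ)
      ≤ k / 2)
    (hsum : ∀ k ≤ N, ∑ m ∈ Finset.range k, (blockX l c ((nextB l)^[m] X) : ℝ) ≤ lam * k) :
    ∃ n, T ≤ dot l (X n) ∧ ∀ i ≤ n, -(c₁ / 2) ≤ dot (tilt l c ε) (X i) ∧
      dot (tilt l c ε) (X i) ≤ T + L + c₁ * N / 2 := by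
  have hnn : ∀ m, 0 ≤ blockH l ((nextB l)^[m] X) := fun m => sub_nonneg.2 ((hG m).1 _)
  have hS : ∀ k ≤ N, c₁ * k / 2 ≤ sumH l k X := by
    intro k hk
    have hc : ((((Finset.range k).filter fun i => blockH l ((nextB l)^[i] X) < c₁).card : ℕ) : ℝ)
        + (((Finset.range k).filter fun i => ¬blockH l ((nextB l)^[i] X) < c₁).card : ℕ) = k := by
      rw [← Nat.cast_add, Finset.card_filter_add_card_filter_not, Finset.card_range]
    have hge : c₁ * (((Finset.range k).filter fun i =>
        ¬blockH l ((nextB l)^[i] X) < c₁).card : ℕ) ≤ sumH l k X := by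
      rw [mul_comm, ← nsmul_eq_mul, ← Finset.sum_const]
      exact (Finset.sum_le_sum fun i hi => not_lt.1 (Finset.mem_filter.1 hi).2).trans
        (Finset.sum_le_sum_of_subset_of_nonneg (Finset.filter_subset _ _) fun i _ _ => hnn i)
    nlinarith [hlow k hk]
  have hTN' : T ≤ dot l (X (blockT l N X)) := by
    rw [← sumH_eq N X h0]; exact hTN.trans (hS N le_rfl)
  have hex : ∃ n, T ≤ dot l (X n) := ⟨_, hTN'⟩
  refine ⟨Nat.find hex, Nat.find_spec hex, fun i hi => ?_⟩
  obtain ⟨k, hk, hki, hik⟩ := exists_block (l := l) i N X hN (hi.trans (Nat.find_min' hex hTN'))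
  obtain ⟨j, rfl⟩ := Nat.exists_eq_add_of_le hki
  rw [blockT_succ'] at hik
  have hlo : sumH l k X ≤ dot l (X (blockT l k X + j)) := by
    have h1 := (hG k).1 j
    rw [iterate_nextB_apply k j X h0, iterate_nextB_apply k 0 X h0, dot_sub, dot_sub] at h1
    rw [sumH_eq k X h0]
    simp only [add_zero] at h1
    linarith
  have hupT : dot l (X (blockT l k X + j)) ≤ T + L := by
    by_cases hz : blockT l k X + j = 0
    · rw [hz, h0, dot_zero]
      have := hs 0
      have hLnn : 0 ≤ L + T := by
        by_contra hneg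
        have hle : ∀ n, dot l (X n) ≤ 0 := by
          intro n
          induction n with
          | zero => simp [h0, dot_zero]
          | succ n ih => linarith [hs n]
        linarith [Nat.find_spec hex, hle (Nat.find hex)]
      linarith
    · obtain ⟨i', hi'⟩ := Nat.exists_eq_succ_of_ne_zero hz
      rw [hi']
      have := not_le.1 (Nat.find_min hex (show i' < Nat.find hex by omega))
      linarith [hs i']
  have he : |ε * (X (blockT l k X + j) c : ℝ)| ≤ c₁ * (k + 1) / 2 := by
    rw [abs_mul]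
    have h1 := (coord_le_sum c h0 k j (by omega)).trans (hsum (k + 1) hk)
    push_cast at h1
    calc |ε| * |(X (blockT l k X + j) c : ℝ)| ≤ |ε| * (lam * (k + 1)) :=
          mul_le_mul_of_nonneg_left h1 (abs_nonneg ε)
      _ = |ε| * lam * (k + 1) := by ring
      _ ≤ c₁ / 2 * (k + 1) := mul_le_mul_of_nonneg_right hε (by positivity)
      _ = _ := by ring
  have hkN : ((k : ℝ) + 1) ≤ N := by exact_mod_cast hk
  obtain ⟨he1, he2⟩ := abs_le.1 he
  rw [dot_tilt]
  constructor
  · have := hS k hk.le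
    linarith
  · nlinarith

variable [Nonempty (Fin d)] (μ : Measure (Step d → ℝ)) [IsProbabilityMeasure μ]

open Classical in
/-- The climb inside a band, uniformly in the height. -/
theorem exists_climb (hμ : ∀ᵐ p ∂μ, (∀ e, 0 < p e) ∧ ∑ e, p e = 1) (hq : ann μ (Good l) ≠ 0)
    (hl : l ≠ 0) :
    ∃ p : ℝ≥0∞, ∃ C T₀ c₀ : ℝ, p ≠ 0 ∧ p ≤ 1 ∧ 1 ≤ C ∧ 1 ≤ T₀ ∧ 0 < c₀ ∧
      ∀ T, T₀ ≤ T → ∀ (c : Fin d) (a : ℝ), 1 ≤ a →
        ∫⁻ X in Good l, latBelow l c (T / 4) X ∂annM μ ≤ ENNReal.ofReal a → ∀ ε : ℝ,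
          |ε| ≤ c₀ / a → p ≤ annM μ (Climb l (tilt l c ε) T (C * T)) := by
  set ν := (annM μ).restrict (Good l)
  set q := ann μ (Good l)
  have hqν : ν Set.univ = q := by
    simp [ν, q, ann_eq μ measurableSet_Good]
  have hqt : q ≠ ⊤ := by rw [← hqν]; exact measure_ne_top _ _
  set qr := q.toReal
  have hqr : 0 < qr := ENNReal.toReal_pos hq hqt
  have hqr1 : qr ≤ 1 := by
    refine (ENNReal.toReal_mono ENNReal.one_ne_top ?_).trans_eq ENNReal.toReal_one
    simp only [q]; rw [ann_eq μ measurableSet_Good]; exact prob_le_one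
  obtain ⟨u, hu, hmax⟩ := exists_up hl
  set L := dot l (vec u)
  have hstep : ∀ e : Step d, dot l (vec e) ≤ L := fun e => by
    refine le_trans ?_ (hmax e.1)
    rw [dot_vec]
    split_ifs
    · exact le_abs_self _
    · exact neg_le_abs _
  have hHpos : ∀ᵐ X ∂ν, 0 < blockH l X := (ae_firstReg μ hμ hq).mono fun X hX =>
    sub_pos.2 (hX.2.1.1 0 hX.1)
  -- blocks of small height are rare
  obtain ⟨c₁, hc₁, hc₁L, hsmall⟩ : ∃ c₁ : ℝ, 0 < c₁ ∧ c₁ ≤ L / 2 ∧
      ν {X | blockH l X < c₁} ≤ ENNReal.ofReal (qr / 16) := by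
    set S : ℕ → Set (ℕ → Site d) := fun j => {X | blockH l X < L / 2 / (j + 1)}
    have hanti : Antitone S := fun a b hab X hX => lt_of_lt_of_le hX
      (div_le_div_of_nonneg_left (by positivity) (by positivity)
        (add_le_add ((Nat.cast_le (α := ℝ)).2 hab) le_rfl))
    have hS : ν (⋂ j, S j) = 0 := by
      refine measure_mono_null (t := {X : ℕ → Site d | ¬0 < blockH l X})
        (fun X hX hpos => ?_) (ae_iff.1 hHpos)
      obtain ⟨j, hj⟩ := exists_nat_gt (L / 2 / blockH l X)
      have := Set.mem_iInter.1 hX j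
      simp only [S, Set.mem_ofPred_eq] at this
      rw [lt_div_iff₀ (by positivity)] at this
      rw [div_lt_iff₀ hpos] at hj
      nlinarith
    have ht := tendsto_measure_iInter_atTop (μ := ν)
      (fun j => (measurableSet_lt measurable_blockH measurable_const).nullMeasurableSet) hanti
      ⟨0, measure_ne_top _ _⟩
    rw [hS] at ht
    obtain ⟨j, hj⟩ := ((ENNReal.tendsto_nhds_zero.1 ht) (ENNReal.ofReal (qr / 16))
      (ENNReal.ofReal_pos.2 (by positivity))).exists
    refine ⟨L / 2 / (j + 1), by positivity, div_le_self (by positivity) ?_, hj⟩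
    linarith [Nat.cast_nonneg (α := ℝ) j]
  -- tall blocks are rare
  obtain ⟨T₀, hT₀, htall⟩ : ∃ T₀ : ℝ, 1 ≤ T₀ ∧ ∀ T, T₀ ≤ T →
      ENNReal.ofReal (T / 4) * ν {X | T / 4 < blockH l X} ≤
        ENNReal.ofReal (qr * c₁ / (8 * 4 * (4 + 2 * c₁))) := by
    set F : ℕ → (ℕ → Site d) → ℝ≥0∞ := fun j X =>
      {X | (j : ℝ) < blockH l X}.indicator (fun X => ENNReal.ofReal (blockH l X)) X
    have hF : ∀ j, Measurable (F j) := fun j =>
      (ENNReal.measurable_ofReal.comp measurable_blockH).indicator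
        (measurableSet_lt measurable_const measurable_blockH)
    have hfin := heightPin μ hμ (l := l) hq
    have hlim : Tendsto (fun j => ∫⁻ X, F j X ∂ν) atTop (𝓝 0) := by
      have h := tendsto_lintegral_of_dominated_convergence (μ := ν) (F := F) (f := fun _ => 0)
        (fun X => ENNReal.ofReal (blockH l X)) hF
        (fun j => Filter.Eventually.of_forall fun X => Set.indicator_le_self _ _ X) hfin
        (Filter.Eventually.of_forall fun X => ?_)
      · simpa using h
      · refine tendsto_const_nhds.congr' ?_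
        filter_upwards [eventually_gt_atTop ⌈blockH l X⌉₊] with j hj
        have : blockH l X ≤ j := (Nat.le_ceil _).trans (by exact_mod_cast hj.le)
        simp [F, not_lt.2 this]
    obtain ⟨j, hj⟩ := ((ENNReal.tendsto_nhds_zero.1 hlim)
      (ENNReal.ofReal (qr * c₁ / (8 * 4 * (4 + 2 * c₁))))
      (ENNReal.ofReal_pos.2 (by positivity))).exists
    refine ⟨max 1 (4 * j), le_max_left _ _, fun T hT => le_trans ?_ hj⟩
    have hm : MeasurableSet {X : ℕ → Site d | T / 4 < blockH l X} :=
      measurableSet_lt measurable_const measurable_blockH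
    rw [← lintegral_indicator_one hm, ← lintegral_const_mul _ (measurable_one.indicator hm)]
    refine lintegral_mono fun X => ?_
    by_cases hX : T / 4 < blockH l X
    · have hjX : (j : ℝ) < blockH l X := by
        linarith [le_max_right (1 : ℝ) (4 * j)]
      simp only [F, Set.indicator_of_mem (show X ∈ {X | T / 4 < blockH l X} from hX),
        Set.indicator_of_mem (show X ∈ {X | (j : ℝ) < blockH l X} from hjX), Pi.one_apply, mul_one]
      exact ENNReal.ofReal_le_ofReal hX.le
    · simp [hX]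
  have hE0 : ann μ (pre 1 (pathPos 0 fun _ => u)) ≠ 0 := ann_pre_pathPos_ne_zero μ hμ 1 _
  set pu := ann μ (pre 1 (pathPos 0 fun _ => u))
  refine ⟨pu * ENNReal.ofReal (qr / 2), 6 + 6 * L, T₀, c₁ * qr / 16,
    mul_ne_zero hE0 (ENNReal.ofReal_pos.2 (by positivity)).ne',
    mul_le_one' (by rw [show pu = _ from ann_eq μ (measurableSet_pre _ _)]; exact prob_le_one)
      (ENNReal.ofReal_le_one.2 (by linarith)),
    by linarith, hT₀, by positivity,
    fun T hT c a ha hmean ε hε => ?_⟩
  have hT1 : 1 ≤ T := hT₀.trans hT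
  have ha0 : 0 < a := by linarith
  set lam : ℝ := 8 * a / qr
  have hlam0 : 0 < lam := by positivity
  set N : ℕ := ⌈2 * T / c₁⌉₊ + 1
  have hN0 : 0 < N := Nat.succ_pos _
  have hNlo : T ≤ c₁ * N / 2 := by
    have h := Nat.le_ceil (2 * T / c₁)
    rw [div_le_iff₀ hc₁] at h
    simp only [N]; push_cast; linarith
  have hNhi : c₁ * N ≤ 2 * T + 2 * c₁ := by
    have h := Nat.ceil_lt_add_one (show 0 ≤ 2 * T / c₁ by positivity)
    have h' := mul_lt_mul_of_pos_left h hc₁
    rw [mul_add, mul_div_cancel₀ _ hc₁.ne'] at h'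
    simp only [N]; push_cast; linarith
  have hεc : |ε| ≤ c₁ / 2 := hε.trans (by
    rw [div_le_iff₀ ha0]; nlinarith [mul_le_mul_of_nonneg_left hqr1 hc₁.le])
  have hεlam : |ε| * lam ≤ c₁ / 2 := by
    refine (mul_le_mul_of_nonneg_right hε hlam0.le).trans (le_of_eq ?_)
    simp only [lam]; field_simp; ring
  have hmp := measurePreserving_nextB μ hμ hq
  -- the three exceptional events
  set B1 : Set (ℕ → Site d) := ⋃ i ∈ Finset.range N, {X | T / 4 < blockH l ((nextB l)^[i] X)}
  set B2 : Set (ℕ → Site d) := {X | ∃ k, 1 ≤ k ∧ k ≤ N ∧ ENNReal.ofReal (1 / 2) * k <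
    ∑ i ∈ Finset.range k, {X | blockH l X < c₁}.indicator (1 : (ℕ → Site d) → ℝ≥0∞)
      ((nextB l)^[i] X)}
  set B3 : Set (ℕ → Site d) := {X | ∃ k, 1 ≤ k ∧ k ≤ N ∧ ENNReal.ofReal lam * k <
    ∑ i ∈ Finset.range k, latBelow l c (T / 4) ((nextB l)^[i] X)}
  have hB1 : ν B1 ≤ ENNReal.ofReal (qr / 8) := by
    refine (measure_biUnion_finset_le _ _).trans ?_
    rw [Finset.sum_congr rfl fun i _ =>
      (show ν {X | T / 4 < blockH l ((nextB l)^[i] X)} = ν {X | T / 4 < blockH l X} from
        (hmp.iterate i).measure_preimage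
          (measurableSet_lt measurable_const measurable_blockH).nullMeasurableSet),
      Finset.sum_const, Finset.card_range, nsmul_eq_mul]
    refine (ENNReal.mul_le_mul_iff_right (a := ENNReal.ofReal (T / 4))
      (ENNReal.ofReal_pos.2 (by positivity)).ne' ENNReal.ofReal_ne_top).1 ?_
    rw [mul_left_comm]
    refine (mul_le_mul_right (htall T hT) _).trans ?_
    rw [← ENNReal.ofReal_natCast, ← ENNReal.ofReal_mul (by positivity),
      ← ENNReal.ofReal_mul (by positivity)]
    refine ENNReal.ofReal_le_ofReal ?_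
    rw [mul_div_assoc', div_le_iff₀ (by positivity)]
    have hN' : c₁ * N ≤ T * (4 + 2 * c₁) := by nlinarith
    nlinarith [mul_le_mul_of_nonneg_left hN' hqr.le]
  have hB2 : ν B2 ≤ ENNReal.ofReal (qr / 8) := by
    have h := maximal_ineq hmp (f := {X | blockH l X < c₁}.indicator (1 : (ℕ → Site d) → ℝ≥0∞))
      (measurable_one.indicator (measurableSet_lt measurable_blockH measurable_const)) N
      (ENNReal.ofReal (1 / 2))
    rw [lintegral_indicator_one (measurableSet_lt measurable_blockH measurable_const)] at h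
    refine (ENNReal.mul_le_mul_iff_right (a := ENNReal.ofReal (1 / 2))
      (ENNReal.ofReal_pos.2 (by norm_num)).ne' ENNReal.ofReal_ne_top).1 ((h.trans hsmall).trans ?_)
    rw [← ENNReal.ofReal_mul (by norm_num)]
    exact le_of_eq (by ring_nf)
  have hB3 : ν B3 ≤ ENNReal.ofReal (qr / 8) := by
    have h := maximal_ineq hmp (measurable_latBelow (l := l) c (T / 4)) N (ENNReal.ofReal lam)
    refine (ENNReal.mul_le_mul_iff_right (a := ENNReal.ofReal lam)
      (ENNReal.ofReal_pos.2 hlam0).ne' ENNReal.ofReal_ne_top).1 ((h.trans hmean).trans ?_)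
    rw [← ENNReal.ofReal_mul hlam0.le]
    exact le_of_eq (by congr 1; simp only [lam]; field_simp)
  set B : Set (ℕ → Site d) := {Y | ∃ n, dot l (Y 0) + T ≤ dot l (Y n) ∧
    ∀ i ≤ n, dot (tilt l c ε) (Y i) ∈ Set.Icc (dot (tilt l c ε) (Y 0) - c₁ / 2)
      (dot (tilt l c ε) (Y 0) + (T + L + c₁ * N / 2))}
  have hBm : MeasurableSet B := by
    rw [show B = ⋃ n, {Y | dot l (Y 0) + T ≤ dot l (Y n)} ∩ ⋂ i, ⋂ (_ : i ≤ n),
        ({Y | dot (tilt l c ε) (Y 0) - c₁ / 2 ≤ dot (tilt l c ε) (Y i)} ∩
          {Y | dot (tilt l c ε) (Y i) ≤ dot (tilt l c ε) (Y 0) + (T + L + c₁ * N / 2)}) by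
      ext; simp [B]]
    exact MeasurableSet.iUnion fun n =>
      (measurableSet_le ((measurable_dot 0).add_const T) (measurable_dot n)).inter
        (MeasurableSet.iInter fun i => MeasurableSet.iInter fun _ =>
          (measurableSet_le ((measurable_dot 0).sub_const _) (measurable_dot i)).inter
            (measurableSet_le (measurable_dot i) ((measurable_dot 0).add_const _)))
  have hBt : ∀ y : Site d,
      (fun (X : ℕ → Site d) i => X i + y) ⁻¹' (Good l ∩ B) = Good l ∩ B := by
    intro y
    rw [Set.preimage_inter, translate_preimage_Good]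
    congr 1
    ext Y
    simp only [B, Set.mem_preimage, Set.mem_ofPred_eq, dot_add, Set.mem_Icc]
    refine exists_congr fun n => and_congr (by constructor <;> intro h <;> linarith)
      (forall₂_congr fun i _ => ?_)
    constructor <;> rintro ⟨h1, h2⟩ <;> exact ⟨by linarith, by linarith⟩
  have hGB : ENNReal.ofReal (qr / 2) ≤ ν B := by
    have hcov : ν Set.univ ≤ ν B + (ν B1 + (ν B2 + ν B3)) := by
      refine le_trans ?_ ((measure_union_le _ _).trans (add_le_add le_rfl
        ((measure_union_le _ _).trans (add_le_add le_rfl (measure_union_le _ _)))))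
      refine measure_mono_ae ?_
      filter_upwards [ae_iterate_good μ hμ hq,
        ae_restrict_of_ae (ae_annM_step μ hμ hstep)] with X hX hs _
      by_cases h1 : X ∈ B1
      · exact Or.inr (Or.inl h1)
      by_cases h2 : X ∈ B2
      · exact Or.inr (Or.inr (Or.inl h2))
      by_cases h3 : X ∈ B3
      · exact Or.inr (Or.inr (Or.inr h3))
      refine Or.inl ?_
      have hH : ∀ i < N, blockH l ((nextB l)^[i] X) ≤ T / 4 := fun i hi => not_lt.1 fun h =>
        h1 (Set.mem_biUnion (Finset.mem_range.2 hi) h)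
      suffices ∃ n, T ≤ dot l (X n) ∧ ∀ i ≤ n, -(c₁ / 2) ≤ dot (tilt l c ε) (X i) ∧
          dot (tilt l c ε) (X i) ≤ T + L + c₁ * N / 2 by
        obtain ⟨n, hn, hband⟩ := this
        exact ⟨n, by rw [hX.1, dot_zero, zero_add]; exact hn, fun i hi => by
          rw [hX.1, dot_zero, zero_sub, zero_add]; exact hband i hi⟩
      refine cone_geometry c hX.1 hs (fun i => (hX.2 i).1) hN0 hc₁ (by linarith : 0 < T) hεlam
        hNlo ?_ ?_
      · intro k hk
        rcases Nat.eq_zero_or_pos k with rfl | hk0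
        · simp
        have h : ∑ i ∈ Finset.range k, {X | blockH l X < c₁}.indicator
            (1 : (ℕ → Site d) → ℝ≥0∞) ((nextB l)^[i] X) ≤ ENNReal.ofReal (1 / 2) * k :=
          not_lt.1 fun h => h2 ⟨k, hk0, hk, h⟩
        rw [← ENNReal.ofReal_natCast k, ← ENNReal.ofReal_mul (by norm_num)] at h
        refine (ENNReal.ofReal_le_ofReal_iff (by positivity)).1
          (le_trans (le_of_eq ?_) (h.trans_eq (by ring_nf)))
        rw [ENNReal.ofReal_natCast, Finset.card_filter, Nat.cast_sum]
        refine Finset.sum_congr rfl fun i _ => ?_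
        by_cases hi : blockH l ((nextB l)^[i] X) < c₁ <;> simp [hi]
      · intro k hk
        rcases Nat.eq_zero_or_pos k with rfl | hk0
        · simp
        have h : ∑ i ∈ Finset.range k, latBelow l c (T / 4) ((nextB l)^[i] X) ≤
            ENNReal.ofReal lam * k := not_lt.1 fun h => h3 ⟨k, hk0, hk, h⟩
        rw [← ENNReal.ofReal_natCast k, ← ENNReal.ofReal_mul hlam0.le] at h
        refine (ENNReal.ofReal_le_ofReal_iff (by positivity)).1 (le_trans (le_of_eq ?_) h)
        rw [ENNReal.ofReal_sum_of_nonneg fun i _ => by positivity]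
        refine Finset.sum_congr rfl fun i hi => ?_
        rw [latBelow, Set.indicator_of_mem (show (nextB l)^[i] X ∈ {X | blockH l X ≤ T / 4} from
          hH i ((Finset.mem_range.1 hi).trans_le hk)), ENNReal.ofReal_natCast]
    have h8 : ν B1 + (ν B2 + ν B3) ≤ ENNReal.ofReal (qr / 2) := by
      refine (add_le_add hB1 (add_le_add hB2 hB3)).trans ?_
      rw [← ENNReal.ofReal_add (by positivity) (by positivity),
        ← ENNReal.ofReal_add (by positivity) (by positivity)]
      exact ENNReal.ofReal_le_ofReal (by linarith)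
    have hsplit : ENNReal.ofReal (qr / 2) + ENNReal.ofReal (qr / 2) = q := by
      rw [← ENNReal.ofReal_add (by positivity) (by positivity), add_halves,
        ENNReal.ofReal_toReal hqt]
    have := hcov.trans (add_le_add le_rfl h8)
    rw [hqν, ← hsplit] at this
    exact (ENNReal.add_le_add_iff_right ENNReal.ofReal_ne_top).1 this
  -- the straight step
  set E : Set (ℕ → Site d) := pre 1 (pathPos 0 fun _ => u)
  have hp1 : pathPos (0 : Site d) (fun _ => u) 1 = vec u := by simp [pathPos]
  have hp0 : pathPos (0 : Site d) (fun _ => u) 0 = 0 := by simp [pathPos]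
  have hER : ∀ X ∈ E, Rec l 1 X := fun X hX i hi => by
    obtain rfl : i = 0 := by omega
    rw [hX 0 (Nat.zero_le 1), hX 1 le_rfl, hp0, hp1, dot_zero]
    exact hu
  have hEp : Prefix 1 fun X => X ∈ E := fun X Y h => propext
    ⟨fun hX i hi => (h i hi) ▸ hX i hi, fun hY i hi => (h i hi).symm ▸ hY i hi⟩
  calc pu * ENNReal.ofReal (qr / 2) ≤ ann μ E * ann μ (Good l ∩ B) := by
        refine mul_le_mul_right (hGB.trans (le_of_eq ?_)) _
        rw [ann_eq μ (measurableSet_Good.inter hBm), Measure.restrict_apply hBm, Set.inter_comm]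
    _ = annM μ (E ∩ shiftP 1 ⁻¹' (Good l ∩ B)) := by
        rw [← ann_eq μ ((measurableSet_pre _ _).inter
          (measurable_shiftP 1 (measurableSet_Good.inter hBm))),
          ann_inter_stay μ hμ (measurableSet_pre _ _) hEp hER (measurableSet_Good.inter hBm)
            (fun X hX => hX.1.1) hBt]
    _ ≤ _ := by
        refine measure_mono fun X hX => ?_
        obtain ⟨hXE, -, n, hn, hband⟩ := hX
        have hx0 : X 0 = 0 := by rw [hXE 0 (Nat.zero_le 1), hp0]
        have hx1 : X 1 = vec u := by rw [hXE 1 le_rfl, hp1]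
        simp only [shiftP, add_zero, hx1] at hn hband
        have hv : L / 2 ≤ dot (tilt l c ε) (vec u) ∧ dot (tilt l c ε) (vec u) ≤ 2 * L := by
          rw [dot_tilt]
          have h1 : |((vec u c : ℤ) : ℝ)| ≤ 1 := by
            obtain ⟨i, b⟩ := u
            by_cases hi : c = i
            · subst hi; cases b <;> simp [vec]
            · simp [vec, Pi.single_eq_of_ne hi]
          have h2 : |ε * ((vec u c : ℤ) : ℝ)| ≤ L / 2 := by
            rw [abs_mul]
            exact (mul_le_of_le_one_right (abs_nonneg ε) h1).trans (by linarith)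
          obtain ⟨h3, h4⟩ := abs_le.1 h2
          constructor <;> linarith
        refine ⟨1 + n, by rw [hx0, dot_zero, zero_add]; linarith, fun i hi => ?_⟩
        rw [hx0, dot_zero, zero_add]
        rcases Nat.eq_zero_or_pos i with rfl | hi0
        · rw [hx0, dot_zero]
          exact ⟨le_rfl, by positivity⟩
        obtain ⟨i', rfl⟩ := Nat.exists_eq_add_of_le hi0
        obtain ⟨h1, h2⟩ := hband i' (by omega)
        constructor
        · linarith
        · nlinarith

end Vale.Agent.P147.Flip
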