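import Vale.Agent.P147.Linear.Blocks

/-!
# The flip argument: definitions and the statements of its finish-independent parts

One block has all lateral moments below one; the events of the flip lemma are disjoint; two
independent walks in a strip rarely meet away from both boundaries.
-/

namespace Vale.Agent.P147.Flip

open MeasureTheory Filter Topology Vale.Agent.P147.Balanced Vale.Agent.P147.Linear
open scoped ENNReal

variable {d : ℕ}

/-- The first positive regeneration time, zero if there is none. -/
noncomputable def firstT (l : Fin d → ℝ) (X : ℕ → Site d) : ℕ := sInf {n | FirstReg l n X}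

/-- The path seen from its first positive regeneration, moved to the origin. -/
noncomputable def nextB (l : Fin d → ℝ) (X : ℕ → Site d) : ℕ → Site d :=
  fun i => X (firstT l X + i) - X (firstT l X)

/-- The time at which the `n`-th block ends. -/
noncomputable def blockT (l : Fin d → ℝ) (n : ℕ) (X : ℕ → Site d) : ℕ :=
  ∑ i ∈ Finset.range n, firstT l ((nextB l)^[i] X)

/-- The height gained in the first block. -/
noncomputable def blockH (l : Fin d → ℝ) (X : ℕ → Site d) : ℝ :=
  dot l (X (firstT l X)) - dot l (X 0)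

/-- The largest deviation in coordinate `c` up to time `n`. -/
def lat (c : Fin d) (n : ℕ) (X : ℕ → Site d) : ℕ :=
  (Finset.range (n + 1)).sup fun i => (X i c - X 0 c).natAbs

/-- The lateral extent of the first block. -/
noncomputable def blockX (l : Fin d → ℝ) (c : Fin d) (X : ℕ → Site d) : ℕ := lat c (firstT l X) X

/-- Height `t` is reached before going below the origin's height. -/
def Reach0 (l : Fin d → ℝ) (t : ℝ) : Set (ℕ → Site d) :=
  {X | ∃ n, t ≤ dot l (X n) ∧ ∀ i < n, 0 ≤ dot l (X i)}

/-- A height above `t` is reached before going below the origin's height. -/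
def Pass0 (l : Fin d → ℝ) (t : ℝ) : Set (ℕ → Site d) :=
  {X | ∃ n, t < dot l (X n) ∧ ∀ i < n, 0 ≤ dot l (X i)}

/-- The second path first meets the first one, both still in the strip, away from both boundaries. -/
def StripMeet (l : Fin d → ℝ) (lo hi k : ℝ) : Set ((ℕ → Site d) × (ℕ → Site d)) :=
  {q | ∃ i j, q.1 i = q.2 j ∧ lo + k ≤ dot l (q.1 i) ∧ dot l (q.1 i) ≤ hi - k ∧
    (∀ i' ≤ i, dot l (q.1 i') ∈ Set.Icc lo hi) ∧ (∀ j' ≤ j, dot l (q.2 j') ∈ Set.Icc lo hi) ∧
    ∀ j' < j, ∀ i', (∀ i'' ≤ i', dot l (q.1 i'') ∈ Set.Icc lo hi) → q.1 i' ≠ q.2 j'}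

variable [Nonempty (Fin d)]

/-- The annealed law of the walk from `x`. -/
noncomputable def annFrom (μ : Measure (Step d → ℝ)) (x : Site d) : Measure (ℕ → Site d) :=
  (annM μ).map fun X i => X i + x

/-- The mean height of a block is finite. -/
def HeightPin (μ : Measure (Step d → ℝ)) (l : Fin d → ℝ) : Prop :=
  ann μ (Good l) ≠ 0 → ∫⁻ X in Good l, ENNReal.ofReal (blockH l X) ∂annM μ ≠ ⊤

/-- Every lateral moment below one of a block is finite. -/
def LateralPin (μ : Measure (Step d → ℝ)) (l : Fin d → ℝ) : Prop :=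
  ann μ (Good l) ≠ 0 → ∀ (c : Fin d) (g : ℝ), 0 ≤ g → g < 1 →
    ∫⁻ X in Good l, ENNReal.ofReal ((blockX l c X : ℝ) ^ g) ∂annM μ ≠ ⊤

/-- After how many blocks a walk escaping the other way avoids them is summable. -/
def FlipPin (μ : Measure (Step d → ℝ)) (l : Fin d → ℝ) : Prop :=
  ∑' n, (((annM μ).restrict (Good l)).prod ((annM μ).restrict (Good (-l))))
    {q | ∀ i < blockT l n q.1, ∀ k, q.1 i - q.1 (blockT l n q.1) ≠ q.2 k} ≤ ann μ (Good l)

/-- Two independent walks from the two sides of a strip rarely meet first away from both sides. -/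
def StripPin (μ : Measure (Step d → ℝ)) (l : Fin d → ℝ) : Prop :=
  ∀ (x y : Site d) (k : ℝ), 0 < k → k ≤ dot l y - dot l x →
    ((annFrom μ x).prod (annFrom μ y)) (StripMeet l (dot l x) (dot l y) k) ≤
      2 * (ann μ (Reach0 l k) - ann μ (Pass0 l (dot l y - dot l x))) +
      2 * (ann μ (Reach0 (-l) k) - ann μ (Pass0 (-l) (dot l y - dot l x)))

end Vale.Agent.P147.Flip
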