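import Vale.Agent.P147.Flip.Renewal

/-!
# A path has one first maximum: the disjointness behind the flip lemma
-/

namespace Vale.Agent.P147.Flip

open MeasureTheory Filter Topology Set Vale.Agent.P147.Balanced Vale.Agent.P147.Linear
open scoped ENNReal

variable {d : ℕ} {l : Fin d → ℝ}

/-- The path from the end of a record stays below it, avoids `S`, and escapes downwards. -/
def Below (l : Fin d → ℝ) (S : Finset (Site d)) : Set (ℕ → Site d) :=
  Good (-l) ∩ {X | ∀ k, X k ∉ S}

lemma measurableSet_Below (S : Finset (Site d)) : MeasurableSet (Below (d := d) l S) :=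
  measurableSet_Good.inter (by
    rw [show {X : ℕ → Site d | ∀ k, X k ∉ S} = ⋂ k, (fun X => X k) ⁻¹' {y | y ∉ S} by ext; simp]
    exact MeasurableSet.iInter fun k => measurable_pi_apply k MeasurableSet.of_discrete)

lemma dot_neg_left (x : Site d) : dot (-l) x = -dot l x := by
  simp [dot]

lemma eq_of_first_max {m n : ℕ} {X : ℕ → Site d} (hm : Rec l m X)
    (hm' : shiftP m X ∈ Stay (-l)) (hn : Rec l n X) (hn' : shiftP n X ∈ Stay (-l)) : m = n := by
  by_contra h
  wlog hlt : m < n generalizing m n
  · exact this hn hn' hm hm' (Ne.symm h) (by omega)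
  have h1 := hn m hlt
  have h2 := hm' (n - m)
  simp only [shiftP, dot_neg_left, Nat.add_zero, Nat.add_sub_cancel' hlt.le] at h2
  linarith

variable [Nonempty (Fin d)] (μ : Measure (Step d → ℝ)) [IsProbabilityMeasure μ]

open Classical in
/-- Records followed by a downward escape that avoids the past have total weight at most one. -/
theorem tsum_below_le_one (hμ : ∀ᵐ p ∂μ, (∀ e, 0 < p e) ∧ ∑ e, p e = 1) :
    ∑' n : ℕ, ∑' a : Fin (n + 1) → Site d,
      (if Rec l n (ext a) then
        Linear.wt μ n a * ∫⁻ ω, law ω (ext a n) (Below l (seen n (ext a))) ∂envLaw μ else 0) ≤ 1 := by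
  set E : ℕ → Set (ℕ → Site d) := fun n => {X | Rec l n X} ∩ shiftP n ⁻¹' Good (-l) with hE
  have hEm : ∀ n, MeasurableSet (E n) := fun n =>
    (measurableSet_Rec n).inter (measurable_shiftP n measurableSet_Good)
  have hdisj : Pairwise fun m n => Disjoint (E m) (E n) := fun m n hmn =>
    Set.disjoint_left.2 fun X hX hX' => hmn (eq_of_first_max hX.1 hX.2.1 hX'.1 hX'.2.1)
  refine le_trans (ENNReal.tsum_le_tsum fun n => ?_) (le_of_le_of_eq
    ((measure_iUnion hdisj hEm).symm.le.trans (measure_mono (Set.subset_univ _)))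
    (measure_univ (μ := annM μ)))
  rw [← ann_eq μ (hEm n), ann_eq_tsum_pre μ (hEm n) n]
  refine ENNReal.tsum_le_tsum fun a => ?_
  split_ifs with ha
  swap
  · exact bot_le
  rw [Linear.wt, ann, ← fresh μ hμ n (ext a) 0 (measurableSet_Below _) fun X hX k => hX.2 k]
  refine lintegral_mono fun ω => measure_mono ?_
  rintro X ⟨hX, hX'⟩
  exact ⟨hX, (Rec_congr (fun i hi => hX i hi)).2 ha, hX'.1⟩

omit [IsProbabilityMeasure μ] in
lemma translate_Below (v : Site d) (S : Finset (Site d)) :
    (fun (Y : ℕ → Site d) i => Y i + v) ⁻¹' Below l S = Good (-l) ∩ {Y | ∀ k, Y k + v ∉ S} := by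
  rw [Below, Set.preimage_inter, translate_preimage_Good]
  rfl

omit [IsProbabilityMeasure μ] [Nonempty (Fin d)] in
lemma measurable_blockT (n : ℕ) : Measurable (blockT (d := d) l n) :=
  Finset.measurable_sum _ fun i _ => measurable_firstT.comp (measurable_nextB.iterate i)

omit [IsProbabilityMeasure μ] [Nonempty (Fin d)] in
/-- The ends of the blocks are regenerations, one later than the other. -/
lemma reg_blockT {X : ℕ → Site d} (h0 : X 0 = 0)
    (hX : ∀ i, (nextB l)^[i] X ∈ Good l ∧
      FirstReg l (firstT l ((nextB l)^[i] X)) ((nextB l)^[i] X)) :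
    ∀ n, Reg l (blockT l n X) X ∧ blockT l n X < blockT l (n + 1) X := by
  have hstep : ∀ n, blockT l (n + 1) X = blockT l n X + firstT l ((nextB l)^[n] X) := fun n => by
    simp [blockT, Finset.sum_range_succ]
  have hlt : ∀ n, blockT l n X < blockT l (n + 1) X := fun n => by
    rw [hstep]; exact Nat.lt_add_of_pos_right (hX n).2.1
  have hgood : ∀ n, shiftP (blockT l n X) X ∈ Good l := fun n => by
    have h := (hX n).1
    rw [← translate_preimage_Good (l := l) (-X (blockT l n X))]
    show (fun i => shiftP (blockT l n X) X i + -X (blockT l n X)) ∈ Good l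
    convert h using 1
    funext i
    rw [iterate_nextB_apply n i X h0]
    simp [shiftP, sub_eq_add_neg]
  have hrec : ∀ n, Rec l (blockT l n X) X := by
    intro n
    induction n with
    | zero => intro i hi; simp [blockT_zero] at hi
    | succ n ih =>
      intro i hi
      set T := blockT l n X
      set m := firstT l ((nextB l)^[n] X)
      rw [hstep] at hi ⊢
      have hr : ∀ j < m, dot l (X (T + j)) < dot l (X (T + m)) := fun j hj => by
        have h := (hX n).2.2.1.1 j hj
        rw [iterate_nextB_apply n j X h0, iterate_nextB_apply n m X h0, sub_eq_add_neg,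
          sub_eq_add_neg, dot_add, dot_add] at h
        linarith
      rcases lt_or_ge i T with hiT | hiT
      · have h := hr 0 (hX n).2.1
        rw [Nat.add_zero] at h
        exact (ih i hiT).trans h
      · have h := hr (i - T) (by omega)
        rwa [Nat.add_sub_cancel' hiT] at h
  exact fun n => ⟨⟨hrec n, hgood n⟩, hlt n⟩

open Classical in
/-- **The flip lemma.** After how many blocks a walk escaping the other way avoids them is summable. -/
theorem flipPin (hμ : ∀ᵐ p ∂μ, (∀ e, 0 < p e) ∧ ∑ e, p e = 1) : FlipPin μ l := by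
  unfold FlipPin
  rcases eq_or_ne (ann μ (Good l)) 0 with hq | hq
  · rw [ann_eq μ measurableSet_Good] at hq
    simp [Measure.restrict_eq_zero.2 hq]
  set ν := (annM μ).restrict (Good l) with hν
  set ν' := (annM μ).restrict (Good (-l)) with hν'
  set E : ℕ → (T : ℕ) → (Fin (T + 1) → Site d) → Set (ℕ → Site d) := fun n T a =>
    {X | blockT l n X = T} ∩ pre T (ext a)
  set V : (T : ℕ) → (Fin (T + 1) → Site d) → Set (ℕ → Site d) := fun T a =>
    {Y | ∀ k, Y k + ext a T ∉ seen T (ext a)}
  have hEm : ∀ n T a, MeasurableSet (E n T a) := fun n T a =>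
    (measurable_blockT n (measurableSet_singleton T)).inter (measurableSet_pre _ _)
  have hn : ∀ n, (ν.prod ν') {q | ∀ i < blockT l n q.1, ∀ k,
      q.1 i - q.1 (blockT l n q.1) ≠ q.2 k} ≤ ∑' T : ℕ, ∑' a, ν (E n T a) * ν' (V T a) := by
    intro n
    refine le_trans (measure_mono (t := ⋃ p : Σ T : ℕ, Fin (T + 1) → Site d,
      E n p.1 p.2 ×ˢ V p.1 p.2) ?_) ((measure_iUnion_le _).trans (le_of_eq ?_))
    · intro q hq
      set T := blockT l n q.1 with hT
      refine Set.mem_iUnion.2 ⟨⟨T, res T q.1⟩, ⟨hT.symm, fun i hi =>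
        (ext_res_apply hi q.1).symm⟩, fun k hk => ?_⟩
      obtain ⟨i, hi, he⟩ := Finset.mem_image.1 hk
      have hi' := Finset.mem_range.1 hi
      rw [ext_res_apply hi'.le, ext_res_apply le_rfl] at he
      exact hq i hi' k (by rw [he, add_sub_cancel_right])
    · rw [ENNReal.tsum_sigma']
      exact tsum_congr fun T => tsum_congr fun a => Measure.prod_prod _ _
  have hsum : ∀ T a, ∑' n, ν (E n T a) ≤
      if Rec l T (ext a) then Linear.wt μ T a * ann μ (Good l) else 0 := by
    intro T a
    have hae : ∀ᵐ X ∂ν, ∀ n, Reg l (blockT l n X) X ∧ blockT l n X < blockT l (n + 1) X := by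
      filter_upwards [ae_iterate_good μ hμ hq] with X hX
      exact reg_blockT hX.1 hX.2
    have hd : Pairwise fun m n => AEDisjoint ν (E m T a) (E n T a) := fun m n hmn => by
      refine measure_mono_null (fun X hX => ?_) (ae_iff.1 hae)
      simp only [Set.mem_ofPred_eq]
      intro h
      have hs : StrictMono fun n => blockT l n X := strictMono_nat_of_lt_succ fun n => (h n).2
      exact hmn (hs.injective ((show blockT l m X = T from hX.1.1).trans
        (show blockT l n X = T from hX.2.1).symm))
    rw [← measure_iUnion₀ hd fun n => (hEm n T a).nullMeasurableSet]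
    have hsub : ν (⋃ n, E n T a) ≤ ν ({X | Reg l T X} ∩ pre T (ext a)) := by
      refine measure_mono_ae ?_
      filter_upwards [hae] with X hX hm
      obtain ⟨n, hn1, hn2⟩ := Set.mem_iUnion.1 hm
      have h1 : blockT l n X = T := hn1
      exact ⟨h1 ▸ (hX n).1, hn2⟩
    refine hsub.trans (le_trans (Measure.restrict_apply_le _ _) ?_)
    split_ifs with hr
    · rw [← ann_eq μ ((measurableSet_Reg T).inter (measurableSet_pre _ _)), Linear.wt, ann, ann]
      refine le_trans (lintegral_mono fun ω => measure_mono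
        (t := pre T (ext a) ∩ shiftP T ⁻¹' Good l) fun X hX => ⟨hX.2, hX.1.2⟩) ?_
      exact (fresh_good μ hμ 0 hr).le
    · rw [show {X | Reg l T X} ∩ pre T (ext a) = ∅ from Set.eq_empty_of_forall_notMem
        fun X hX => hr ((Rec_congr fun i hi => hX.2 i hi).1 hX.1.1)]
      simp
  have hV : ∀ T a, ν' (V T a) =
      ∫⁻ ω, law ω (ext a T) (Below l (seen T (ext a))) ∂envLaw μ := by
    intro T a
    have hm : MeasurableSet (V T a) := by
      rw [show V T a = ⋂ k, (fun Y : ℕ → Site d => Y k) ⁻¹' {y | y + ext a T ∉ seen T (ext a)} by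
        ext; simp [V]]
      exact MeasurableSet.iInter fun k => measurable_pi_apply k MeasurableSet.of_discrete
    rw [lintegral_law_eq_ann μ (ext a T) (measurableSet_Below _), translate_Below,
      ann_eq μ (measurableSet_Good.inter hm), hν', Measure.restrict_apply hm, Set.inter_comm]
  calc ∑' n, (ν.prod ν') {q | ∀ i < blockT l n q.1, ∀ k,
        q.1 i - q.1 (blockT l n q.1) ≠ q.2 k}
      ≤ ∑' n, ∑' T : ℕ, ∑' a, ν (E n T a) * ν' (V T a) := ENNReal.tsum_le_tsum hn
    _ = ∑' T : ℕ, ∑' a, (∑' n, ν (E n T a)) * ν' (V T a) := by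
        rw [ENNReal.tsum_comm]
        refine tsum_congr fun T => ?_
        rw [ENNReal.tsum_comm]
        exact tsum_congr fun a => ENNReal.tsum_mul_right
    _ ≤ ∑' T : ℕ, ∑' a : Fin (T + 1) → Site d, ann μ (Good l) * (if Rec l T (ext a) then
          Linear.wt μ T a * ∫⁻ ω, law ω (ext a T) (Below l (seen T (ext a))) ∂envLaw μ
        else 0) := by
        refine ENNReal.tsum_le_tsum fun T => ENNReal.tsum_le_tsum fun a => ?_
        rw [hV]
        refine (mul_le_mul_left (hsum T a) _).trans (le_of_eq ?_)
        split_ifs <;> ring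
    _ ≤ ann μ (Good l) := by
        simp only [ENNReal.tsum_mul_left]
        exact mul_le_of_le_one_right' (tsum_below_le_one μ hμ)

end Vale.Agent.P147.Flip
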