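import Vale.Agent.P147.Flip.Cone

/-!
# Every lateral moment below one of a block is finite
-/

namespace Vale.Agent.P147.Flip

open MeasureTheory Filter Topology Set Vale.Agent.P147.Balanced Vale.Agent.P147.Linear
open scoped ENNReal

variable {d : ℕ} {l : Fin d → ℝ}

lemma abs_vec_le (e : Step d) (c : Fin d) : |((vec e c : ℤ) : ℝ)| ≤ 1 := by
  obtain ⟨i, b⟩ := e
  by_cases hi : c = i
  · subst hi; cases b <;> simp [vec]
  · simp [vec, Pi.single_eq_of_ne hi]

lemma tilt_step_le {L ε : ℝ} (hL : ∀ e : Step d, dot l (vec e) ≤ L) (c : Fin d) (e : Step d) :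
    dot (tilt l c ε) (vec e) ≤ L + |ε| := by
  rw [dot_tilt]
  refine add_le_add (hL e) ((le_abs_self _).trans ?_)
  rw [abs_mul]
  exact mul_le_of_le_one_right (abs_nonneg _) (abs_vec_le e c)

/-- Splitting a natural number over levels. -/
lemma layer_le {Q : ℝ} (hQ : 0 < Q) (M : ℕ) (x : ℕ) :
    (x : ℝ≥0∞) ≤ ENNReal.ofReal Q * (((M + 1 : ℕ) : ℝ≥0∞) +
      ∑' k : ℕ, if Q * (M + k + 1 : ℕ) ≤ (x : ℝ) then (1 : ℝ≥0∞) else 0) := by
  set m := ⌊(x : ℝ) / Q⌋₊
  have h1 : (x : ℝ) < Q * (m + 1) := by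
    have := Nat.lt_floor_add_one ((x : ℝ) / Q)
    rw [div_lt_iff₀ hQ] at this
    linarith
  have h2 : ∀ k, k < m - M → Q * (M + k + 1 : ℕ) ≤ (x : ℝ) := by
    intro k hk
    have h3 : ((M + k + 1 : ℕ) : ℝ) ≤ (x : ℝ) / Q :=
      le_trans (by exact_mod_cast (by omega : M + k + 1 ≤ m)) (Nat.floor_le (by positivity))
    rw [le_div_iff₀ hQ] at h3
    linarith
  have h3 : ((m - M : ℕ) : ℝ≥0∞) ≤
      ∑' k : ℕ, if Q * (M + k + 1 : ℕ) ≤ (x : ℝ) then (1 : ℝ≥0∞) else 0 := by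
    refine le_trans (le_of_eq ?_) (ENNReal.sum_le_tsum (Finset.range (m - M)))
    rw [Finset.sum_congr rfl fun k hk => if_pos (h2 k (Finset.mem_range.1 hk))]
    simp
  refine le_trans ?_ (mul_le_mul_right (add_le_add le_rfl h3) _)
  rw [← Nat.cast_add, ← ENNReal.ofReal_natCast x, ← ENNReal.ofReal_natCast (M + 1 + (m - M)),
    ← ENNReal.ofReal_mul hQ.le]
  refine ENNReal.ofReal_le_ofReal (h1.le.trans (mul_le_mul_of_nonneg_left ?_ hQ.le))
  exact_mod_cast (by omega : m + 1 ≤ M + 1 + (m - M))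

/-- Dyadic layers of a positive number. -/
lemma sum_dyadic_le (x : ℝ) (P : ℕ) :
    ∑ p ∈ Finset.range P, (if (2 : ℝ) ^ p < x then (2 : ℝ) ^ p else 0) ≤ 2 * max x 0 := by
  have hle : ∀ P : ℕ, ∑ p ∈ Finset.range P, (if (2 : ℝ) ^ p < x then (2 : ℝ) ^ p else 0) ≤
      (2 : ℝ) ^ P - 1 := by
    intro P
    induction P with
    | zero => simp
    | succ P ih =>
      rw [Finset.sum_range_succ, pow_succ]
      split_ifs <;> linarith [pow_pos (two_pos : (0 : ℝ) < 2) P]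
  induction P with
  | zero => simp
  | succ P ih =>
    rw [Finset.sum_range_succ]
    split_ifs with h
    · linarith [hle P, le_max_left x 0]
    · linarith

/-- A fractional power against dyadic layers. -/
lemma rpow_le_layers {g : ℝ} (hg : 0 ≤ g) (x : ℕ) :
    ENNReal.ofReal ((x : ℝ) ^ g) ≤ 1 + ∑' j : ℕ,
      if (2 : ℝ) ^ j ≤ (x : ℝ) then ENNReal.ofReal ((2 : ℝ) ^ (((j : ℝ) + 1) * g)) else 0 := by
  rcases Nat.eq_zero_or_pos x with rfl | hx
  · refine le_add_right (ENNReal.ofReal_le_one.2 ?_)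
    rcases hg.eq_or_lt with rfl | hg'
    · simp
    · simp [Real.zero_rpow hg'.ne']
  refine le_add_left (le_trans ?_ (ENNReal.le_tsum (Nat.log 2 x)))
  have h1 : (2 : ℝ) ^ Nat.log 2 x ≤ (x : ℝ) := by exact_mod_cast Nat.pow_log_le_self 2 hx.ne'
  rw [if_pos h1, Real.rpow_mul (by norm_num)]
  refine ENNReal.ofReal_le_ofReal (Real.rpow_le_rpow (by positivity) ?_ hg)
  rw [show ((Nat.log 2 x : ℝ) + 1) = ((Nat.log 2 x + 1 : ℕ) : ℝ) by push_cast; ring,
    Real.rpow_natCast]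
  exact_mod_cast (Nat.lt_pow_succ_log_self (by norm_num : 1 < 2) x).le

/-- A weight summable against the linear one leaves growth of any exponential rate. -/
lemma weighted_growth {a dd : ℕ → ℝ} {K R B η : ℝ} {p₀ : ℕ} (ha : ∀ k, 0 < a k)
    (hdd0 : ∀ k, 0 ≤ dd k) (hB : ∀ P, ∑ k ∈ Finset.range P, dd k ≤ B) (hK : 0 < K) (hR : 0 ≤ R)
    (hη : 0 < η)
    (hstep : ∀ k, p₀ ≤ k →
      a (k + 1) ≤ a k * (1 + (K * ((k + 1) * dd k) + R * (1 / 2) ^ k))) :
    ∃ Ka : ℝ, 0 < Ka ∧ ∀ P, p₀ ≤ P → a P ≤ Ka * (2 : ℝ) ^ (η * P) := by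
  have hsum : Summable dd := summable_of_sum_range_le hdd0 hB
  obtain ⟨θ, hθ, hθη⟩ : ∃ θ : ℝ, 0 < θ ∧ K * θ = η * Real.log 2 :=
    ⟨η * Real.log 2 / K, by positivity, mul_div_cancel₀ _ hK.ne'⟩
  obtain ⟨p₁, hp₁⟩ := ((tendsto_sum_nat_add dd).eventually (Iic_mem_nhds hθ)).exists
  set Cy := K * ((p₁ + 1) * B) + R * 2 + η * Real.log 2
  have hy : ∀ P : ℕ, ∑ k ∈ Finset.range P, (K * ((k + 1) * dd k) + R * (1 / 2) ^ k) ≤
      Cy + η * Real.log 2 * P := by
    intro P
    have hw : ∑ k ∈ Finset.range P, ((k : ℝ) + 1) * dd k ≤ (p₁ + 1) * B + (P + 1) * θ := by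
      calc ∑ k ∈ Finset.range P, ((k : ℝ) + 1) * dd k
          ≤ ∑ k ∈ Finset.range P,
              (((p₁ : ℝ) + 1) * dd k + ((P : ℝ) + 1) * if p₁ ≤ k then dd k else 0) := by
            refine Finset.sum_le_sum fun k hk => ?_
            have hkP : (k : ℝ) ≤ P := by exact_mod_cast (Finset.mem_range.1 hk).le
            split_ifs with hkp
            · nlinarith [hdd0 k, Nat.cast_nonneg (α := ℝ) p₁]
            · have : (k : ℝ) ≤ p₁ := by exact_mod_cast (not_le.1 hkp).le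
              nlinarith [hdd0 k]
        _ ≤ _ := by
            rw [Finset.sum_add_distrib, ← Finset.mul_sum, ← Finset.mul_sum]
            refine add_le_add (mul_le_mul_of_nonneg_left (hB P) (by positivity))
              (mul_le_mul_of_nonneg_left ?_ (by positivity))
            rw [← Finset.sum_filter]
            have hsub : (Finset.range P).filter (fun k => p₁ ≤ k) ⊆
                (Finset.range P).image (· + p₁) := fun k hk => by
              obtain ⟨h1, h2⟩ := Finset.mem_filter.1 hk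
              exact Finset.mem_image.2 ⟨k - p₁, Finset.mem_range.2 (by
                have := Finset.mem_range.1 h1; omega), by omega⟩
            refine (Finset.sum_le_sum_of_subset_of_nonneg hsub fun k _ _ => hdd0 k).trans ?_
            rw [Finset.sum_image fun a _ b _ h => add_right_cancel h]
            exact (((summable_nat_add_iff p₁).2 hsum).sum_le_tsum _ fun k _ => hdd0 _).trans hp₁
    have hgeo : ∑ k ∈ Finset.range P, ((1 : ℝ) / 2) ^ k ≤ 2 := sum_geometric_two_le P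
    rw [Finset.sum_add_distrib, ← Finset.mul_sum, ← Finset.mul_sum]
    have e1 := mul_le_mul_of_nonneg_left hw hK.le
    have e2 := mul_le_mul_of_nonneg_left hgeo hR
    simp only [Cy]
    linear_combination e1 + e2 + ((P : ℝ) + 1) * hθη
  refine ⟨a p₀ * Real.exp Cy, mul_pos (ha p₀) (Real.exp_pos _), fun P hP => ?_⟩
  have hexp : a P ≤ a p₀ *
      Real.exp (∑ k ∈ Finset.range P, (K * ((k + 1) * dd k) + R * (1 / 2) ^ k)) := by
    induction P, hP using Nat.le_induction with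
    | base =>
      exact le_mul_of_one_le_right (ha p₀).le (Real.one_le_exp (Finset.sum_nonneg fun k _ =>
        add_nonneg (mul_nonneg hK.le (mul_nonneg (by positivity) (hdd0 k))) (by positivity)))
    | succ P hP ih =>
      have h0 : 0 ≤ K * ((P + 1) * dd P) + R * (1 / 2) ^ P :=
        add_nonneg (mul_nonneg hK.le (mul_nonneg (by positivity) (hdd0 P))) (by positivity)
      rw [Finset.sum_range_succ, Real.exp_add, ← mul_assoc]
      exact (hstep P hP).trans (mul_le_mul ih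
        (by linarith [Real.add_one_le_exp (K * ((P + 1) * dd P) + R * (1 / 2) ^ P)])
        (by linarith) (mul_pos (ha p₀) (Real.exp_pos _)).le)
  refine hexp.trans ?_
  rw [Real.rpow_def_of_pos two_pos, mul_assoc, ← Real.exp_add]
  refine mul_le_mul_of_nonneg_left (Real.exp_le_exp.2 ((hy P).trans_eq ?_)) (ha p₀).le
  ring

/-- Trials at a rate growing like a power leave a tail below any exponential rate. -/
lemma trials_tail {pr Kq δ Q : ℝ} {j kk : ℕ} (hpr : 0 < pr) (hpr1 : pr ≤ 1) (hKq : 0 < Kq)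
    (hQ0 : 0 < Q) (hQj : Q * (2 : ℝ) ^ (δ * (j : ℝ)) ≤ Kq * (2 : ℝ) ^ j)
    (hkk : 1 ≤ kk * δ) :
    2 * (1 - pr) ^ ⌊(2 : ℝ) ^ j / Q⌋₊ ≤
      2 * Real.exp 1 * ((kk.factorial : ℝ) * (Kq / pr) ^ kk) * (2 : ℝ) ^ (-(j : ℝ)) := by
  set m := ⌊(2 : ℝ) ^ j / Q⌋₊
  set x := pr * (2 : ℝ) ^ (δ * (j : ℝ)) / Kq with hxdef
  have hx : 0 < x := by positivity
  have hm : x ≤ pr * m + 1 := by
    have h2 : (2 : ℝ) ^ (δ * (j : ℝ)) / Kq ≤ (2 : ℝ) ^ j / Q := by
      rw [div_le_div_iff₀ hKq hQ0]; linarith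
    have h1 := mul_le_mul_of_nonneg_left (h2.trans (Nat.lt_floor_add_one _).le) hpr.le
    rw [hxdef, mul_div_assoc]
    linarith
  have hexp : (1 - pr) ^ m ≤ Real.exp 1 * ((kk.factorial : ℝ) / x ^ kk) := by
    calc (1 - pr) ^ m ≤ Real.exp (-pr) ^ m :=
          pow_le_pow_left₀ (by linarith) (Real.one_sub_le_exp_neg pr) m
      _ = Real.exp (-(pr * m)) := by rw [← Real.exp_nat_mul]; congr 1; ring
      _ ≤ Real.exp (1 - x) := Real.exp_le_exp.2 (by linarith)
      _ ≤ _ := by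
          rw [sub_eq_add_neg, Real.exp_add]
          refine mul_le_mul_of_nonneg_left ?_ (Real.exp_pos _).le
          rw [Real.exp_neg, inv_le_comm₀ (Real.exp_pos _) (by positivity), inv_div]
          exact Real.pow_div_factorial_le_exp x hx.le kk
  refine (mul_le_mul_of_nonneg_left hexp two_pos.le).trans ?_
  simp only [mul_assoc]
  refine mul_le_mul_of_nonneg_left (mul_le_mul_of_nonneg_left ?_ (Real.exp_pos _).le) two_pos.le
  rw [div_eq_mul_inv]
  refine mul_le_mul_of_nonneg_left ?_ (by positivity)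
  have e : (x ^ kk)⁻¹ = (Kq / pr) ^ kk * ((2 : ℝ) ^ (δ * j * kk))⁻¹ := by
    rw [Real.rpow_mul two_pos.le, Real.rpow_natCast, ← inv_pow, ← inv_pow, ← mul_pow]
    congr 1
    rw [hxdef]
    field_simp
  rw [e, Real.rpow_neg two_pos.le]
  refine mul_le_mul_of_nonneg_left (inv_anti₀ (by positivity)
    (Real.rpow_le_rpow_of_exponent_le one_le_two ?_)) (by positivity)
  nlinarith [Nat.cast_nonneg (α := ℝ) j]

variable [Nonempty (Fin d)] (μ : Measure (Step d → ℝ)) [IsProbabilityMeasure μ]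

/-- Straight runs climb any height inside some band. -/
theorem exists_climb_straight (hμ : ∀ᵐ p ∂μ, (∀ e, 0 < p e) ∧ ∑ e, p e = 1) (hl : l ≠ 0)
    (T : ℝ) (c : Fin d) :
    ∃ ε G : ℝ, ∃ p : ℝ≥0∞, 0 < ε ∧ 0 ≤ G ∧ p ≠ 0 ∧ p ≤ 1 ∧
      p ≤ annM μ (Climb l (tilt l c ε) T G) ∧ p ≤ annM μ (Climb l (tilt l c (-ε)) T G) := by
  obtain ⟨u, hu, -⟩ := exists_up hl
  set L := dot l (vec u)
  set n := ⌈T / L⌉₊
  refine ⟨L / 2, n * (2 * L), ann μ (pre n (pathPos 0 fun _ => u)), half_pos hu, by positivity,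
    ann_pre_pathPos_ne_zero μ hμ n _,
    by rw [ann_eq μ (measurableSet_pre _ _)]; exact prob_le_one, ?_, ?_⟩
  all_goals
    rw [ann_eq μ (measurableSet_pre _ _)]
    refine measure_mono fun X hX => ⟨n, ?_, fun i hi => ?_⟩
    · rw [hX n le_rfl, hX 0 (Nat.zero_le n), dot_pathPos, dot_pathPos]
      have := Nat.le_ceil (T / L)
      rw [div_le_iff₀ hu] at this
      simpa [n, L] using this
    · rw [hX i hi, hX 0 (Nat.zero_le n), dot_pathPos, dot_pathPos]
      simp only [Finset.sum_const, Finset.card_range, nsmul_eq_mul, dot_tilt, Nat.cast_zero,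
        zero_mul, zero_add, Finset.range_zero, Finset.card_empty]
      have h1 := abs_le.1 (abs_vec_le u c)
      have hv : L = dot l (vec u) := rfl
      rw [← hv]
      refine ⟨mul_nonneg (Nat.cast_nonneg i) (by nlinarith), ?_⟩
      exact mul_le_mul (Nat.cast_le.2 hi) (by nlinarith) (by nlinarith)
        (Nat.cast_nonneg n)

/-- Blocks lying in a slab are short sideways. -/
theorem slab_tail (hμ : ∀ᵐ p ∂μ, (∀ e, 0 < p e) ∧ ∑ e, p e = 1) (hq : ann μ (Good l) ≠ 0)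
    {L ε G T T' : ℝ} (hL : ∀ e : Step d, dot l (vec e) ≤ L) (hL0 : 0 ≤ L) (hε : 0 < ε)
    (hG : 0 ≤ G) (hT : T' < T) (c : Fin d) {p : ℝ≥0∞}
    (h1 : p ≤ annM μ (Climb l (tilt l c ε) T G))
    (h2 : p ≤ annM μ (Climb l (tilt l c (-ε)) T G)) (m : ℕ) :
    (annM μ).restrict (Good l)
        {X | blockH l X ≤ T' ∧ (G + L + ε + 1) / ε * m ≤ (blockX l c X : ℝ)} ≤
      2 * (1 - p) ^ m := by
  rcases Nat.eq_zero_or_pos m with rfl | hm
  · simp only [pow_zero, mul_one]
    exact le_trans ((measure_mono (Set.subset_univ _)).trans (le_of_eq_of_le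
      (Measure.restrict_apply_univ _) prob_le_one)) one_le_two
  have hw : ∀ s : ℝ, |s| = ε → p ≤ annM μ (Climb l (tilt l c s) T G) →
      annM μ (Wander l (tilt l c s) T (m * (G + (L + ε) + 1))) ≤ (1 - p) ^ m := fun s hs hp =>
    wander_le μ hμ (by linarith) hG
      (fun e => (tilt_step_le hL c e).trans_eq (by rw [hs])) hp m
  calc (annM μ).restrict (Good l)
        {X | blockH l X ≤ T' ∧ (G + L + ε + 1) / ε * m ≤ (blockX l c X : ℝ)}
      ≤ (annM μ).restrict (Good l) (Wander l (tilt l c ε) T (m * (G + (L + ε) + 1)) ∪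
          Wander l (tilt l c (-ε)) T (m * (G + (L + ε) + 1))) := by
        refine measure_mono_ae ?_
        filter_upwards [ae_firstReg μ hμ hq, ae_restrict_of_ae (ae_annM_zero μ),
          ae_restrict_mem measurableSet_Good] with X hf h0 hgood hX
        obtain ⟨hH, hQ⟩ := hX
        obtain ⟨i, hi, hsup⟩ := Finset.exists_mem_eq_sup (Finset.range (firstT l X + 1))
          ⟨0, by simp⟩ fun i => (X i c - X 0 c).natAbs
        have hslab : ∀ j ≤ i, dot l (X j) ∈ Set.Ico 0 T := by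
          intro j hj
          have hji : j ≤ firstT l X :=
            hj.trans (Nat.le_of_lt_succ (Finset.mem_range.1 hi))
          have hlo := hgood.1 j
          rw [h0, dot_zero] at hlo
          refine ⟨hlo, ?_⟩
          simp only [blockH, h0, dot_zero, sub_zero] at hH
          rcases hji.lt_or_eq with hlt | heq
          · linarith [hf.2.1.1 j hlt]
          · rw [heq]; linarith
        have hlo := (hslab i le_rfl).1
        have hx : (blockX l c X : ℝ) = |(X i c : ℝ)| := by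
          have : blockX l c X = (X i c).natAbs := by
            rw [blockX, lat, hsup, h0]; simp
          rw [this, Nat.cast_natAbs, Int.cast_abs]
        rw [hx, div_mul_eq_mul_div, div_le_iff₀ hε] at hQ
        rcases le_total 0 ((X i c : ℤ) : ℝ) with hs | hs
        · refine Or.inl ⟨i, ?_, hslab⟩
          rw [abs_of_nonneg hs] at hQ
          rw [dot_tilt]
          nlinarith
        · refine Or.inr ⟨i, ?_, hslab⟩
          rw [abs_of_nonpos hs] at hQ
          rw [dot_tilt]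
          nlinarith
    _ ≤ _ := by
        refine (Measure.restrict_apply_le _ _).trans ((measure_union_le _ _).trans ?_)
        rw [two_mul]
        exact add_le_add (hw ε (abs_of_pos hε) h1)
          (hw (-ε) (by rw [abs_neg, abs_of_pos hε]) h2)

/-- The mean lateral extent over blocks of heights in `(T₁, T']`. -/
theorem slab_mean (hμ : ∀ᵐ p ∂μ, (∀ e, 0 < p e) ∧ ∑ e, p e = 1) (hq : ann μ (Good l) ≠ 0)
    {L ε G T T' : ℝ} (T₁ : ℝ) (hL : ∀ e : Step d, dot l (vec e) ≤ L) (hL0 : 0 ≤ L) (hε : 0 < ε)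
    (hG : 0 ≤ G) (hT : T' < T) (c : Fin d) {p : ℝ≥0∞} (hp1 : p ≤ 1)
    (h1 : p ≤ annM μ (Climb l (tilt l c ε) T G))
    (h2 : p ≤ annM μ (Climb l (tilt l c (-ε)) T G)) (M : ℕ) :
    ∫⁻ X in Good l, {X | T₁ < blockH l X}.indicator (latBelow l c T') X ∂annM μ ≤
      ENNReal.ofReal ((G + L + ε + 1) / ε) *
        (((M + 1 : ℕ) : ℝ≥0∞) * (annM μ).restrict (Good l) {X | T₁ < blockH l X} +
          2 * (1 - p) ^ M * p⁻¹) := by
  set Q := (G + L + ε + 1) / ε
  have hQ : 0 < Q := by positivity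
  set S : ℕ → Set (ℕ → Site d) :=
    fun k => {X | blockH l X ≤ T' ∧ Q * (M + k + 1 : ℕ) ≤ (blockX l c X : ℝ)}
  have hSm : ∀ k, MeasurableSet (S k) := fun k =>
    (measurableSet_le measurable_blockH measurable_const).inter
      (measurableSet_le measurable_const
        ((measurable_of_countable (fun x : ℕ => (x : ℝ))).comp (measurable_blockX c)))
  have hT1 : MeasurableSet {X : ℕ → Site d | T₁ < blockH l X} :=
    measurableSet_lt measurable_const measurable_blockH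
  have hpt : ∀ X, {X | T₁ < blockH l X}.indicator (latBelow l c T') X ≤ ENNReal.ofReal Q *
      (((M + 1 : ℕ) : ℝ≥0∞) * {X | T₁ < blockH l X}.indicator 1 X +
        ∑' k, (S k).indicator 1 X) := by
    intro X
    by_cases ha : T₁ < blockH l X
    · rw [Set.indicator_of_mem (show X ∈ {X | T₁ < blockH l X} from ha),
        Set.indicator_of_mem (show X ∈ {X | T₁ < blockH l X} from ha), Pi.one_apply, mul_one]
      by_cases hb : blockH l X ≤ T'
      · rw [latBelow, Set.indicator_of_mem (show X ∈ {X | blockH l X ≤ T'} from hb)]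
        refine (layer_le hQ M _).trans (mul_le_mul_right (add_le_add le_rfl
          (ENNReal.tsum_le_tsum fun k => ?_)) _)
        split_ifs with hk
        · rw [Set.indicator_of_mem (show X ∈ S k from ⟨hb, hk⟩)]; rfl
        · exact bot_le
      · rw [latBelow, Set.indicator_of_notMem (show X ∉ {X | blockH l X ≤ T'} from hb)]
        exact bot_le
    · simp [ha]
  refine (lintegral_mono hpt).trans ?_
  have hm1 : Measurable fun X => {X : ℕ → Site d | T₁ < blockH l X}.indicator (1 : (ℕ → Site d) → ℝ≥0∞) X :=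
    measurable_one.indicator hT1
  have hm2 : Measurable fun X => ((M + 1 : ℕ) : ℝ≥0∞) * {X : ℕ → Site d | T₁ < blockH l X}.indicator
      (1 : (ℕ → Site d) → ℝ≥0∞) X := hm1.const_mul _
  have hm3 : Measurable fun X => ∑' k, (S k).indicator (1 : (ℕ → Site d) → ℝ≥0∞) X :=
    Measurable.tsum fun k => measurable_one.indicator (hSm k)
  rw [lintegral_const_mul _ (hm2.fun_add hm3), lintegral_add_left hm2, lintegral_const_mul _ hm1,
    lintegral_indicator_one hT1,
    lintegral_tsum fun k => (measurable_one.indicator (hSm k)).aemeasurable]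
  refine mul_le_mul_right (add_le_add le_rfl ?_) _
  simp_rw [lintegral_indicator_one (hSm _)]
  calc ∑' k, (annM μ).restrict (Good l) (S k)
      ≤ ∑' k : ℕ, 2 * (1 - p) ^ M * (1 - p) ^ k := ENNReal.tsum_le_tsum fun k => by
        refine (slab_tail μ hμ hq hL hL0 hε hG hT c h1 h2 (M + k + 1)).trans ?_
        rw [mul_assoc, ← pow_add]
        exact mul_le_mul_right (pow_le_pow_of_le_one bot_le tsub_le_self (Nat.le_succ _)) _
    _ = _ := by
        rw [ENNReal.tsum_mul_left, ENNReal.tsum_geometric,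
          ENNReal.sub_sub_cancel ENNReal.one_ne_top hp1]

/-- One band adds little to the truncated mean. -/
lemma mean_band (hμ : ∀ᵐ p ∂μ, (∀ e, 0 < p e) ∧ ∑ e, p e = 1) (hq : ann μ (Good l) ≠ 0)
    {L ε G T T' T₁ : ℝ} (hL : ∀ e : Step d, dot l (vec e) ≤ L) (hL0 : 0 ≤ L) (hε : 0 < ε)
    (hG : 0 ≤ G) (hT : T' < T) (hT₁ : T₁ ≤ T') (c : Fin d) {p : ℝ≥0∞} (hp0 : p ≠ 0) (hp1 : p ≤ 1)
    (h1 : p ≤ annM μ (Climb l (tilt l c ε) T G))
    (h2 : p ≤ annM μ (Climb l (tilt l c (-ε)) T G))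
    (hfin : ∫⁻ X in Good l, latBelow l c T₁ X ∂annM μ ≠ ⊤) (M : ℕ) :
    (∫⁻ X in Good l, latBelow l c T' X ∂annM μ).toReal ≤
      (∫⁻ X in Good l, latBelow l c T₁ X ∂annM μ).toReal + (G + L + ε + 1) / ε *
        (((M + 1 : ℕ) : ℝ) * ((annM μ).restrict (Good l) {X | T₁ < blockH l X}).toReal +
          2 * (1 - p.toReal) ^ M / p.toReal) := by
  have h := slab_mean μ hμ hq T₁ hL hL0 hε hG hT c hp1 h1 h2 M
  have hsplit : ∫⁻ X in Good l, latBelow l c T' X ∂annM μ ≤
      (∫⁻ X in Good l, latBelow l c T₁ X ∂annM μ) +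
        ∫⁻ X in Good l, {X | T₁ < blockH l X}.indicator (latBelow l c T') X ∂annM μ := by
    rw [← lintegral_add_left (measurable_latBelow c _)]
    refine lintegral_mono fun X => ?_
    by_cases hX : T₁ < blockH l X
    · rw [Set.indicator_of_mem (show X ∈ {X | T₁ < blockH l X} from hX)]
      exact le_add_left le_rfl
    · refine le_add_right (le_of_eq ?_)
      simp only [latBelow]
      rw [Set.indicator_of_mem (show X ∈ {X | blockH l X ≤ T₁} from not_lt.1 hX),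
        Set.indicator_of_mem (show X ∈ {X | blockH l X ≤ T'} from (not_lt.1 hX).trans hT₁)]
  have hA : ((M + 1 : ℕ) : ℝ≥0∞) * (annM μ).restrict (Good l) {X | T₁ < blockH l X} ≠ ⊤ :=
    ENNReal.mul_ne_top (ENNReal.natCast_ne_top _) (measure_ne_top _ _)
  have hB : 2 * (1 - p) ^ M * p⁻¹ ≠ ⊤ := by simp [hp0, ENNReal.mul_eq_top]
  have hR : ENNReal.ofReal ((G + L + ε + 1) / ε) *
      (((M + 1 : ℕ) : ℝ≥0∞) * (annM μ).restrict (Good l) {X | T₁ < blockH l X} +
        2 * (1 - p) ^ M * p⁻¹) ≠ ⊤ :=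
    ENNReal.mul_ne_top ENNReal.ofReal_ne_top (ENNReal.add_ne_top.2 ⟨hA, hB⟩)
  have h' := ENNReal.toReal_mono (ENNReal.add_ne_top.2 ⟨hfin, hR⟩)
    (hsplit.trans (add_le_add le_rfl h))
  rw [ENNReal.toReal_add hfin hR, ENNReal.toReal_mul, ENNReal.toReal_ofReal (by positivity),
    ENNReal.toReal_add hA hB, ENNReal.toReal_mul, ENNReal.toReal_natCast, ENNReal.toReal_mul,
    ENNReal.toReal_mul, ENNReal.toReal_ofNat, ENNReal.toReal_pow, ENNReal.toReal_inv,
    ENNReal.toReal_sub_of_le hp1 ENNReal.one_ne_top, ENNReal.toReal_one] at h'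
  exact h'.trans_eq (by ring)

omit [Nonempty (Fin d)] in
/-- The layers of the height sum to at most twice its mean. -/
lemma layers_le {ν : Measure (ℕ → Site d)} [IsFiniteMeasure ν]
    (hH : ∫⁻ X, ENNReal.ofReal (blockH l X) ∂ν ≠ ⊤) (P : ℕ) :
    ∑ k ∈ Finset.range P, (2 : ℝ) ^ k * (ν {X | (2 : ℝ) ^ k < blockH l X}).toReal ≤
      2 * (∫⁻ X, ENNReal.ofReal (blockH l X) ∂ν).toReal := by
  have hmH : ∀ k : ℕ, MeasurableSet {X : ℕ → Site d | (2 : ℝ) ^ k < blockH l X} :=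
    fun k => measurableSet_lt measurable_const measurable_blockH
  have h : ∑ k ∈ Finset.range P, ENNReal.ofReal ((2 : ℝ) ^ k) *
      ν {X | (2 : ℝ) ^ k < blockH l X} ≤
        2 * ∫⁻ X, ENNReal.ofReal (blockH l X) ∂ν := by
    rw [← lintegral_const_mul' _ _ ENNReal.ofNat_ne_top]
    simp only [← lintegral_indicator_const (hmH _)]
    rw [← lintegral_finsetSum _ fun k _ => measurable_const.indicator (hmH k)]
    refine lintegral_mono fun X => ?_
    rw [Finset.sum_congr rfl fun k _ => show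
        {X : ℕ → Site d | (2 : ℝ) ^ k < blockH l X}.indicator
            (fun _ => ENNReal.ofReal ((2 : ℝ) ^ k)) X =
          ENNReal.ofReal (if (2 : ℝ) ^ k < blockH l X then (2 : ℝ) ^ k else 0) by
      by_cases hX : (2 : ℝ) ^ k < blockH l X <;> simp [hX]]
    rw [← ENNReal.ofReal_sum_of_nonneg fun k _ => by split_ifs <;> positivity]
    refine (ENNReal.ofReal_le_ofReal (sum_dyadic_le _ P)).trans_eq ?_
    rw [ENNReal.ofReal_mul two_pos.le, ENNReal.ofReal_ofNat]
    rcases le_total 0 (blockH l X) with hs | hs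
    · rw [max_eq_left hs]
    · rw [max_eq_right hs, ENNReal.ofReal_zero, ENNReal.ofReal_eq_zero.2 hs]
  have h2 := ENNReal.toReal_mono (ENNReal.mul_ne_top (by norm_num) hH) h
  rw [ENNReal.toReal_mul, ENNReal.toReal_sum fun k _ =>
    ENNReal.mul_ne_top ENNReal.ofReal_ne_top (measure_ne_top _ _)] at h2
  refine le_trans (le_of_eq (Finset.sum_congr rfl fun k _ => ?_)) (h2.trans_eq (by simp))
  rw [ENNReal.toReal_mul, ENNReal.toReal_ofReal (by positivity)]

/-- The growth of the truncated means bounds the tail. -/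
lemma tail_moment (hμ : ∀ᵐ p ∂μ, (∀ e, 0 < p e) ∧ ∑ e, p e = 1) (hq : ann μ (Good l) ≠ 0)
    {L g β η δ' pr C c₀ K₁ Ka : ℝ} {c : Fin d} {p : ℝ≥0∞} {a : ℕ → ℝ}
    (hL : ∀ e : Step d, dot l (vec e) ≤ L) (hL0 : 0 ≤ L) (hg0 : 0 ≤ g) (hgβ : g < β) (hβ1 : β ≤ 1)
    (hη : 0 ≤ η) (hδd : δ' = 1 - β - η) (hδ' : 0 < δ') (hpr : 0 < pr) (hpr1 : pr ≤ 1)
    (hpt : p ≠ ⊤) (hpp : pr = p.toReal) (hc₀ : 0 < c₀) (hK₁ : 0 < K₁) (hKa : 0 < Ka)
    (hH : ∫⁻ X, ENNReal.ofReal (blockH l X) ∂(annM μ).restrict (Good l) ≠ ⊤)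
    (p₀ : ℕ) (hC : 0 ≤ C) (ha1 : ∀ k, 1 ≤ a k)
    (hband : ∀ k, p₀ ≤ k → ∀ ε : ℝ, |ε| ≤ c₀ / a k →
      p ≤ annM μ (Climb l (tilt l c ε) ((2 : ℝ) ^ (k + 1) + 1) (C * ((2 : ℝ) ^ (k + 1) + 1))))
    (hQle : ∀ k, (C * ((2 : ℝ) ^ (k + 1) + 1) + L + c₀ / a k + 1) / (c₀ / a k) ≤
      K₁ * ((2 : ℝ) ^ k * a k))
    (hgrow : ∀ P, p₀ ≤ P → a P ≤ Ka * (2 : ℝ) ^ (η * P)) :
    ∫⁻ X in Good l, ENNReal.ofReal ((blockX l c X : ℝ) ^ g) ∂annM μ ≠ ⊤ := by
  subst hpp
  have hβ0 : 0 ≤ β := by linarith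
  set pr := p.toReal
  set ν := (annM μ).restrict (Good l)
  obtain ⟨Kq, hKqd, hKq⟩ : ∃ Kq, Kq = K₁ * Ka * (2 : ℝ) ^ ((1 + η) * ((p₀ : ℝ) + 1)) ∧ 0 < Kq :=
    ⟨_, rfl, by positivity⟩
  obtain ⟨kk, hkk⟩ : ∃ kk : ℕ, 1 ≤ kk * δ' :=
    ⟨⌈1 / δ'⌉₊, (div_le_iff₀ hδ').1 (Nat.le_ceil _)⟩
  set Kt := 2 * Real.exp 1 * ((kk.factorial : ℝ) * (Kq / pr) ^ kk)
  have htail : ∀ j : ℕ, ν {X | (2 : ℝ) ^ j ≤ (blockX l c X : ℝ)} ≤
      ENNReal.ofReal ((∫⁻ X, ENNReal.ofReal (blockH l X) ∂ν).toReal * (2 : ℝ) ^ (-(β * j)) +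
        Kt * (2 : ℝ) ^ (-(j : ℝ))) := by
    intro j
    set P := ⌈β * (j : ℝ)⌉₊ + p₀
    have hPlo : β * j ≤ ((P + 1 : ℕ) : ℝ) := by
      have h1 := Nat.le_ceil (β * (j : ℝ))
      simp only [P]; push_cast; linarith [Nat.cast_nonneg (α := ℝ) p₀]
    have hPhi : (P : ℝ) ≤ β * j + 1 + p₀ := by
      have := (Nat.ceil_lt_add_one (show 0 ≤ β * (j : ℝ) by positivity)).le
      simp only [P]; push_cast; linarith
    have hak : 0 < a P := lt_of_lt_of_le one_pos (ha1 P)
    have hε : 0 < c₀ / a P := div_pos hc₀ hak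
    set Q := (C * ((2 : ℝ) ^ (P + 1) + 1) + L + c₀ / a P + 1) / (c₀ / a P)
    have hQ0 : 0 < Q := by positivity
    set m := ⌊(2 : ℝ) ^ j / Q⌋₊
    have ht := slab_tail μ hμ hq hL hL0 hε (by positivity) (lt_add_one _) c
      (hband P (Nat.le_add_left _ _) (c₀ / a P) (abs_of_pos hε).le)
      (hband P (Nat.le_add_left _ _) (-(c₀ / a P)) (by rw [abs_neg]; exact (abs_of_pos hε).le)) m
      (T' := (2 : ℝ) ^ (P + 1))
    have hQj : Q * (2 : ℝ) ^ (δ' * (j : ℝ)) ≤ Kq * (2 : ℝ) ^ j := by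
      have e : (2 : ℝ) ^ j = (2 : ℝ) ^ ((β + η) * (j : ℝ)) * (2 : ℝ) ^ (δ' * (j : ℝ)) := by
        rw [← Real.rpow_add two_pos, ← Real.rpow_natCast, hδd]
        congr 1
        ring
      rw [e, ← mul_assoc]
      refine mul_le_mul_of_nonneg_right ((hQle P).trans ?_) (by positivity)
      rw [hKqd, mul_assoc, mul_assoc]
      refine mul_le_mul_of_nonneg_left ?_ hK₁.le
      calc (2 : ℝ) ^ P * a P
          ≤ (2 : ℝ) ^ P * (Ka * (2 : ℝ) ^ (η * P)) :=
            mul_le_mul_of_nonneg_left (hgrow P (Nat.le_add_left _ _)) (by positivity)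
        _ = Ka * (2 : ℝ) ^ ((1 + η) * (P : ℝ)) := by
            rw [show (1 + η) * (P : ℝ) = (P : ℝ) + η * P by ring, Real.rpow_add two_pos,
              Real.rpow_natCast]
            ring
        _ ≤ _ := by
            refine mul_le_mul_of_nonneg_left ?_ hKa.le
            rw [← Real.rpow_add two_pos]
            refine Real.rpow_le_rpow_of_exponent_le one_le_two ?_
            have := mul_le_mul_of_nonneg_left hPhi (show (0 : ℝ) ≤ 1 + η by linarith)
            nlinarith [mul_le_mul_of_nonneg_right hβ1 (mul_nonneg hη (Nat.cast_nonneg (α := ℝ) j))]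
    have hfinal := trials_tail hpr hpr1 hKq hQ0 hQj hkk
    have hsub : {X : ℕ → Site d | (2 : ℝ) ^ j ≤ (blockX l c X : ℝ)} ⊆
        {X | ENNReal.ofReal ((2 : ℝ) ^ (β * (j : ℝ))) ≤ ENNReal.ofReal (blockH l X)} ∪
          {X | blockH l X ≤ (2 : ℝ) ^ (P + 1) ∧ Q * m ≤ (blockX l c X : ℝ)} := by
      intro X hX
      rcases le_or_gt (blockH l X) ((2 : ℝ) ^ (P + 1)) with hs | hs
      · refine Or.inr ⟨hs, le_trans ?_ hX⟩
        rw [mul_comm, ← le_div_iff₀ hQ0]
        exact Nat.floor_le (by positivity)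
      · refine Or.inl (ENNReal.ofReal_le_ofReal (le_trans ?_ hs.le))
        rw [← Real.rpow_natCast]
        exact Real.rpow_le_rpow_of_exponent_le one_le_two hPlo
    refine (measure_mono hsub).trans ((measure_union_le _ _).trans ?_)
    rw [ENNReal.ofReal_add (by positivity) (by positivity)]
    refine add_le_add ?_ (ht.trans ?_)
    · refine (meas_ge_le_lintegral_div (ENNReal.measurable_ofReal.comp measurable_blockH).aemeasurable
        (by simpa using Real.rpow_pos_of_pos two_pos _) ENNReal.ofReal_ne_top).trans ?_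
      rw [Real.rpow_neg two_pos.le, ENNReal.ofReal_mul ENNReal.toReal_nonneg,
        ENNReal.ofReal_toReal hH, ENNReal.ofReal_inv_of_pos (by positivity)]
      exact le_rfl
    · rw [← ENNReal.ofReal_toReal hpt, ← ENNReal.ofReal_one, ← ENNReal.ofReal_sub _ hpr.le,
        ← ENNReal.ofReal_pow (by linarith), ← ENNReal.ofReal_ofNat 2,
        ← ENNReal.ofReal_mul two_pos.le]
      exact ENNReal.ofReal_le_ofReal hfinal
  set EH := (∫⁻ X, ENNReal.ofReal (blockH l X) ∂ν).toReal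
  have hm : ∀ j : ℕ, MeasurableSet {X : ℕ → Site d | (2 : ℝ) ^ j ≤ (blockX l c X : ℝ)} :=
    fun j => measurableSet_le measurable_const
      ((measurable_of_countable (fun x : ℕ => (x : ℝ))).comp (measurable_blockX c))
  set F : ℕ → ℝ := fun j => (2 : ℝ) ^ (((j : ℝ) + 1) * g) *
    (EH * (2 : ℝ) ^ (-(β * j)) + Kt * (2 : ℝ) ^ (-(j : ℝ)))
  have hF : Summable F := by
    have hgeo : ∀ s : ℝ, s < 0 → Summable fun j : ℕ => (2 : ℝ) ^ (s * j) := fun s hs => by
      simp_rw [Real.rpow_mul two_pos.le, Real.rpow_natCast]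
      exact summable_geometric_of_lt_one (by positivity)
        (Real.rpow_lt_one_of_one_lt_of_neg one_lt_two hs)
    refine (((hgeo (g - β) (by linarith)).mul_left ((2 : ℝ) ^ g * EH)).add
      ((hgeo (g - 1) (by linarith)).mul_left ((2 : ℝ) ^ g * Kt))).congr fun j => ?_
    simp only [F, sub_mul, one_mul, add_mul, Real.rpow_add two_pos, Real.rpow_sub two_pos,
      Real.rpow_neg two_pos.le, mul_comm g]
    ring
  refine ne_top_of_le_ne_top (b := ν univ + ENNReal.ofReal (∑' j, F j)) (by simp)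
    ((lintegral_mono fun X => rpow_le_layers hg0 (blockX l c X)).trans ?_)
  rw [lintegral_add_left measurable_const, lintegral_one,
    lintegral_tsum fun j => (Measurable.ite (hm j) measurable_const measurable_const).aemeasurable]
  refine add_le_add le_rfl ?_
  rw [ENNReal.ofReal_tsum_of_nonneg (fun j => by positivity) hF]
  refine ENNReal.tsum_le_tsum fun j => ?_
  calc ∫⁻ X, (if (2 : ℝ) ^ j ≤ (blockX l c X : ℝ) then
        ENNReal.ofReal ((2 : ℝ) ^ (((j : ℝ) + 1) * g)) else 0) ∂ν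
      = ENNReal.ofReal ((2 : ℝ) ^ (((j : ℝ) + 1) * g)) *
          ν {X | (2 : ℝ) ^ j ≤ (blockX l c X : ℝ)} := by
        rw [← lintegral_indicator_const (hm j)]
        refine lintegral_congr fun X => ?_
        by_cases hX : (2 : ℝ) ^ j ≤ (blockX l c X : ℝ) <;> simp [hX]
    _ ≤ ENNReal.ofReal ((2 : ℝ) ^ (((j : ℝ) + 1) * g)) * _ := mul_le_mul_right (htail j) _
    _ = _ := (ENNReal.ofReal_mul (by positivity)).symm

/-- Every lateral moment below one of a block is finite. -/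
theorem lateralPin (hμ : ∀ᵐ p ∂μ, (∀ e, 0 < p e) ∧ ∑ e, p e = 1) : LateralPin μ l := by
  classical
  intro hq c g hg0 hg1
  have hl : l ≠ 0 := by
    rintro rfl
    refine hq ?_
    have : Good (d := d) (0 : Fin d → ℝ) = ∅ := Set.eq_empty_of_forall_notMem fun X hX => by
      obtain ⟨n, hn⟩ := (Filter.tendsto_atTop.1 hX.2 1).exists
      simp [dot] at hn
      linarith
    simp [this, ann]
  obtain ⟨u, hu, hmax⟩ := exists_up hl
  set L := dot l (vec u)
  have hL : ∀ e : Step d, dot l (vec e) ≤ L := fun e => by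
    refine le_trans ?_ (hmax e.1)
    rw [dot_vec]
    split_ifs
    · exact le_abs_self _
    · exact neg_le_abs _
  set ν := (annM μ).restrict (Good l)
  have hHpos : ∀ᵐ X ∂ν, 0 < blockH l X := (ae_firstReg μ hμ hq).mono fun X hX =>
    sub_pos.2 (hX.2.1.1 0 hX.1)
  set mean : ℝ → ℝ≥0∞ := fun t => ∫⁻ X, latBelow l c t X ∂ν
  have hfin : ∀ t, mean t ≠ ⊤ := by
    intro t
    obtain ⟨ε, G, p, hε, hG, hp0, hp1, h1, h2⟩ := exists_climb_straight μ hμ hl (t + 1) c
    refine ne_top_of_le_ne_top ?_ ((lintegral_mono_ae ?_).trans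
      (slab_mean μ hμ hq 0 hL hu.le hε hG (lt_add_one t) c hp1 h1 h2 0))
    · refine ENNReal.mul_ne_top ENNReal.ofReal_ne_top (ENNReal.add_ne_top.2
        ⟨ENNReal.mul_ne_top (ENNReal.natCast_ne_top _) (measure_ne_top _ _), ?_⟩)
      simp [hp0, ENNReal.mul_eq_top]
    · filter_upwards [hHpos] with X hX
      rw [Set.indicator_of_mem (show X ∈ {X | (0 : ℝ) < blockH l X} from hX)]
  obtain ⟨p, C, T₀, c₀, hp0, hp1, hC, hT₀, hc₀, hclimb⟩ := exists_climb μ hμ hq hl
  have hpt : p ≠ ⊤ := ne_top_of_le_ne_top ENNReal.one_ne_top hp1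
  set pr := p.toReal
  have hpr : 0 < pr := ENNReal.toReal_pos hp0 hpt
  have hpr1 : pr ≤ 1 := by
    simpa using ENNReal.toReal_mono ENNReal.one_ne_top hp1
  set a : ℕ → ℝ := fun k => (mean ((2 : ℝ) ^ k)).toReal + 1
  have ha1 : ∀ k, 1 ≤ a k := fun k => le_add_of_nonneg_left ENNReal.toReal_nonneg
  set K₁ : ℝ := (3 * C + L + c₀ + 1) / c₀
  have hK₁ : 0 < K₁ := by positivity
  obtain ⟨p₀, hp₀⟩ := pow_unbounded_of_one_lt T₀ (one_lt_two : (1 : ℝ) < 2)
  -- one dyadic step: the band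
  have hband : ∀ k, p₀ ≤ k → ∀ ε : ℝ, |ε| ≤ c₀ / a k →
      p ≤ annM μ (Climb l (tilt l c ε) ((2 : ℝ) ^ (k + 1) + 1) (C * ((2 : ℝ) ^ (k + 1) + 1))) := by
    intro k hk ε hε
    have h2k : (2 : ℝ) ^ p₀ ≤ (2 : ℝ) ^ k := pow_le_pow_right₀ one_le_two hk
    have hk1 : (1 : ℝ) ≤ (2 : ℝ) ^ k := one_le_pow₀ one_le_two
    refine hclimb _ ?_ c (a k) (ha1 k) ?_ ε hε
    · rw [pow_succ]; linarith
    · calc ∫⁻ X in Good l, latBelow l c (((2 : ℝ) ^ (k + 1) + 1) / 4) X ∂annM μ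
          ≤ mean ((2 : ℝ) ^ k) := lintegral_mono fun X => by
            simp only [latBelow]
            refine Set.indicator_le_indicator_of_subset (fun X (hX : blockH l X ≤ _) => ?_)
              (fun _ => bot_le) X
            show blockH l X ≤ (2 : ℝ) ^ k
            rw [pow_succ] at hX
            linarith
        _ ≤ _ := by
            rw [← ENNReal.ofReal_toReal (hfin _)]
            exact ENNReal.ofReal_le_ofReal (by simp [a])
  have hQle : ∀ k, (C * ((2 : ℝ) ^ (k + 1) + 1) + L + c₀ / a k + 1) / (c₀ / a k) ≤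
      K₁ * ((2 : ℝ) ^ k * a k) := by
    intro k
    have hak := ha1 k
    have hk1 : (1 : ℝ) ≤ (2 : ℝ) ^ k := one_le_pow₀ one_le_two
    have h1 : c₀ / a k ≤ c₀ := div_le_self hc₀.le hak
    rw [div_div_eq_mul_div]
    simp only [K₁]
    rw [div_mul_eq_mul_div]
    refine div_le_div_of_nonneg_right ?_ hc₀.le
    rw [pow_succ, ← mul_assoc]
    refine mul_le_mul_of_nonneg_right ?_ (by linarith)
    nlinarith
  obtain ⟨K₂, hK₂⟩ : ∃ K₂ : ℕ, (1 - pr) ^ K₂ < 1 / 4 :=
    exists_pow_lt_of_lt_one (by norm_num) (by linarith)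
  have hH : ∫⁻ X, ENNReal.ofReal (blockH l X) ∂ν ≠ ⊤ := heightPin μ hμ (l := l) hq
  set dd : ℕ → ℝ := fun k => (2 : ℝ) ^ k * (ν {X | (2 : ℝ) ^ k < blockH l X}).toReal
  have hstep : ∀ k, p₀ ≤ k → a (k + 1) ≤ a k * (1 + (K₁ * ((K₂ + 1 : ℕ) : ℝ) *
      ((k + 1) * dd k) + K₁ * (2 / pr) * (1 / 2) ^ k)) := by
    intro k hk
    have hak : 0 < a k := lt_of_lt_of_le one_pos (ha1 k)
    have hε : 0 < c₀ / a k := div_pos hc₀ hak
    have h := mean_band μ hμ hq hL hu.le hε (by positivity) (lt_add_one _)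
      (pow_le_pow_right₀ one_le_two (Nat.le_succ k)) c hp0 hp1
      (hband k hk (c₀ / a k) (abs_of_pos hε).le)
      (hband k hk (-(c₀ / a k)) (by rw [abs_neg]; exact (abs_of_pos hε).le)) (hfin _) (K₂ * (k + 1))
    have hpow : (1 - pr) ^ (K₂ * (k + 1)) ≤ (1 / 4 : ℝ) ^ k := by
      rw [pow_mul]
      refine (pow_le_pow_left₀ (pow_nonneg (by linarith) _) hK₂.le _).trans
        (pow_le_pow_of_le_one (by norm_num) (by norm_num) (Nat.le_succ k))
    set δ := (ν {X | (2 : ℝ) ^ k < blockH l X}).toReal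
    have hX : ((K₂ * (k + 1) + 1 : ℕ) : ℝ) * δ + 2 * (1 - pr) ^ (K₂ * (k + 1)) / pr ≤
        ((K₂ + 1 : ℕ) : ℝ) * (k + 1) * δ + 2 / pr * (1 / 4) ^ k := by
      refine add_le_add (mul_le_mul_of_nonneg_right ?_ ENNReal.toReal_nonneg) ?_
      · push_cast; nlinarith [Nat.cast_nonneg (α := ℝ) k]
      · rw [div_mul_eq_mul_div]
        gcongr
    have hq2 : (2 : ℝ) ^ k * (1 / 4) ^ k = (1 / 2) ^ k := by rw [← mul_pow]; norm_num
    have hmul := mul_le_mul (hQle k) hX
      (add_nonneg (by positivity) (div_nonneg (mul_nonneg (by norm_num)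
        (pow_nonneg (by linarith) _)) hpr.le)) (by positivity)
    calc a (k + 1) ≤ a k + K₁ * ((2 : ℝ) ^ k * a k) *
          (((K₂ + 1 : ℕ) : ℝ) * (k + 1) * δ + 2 / pr * (1 / 4) ^ k) := by
          simp only [a]
          linarith
      _ = _ := by
          simp only [dd, δ]
          rw [← hq2]
          ring
  set β := (1 + g) / 2 with hβ
  set η := (1 - β) / 2 with hηd
  have hβ1 : β < 1 := by rw [hβ]; linarith
  have hgβ : g < β := by rw [hβ]; linarith
  have hη : 0 < η := by rw [hηd]; linarith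
  obtain ⟨Ka, hKa, hgrow⟩ := weighted_growth (a := a) (fun k => lt_of_lt_of_le one_pos (ha1 k))
    (fun k => (by positivity : 0 ≤ dd k)) (fun P => layers_le hH P)
    (mul_pos hK₁ (by positivity)) (by positivity) hη hstep
  obtain ⟨δ', hδd, hδ'⟩ : ∃ δ', δ' = 1 - β - η ∧ 0 < δ' := ⟨_, rfl, by rw [hηd]; linarith⟩
  exact tail_moment μ hμ hq hL hu.le hg0 hgβ hβ1.le hη.le hδd hδ' hpr hpr1 hpt rfl
    hc₀ hK₁ hKa hH p₀ (zero_le_one.trans hC) ha1 hband hQle hgrow

end Vale.Agent.P147.Flip
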