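import Vale.Agent.P147.Flip.Renewal
import Vale.Agent.P147.Linear.Speed
import Vale.Agent.P147.Linear.Moment

/-!
# The mean height of a block is finite
-/

namespace Vale.Agent.P147.Flip

open MeasureTheory Filter Topology Set Vale.Agent.P147.Balanced Vale.Agent.P147.Linear
open scoped ENNReal

variable {d : ℕ} {l : Fin d → ℝ}

lemma dot_sub (x y : Site d) : dot l (x - y) = dot l x - dot l y := by
  have := dot_add (l := l) (x - y) y
  rw [sub_add_cancel] at this
  linarith

lemma measurable_blockH : Measurable (blockH (d := d) l) :=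
  ((measurable_of_countable (dot l)).comp (measurable_apply_time measurable_firstT)).sub
    (measurable_dot 0)

/-- The height after `i` blocks. -/
noncomputable def sumH (l : Fin d → ℝ) (i : ℕ) (X : ℕ → Site d) : ℝ :=
  ∑ j ∈ Finset.range i, blockH l ((nextB l)^[j] X)

lemma measurable_sumH (i : ℕ) : Measurable (sumH (d := d) l i) :=
  Finset.measurable_sum _ fun _ _ => measurable_blockH.comp (measurable_nextB.iterate _)

lemma sumH_eq (i : ℕ) : ∀ X : ℕ → Site d, X 0 = 0 → sumH l i X = dot l (X (blockT l i X)) := by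
  induction i with
  | zero => intro X h0; simp [sumH, blockT_zero, h0, dot_zero]
  | succ i ih =>
    intro X h0
    have hn : nextB l X 0 = 0 := by simp [nextB]
    simp only [sumH, Finset.sum_range_succ', Function.iterate_zero_apply,
      Function.iterate_succ_apply]
    rw [← sumH, ih _ hn, blockT_succ, blockH, h0, dot_zero]
    simp only [nextB, dot_sub]
    ring

lemma reg_nextB {X : ℕ → Site d} {m : ℕ} (hf : FirstReg l (firstT l X) X) (hm : Reg l m X)
    (hm0 : 0 < m) : firstT l X ≤ m ∧ Reg l (m - firstT l X) (nextB l X) := by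
  have hle : firstT l X ≤ m := not_lt.1 fun h => hf.2.2 m hm0 h hm
  obtain ⟨k, hk⟩ := Nat.exists_eq_add_of_le hle
  refine ⟨hle, ?_⟩
  rw [hk, Nat.add_sub_cancel_left]
  rw [hk] at hm
  refine ⟨fun i hi => ?_, ?_⟩
  · simp only [nextB, dot_sub]
    linarith [hm.1 (firstT l X + i) (by omega)]
  · have : shiftP k (nextB l X) =
        fun i => shiftP (firstT l X + k) X i + -X (firstT l X) := by
      funext i; simp [shiftP, nextB, add_assoc, sub_eq_add_neg]
    rw [this, ← Set.mem_preimage (f := fun (Y : ℕ → Site d) i => Y i + -X (firstT l X)),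
      translate_preimage_Good]
    exact hm.2

/-- Every regeneration ends a block. -/
lemma exists_blockT : ∀ (m : ℕ) (X : ℕ → Site d),
    (∀ i, FirstReg l (firstT l ((nextB l)^[i] X)) ((nextB l)^[i] X)) → Reg l m X →
      ∃ i, blockT l i X = m := by
  intro m
  induction m using Nat.strong_induction_on with
  | _ m ih =>
    intro X hX hm
    rcases Nat.eq_zero_or_pos m with rfl | hm0
    · exact ⟨0, blockT_zero X⟩
    obtain ⟨hle, hreg⟩ := reg_nextB (X := X) (hX 0) hm hm0
    have hpos : 0 < firstT l X := (hX 0).1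
    have hlt : m - firstT l X < m := Nat.sub_lt hm0 hpos
    obtain ⟨i, hi⟩ := ih (m - firstT l X) hlt (nextB l X)
      (fun i => by simpa [Function.iterate_succ_apply] using hX (i + 1)) hreg
    exact ⟨i + 1, by rw [blockT_succ, hi]; omega⟩

variable [Nonempty (Fin d)] (μ : Measure (Step d → ℝ)) [IsProbabilityMeasure μ]

open Classical in
/-- Splitting an integral along the first block. -/
theorem lintegral_split (hμ : ∀ᵐ p ∂μ, (∀ e, 0 < p e) ∧ ∑ e, p e = 1)
    (hq : ann μ (Good l) ≠ 0) {F : (n : ℕ) → (Fin (n + 1) → Site d) → (ℕ → Site d) → ℝ≥0∞}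
    (hF : ∀ n a, Measurable (F n a)) :
    ∫⁻ X in Good l, F (firstT l X) (res (firstT l X) X) (nextB l X) ∂annM μ =
      ∑' n, ∑' a : Fin (n + 1) → Site d,
        if Block l n (ext a) then wt μ n a * ∫⁻ Y in Good l, F n a Y ∂annM μ else 0 := by
  set U : ((n : ℕ) × (Fin (n + 1) → Site d)) → Set (ℕ → Site d) := fun p =>
    Good l ∩ {X | FirstReg l p.1 X} ∩ pre p.1 (ext p.2)
  have hUm : ∀ p, MeasurableSet (U p) := fun p =>
    (measurableSet_Good.inter (measurableSet_FirstReg p.1)).inter (measurableSet_pre _ _)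
  have hd : Pairwise fun p p' => Disjoint (U p) (U p') := by
    rintro ⟨n, a⟩ ⟨n', a'⟩ hne
    refine Set.disjoint_left.2 fun X hX hX' => hne ?_
    obtain rfl : n = n' := (firstT_eq hX.1.2).symm.trans (firstT_eq hX'.1.2)
    have h1 : res n X = a := by simpa [U, pre_ext] using hX.2
    have h2 : res n X = a' := by simpa [U, pre_ext] using hX'.2
    rw [← h1, ← h2]
  have hcov : (⋃ p, U p : Set (ℕ → Site d)) =ᵐ[annM μ] Good l := by
    refine Filter.EventuallyLE.antisymm
      (Filter.Eventually.of_forall fun X hX => ?_) ?_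
    · obtain ⟨p, hp⟩ := Set.mem_iUnion.1 hX
      exact hp.1.1
    · filter_upwards [(ae_restrict_iff' measurableSet_Good).1 (ae_firstReg μ hμ hq)] with X hX hG
      exact Set.mem_iUnion.2 ⟨⟨firstT l X, res _ X⟩, ⟨hG, hX hG⟩,
        fun i hi => (ext_res_apply hi X).symm⟩
  conv_lhs => rw [← Measure.restrict_congr_set hcov]
  rw [lintegral_iUnion hUm hd, ENNReal.tsum_sigma']
  refine tsum_congr fun n => tsum_congr fun a => ?_
  have hmap : ((annM μ).restrict (U ⟨n, a⟩)).map (nextB l) =
      (if Block l n (ext a) then wt μ n a else 0) • (annM μ).restrict (Good l) := by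
    refine Measure.ext fun B hB => ?_
    rw [Measure.map_apply measurable_nextB hB, Measure.restrict_apply (measurable_nextB hB),
      Set.inter_comm, annM_block_next μ hμ n a hB, Measure.smul_apply,
      Measure.restrict_apply hB, Set.inter_comm, smul_eq_mul]
    split_ifs <;> simp
  rw [setLIntegral_congr_fun (g := fun X => F n a (nextB l X)) (hUm _) fun X hX => by
    have h2 : res n X = a := by simpa [U, pre_ext] using hX.2
    obtain rfl := (firstT_eq hX.1.2).symm
    subst h2; rfl]
  rw [← lintegral_map (hF n a) measurable_nextB, hmap, lintegral_smul_measure, smul_eq_mul]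
  rw [ite_mul, zero_mul]

/-- A block is independent of the heights before it. -/
theorem lintegral_after (hμ : ∀ᵐ p ∂μ, (∀ e, 0 < p e) ∧ ∑ e, p e = 1)
    (hq : ann μ (Good l) ≠ 0) {G : (ℕ → Site d) → ℝ≥0∞} (hG : Measurable G) :
    ∀ (i : ℕ) (R : ℝ),
      ann μ (Good l) * ∫⁻ X in Good l, {X | sumH l i X < R}.indicator 1 X *
          G ((nextB l)^[i] X) ∂annM μ =
        annM μ (Good l ∩ {X | sumH l i X < R}) * ∫⁻ X in Good l, G X ∂annM μ := by
  classical
  intro i
  induction i with
  | zero =>
    intro R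
    by_cases hR : (0 : ℝ) < R
    · simp [sumH, hR, ann_eq μ measurableSet_Good]
    · simp [sumH, hR]
  | succ i ih =>
    intro R
    set hd : (n : ℕ) → (Fin (n + 1) → Site d) → ℝ := fun n a => dot l (ext a n) - dot l (ext a 0)
    have hm : ∀ R' : ℝ, MeasurableSet {X : ℕ → Site d | sumH l i X < R'} :=
      fun R' => measurableSet_lt (measurable_sumH i) measurable_const
    have hkey : ∀ X : ℕ → Site d,
        (sumH l (i + 1) X < R ↔ sumH l i (nextB l X) < R - hd (firstT l X) (res _ X)) := by
      intro X
      simp only [hd, ext_res_apply le_rfl, ext_res_apply (Nat.zero_le _)]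
      simp only [sumH, Finset.sum_range_succ', Function.iterate_zero_apply,
        Function.iterate_succ_apply, blockH]
      constructor <;> intro h <;> linarith
    have e1 : ∫⁻ X in Good l, {X | sumH l (i + 1) X < R}.indicator 1 X *
        G ((nextB l)^[i + 1] X) ∂annM μ =
        ∑' n, ∑' a : Fin (n + 1) → Site d, if Block l n (ext a) then wt μ n a *
          ∫⁻ Y in Good l, {Y | sumH l i Y < R - hd n a}.indicator 1 Y *
            G ((nextB l)^[i] Y) ∂annM μ else 0 := by
      rw [← lintegral_split μ hμ hq (F := fun n a Y =>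
        {Y | sumH l i Y < R - hd n a}.indicator 1 Y * G ((nextB l)^[i] Y)) fun n a =>
        (measurable_one.indicator (hm _)).mul (hG.comp (measurable_nextB.iterate i))]
      refine lintegral_congr fun X => ?_
      rw [Function.iterate_succ_apply]
      congr 1
      simp only [Set.indicator_apply, Set.mem_ofPred_eq, hkey X, Pi.one_apply]
    have e2 : annM μ (Good l ∩ {X | sumH l (i + 1) X < R}) =
        ∑' n, ∑' a : Fin (n + 1) → Site d, if Block l n (ext a) then wt μ n a *
          annM μ (Good l ∩ {Y | sumH l i Y < R - hd n a}) else 0 := by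
      have hm' : MeasurableSet {X : ℕ → Site d | sumH l (i + 1) X < R} :=
        measurableSet_lt (measurable_sumH _) measurable_const
      rw [Set.inter_comm, ← Measure.restrict_apply hm', ← lintegral_indicator_one hm']
      rw [lintegral_congr (g := fun X => {Y | sumH l i Y < R - hd (firstT l X) (res _ X)}.indicator 1
          (nextB l X)) fun X => by
        simp only [Set.indicator_apply, Set.mem_ofPred_eq, hkey X, Pi.one_apply],
        lintegral_split μ hμ hq (F := fun n a Y =>
          {Y | sumH l i Y < R - hd n a}.indicator 1 Y) fun n a => measurable_one.indicator (hm _)]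
      refine tsum_congr fun n => tsum_congr fun a => ?_
      rw [lintegral_indicator_one (hm _), Measure.restrict_apply (hm _), Set.inter_comm]
    rw [e1, e2, ← ENNReal.tsum_mul_left, ← ENNReal.tsum_mul_right]
    refine tsum_congr fun n => ?_
    rw [← ENNReal.tsum_mul_left, ← ENNReal.tsum_mul_right]
    refine tsum_congr fun a => ?_
    split_ifs
    · rw [mul_left_comm, ih, mul_assoc]
    · simp

lemma ae_annM_step {L : ℝ} (hμ : ∀ᵐ p ∂μ, (∀ e, 0 < p e) ∧ ∑ e, p e = 1)
    (hL : ∀ e : Step d, dot l (vec e) ≤ L) :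
    ∀ᵐ X ∂annM μ, ∀ n, dot l (X (n + 1)) ≤ dot l (X n) + L := by
  have hm : MeasurableSet {X : ℕ → Site d | ¬∀ n, dot l (X (n + 1)) ≤ dot l (X n) + L} := by
    rw [show {X : ℕ → Site d | ¬∀ n, dot l (X (n + 1)) ≤ dot l (X n) + L} =
      (⋂ n, {X | dot l (X (n + 1)) ≤ dot l (X n) + L})ᶜ by ext; simp]
    exact (MeasurableSet.iInter fun n =>
      measurableSet_le (measurable_dot (n + 1)) ((measurable_dot n).add_const L)).compl
  refine ae_iff.2 ?_
  rw [← ann_eq μ hm]
  refine (lintegral_eq_zero_iff (measurable_law_apply 0 hm)).2 ?_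
  filter_upwards [ae_elliptic μ hμ] with ω hω
  exact ae_iff.1 (ae_step_le hω 0 hL)

/-- A regeneration after a record is charged at least `ann μ (Good l)` times the record. -/
theorem good_rec_le (hμ : ∀ᵐ p ∂μ, (∀ e, 0 < p e) ∧ ∑ e, p e = 1) (R : ℝ) (m : ℕ) :
    ann μ (Good l) * annM μ (Good l ∩ {X | Rec l m X ∧ dot l (X m) < R}) ≤
      annM μ (Good l ∩ {X | Reg l m X ∧ dot l (X m) < R}) := by
  set E : Set (ℕ → Site d) :=
    {X | Rec l m X ∧ dot l (X m) < R ∧ ∀ i ≤ m, dot l (X 0) ≤ dot l (X i)}
  have hEm : MeasurableSet E := by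
    rw [show E = {X | Rec l m X} ∩ {X | dot l (X m) < R} ∩
      ⋂ i, ⋂ (_ : i ≤ m), {X | dot l (X 0) ≤ dot l (X i)} by ext; simp [E, and_assoc]]
    exact ((measurableSet_Rec m).inter (measurableSet_lt (measurable_dot m) measurable_const)).inter
      (MeasurableSet.iInter fun i => MeasurableSet.iInter fun _ =>
        measurableSet_le (measurable_dot 0) (measurable_dot i))
  have hEp : Prefix m fun X => X ∈ E := fun X Y h => propext <| by
    simp only [E, Set.mem_ofPred_eq]
    rw [Rec_congr h, h m le_rfl]
    exact and_congr_right fun _ => and_congr_right fun _ =>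
      forall₂_congr fun i hi => by rw [h 0 (Nat.zero_le m), h i hi]
  calc ann μ (Good l) * annM μ (Good l ∩ {X | Rec l m X ∧ dot l (X m) < R})
      ≤ ann μ (Good l) * annM μ E :=
        mul_le_mul_right (measure_mono fun X hX => (show X ∈ E from
          ⟨hX.2.1, hX.2.2, fun i _ => hX.1.1 i⟩)) _
    _ = annM μ (E ∩ shiftP m ⁻¹' Good l) := by
        rw [← ann_eq μ hEm, ← ann_eq μ (hEm.inter (measurable_shiftP m measurableSet_Good)),
          ann_inter_good μ hμ hEm hEp fun X hX => hX.1, mul_comm]
    _ ≤ _ := by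
        refine measure_mono fun X hX => ⟨⟨fun i => ?_, ?_⟩, ⟨hX.1.1, hX.2⟩, hX.1.2.1⟩
        · rcases Nat.le_total i m with hi | hi
          · exact hX.1.2.2 i hi
          · have h1 := hX.2.1 (i - m)
            simp only [shiftP, add_zero, Nat.add_sub_cancel' hi] at h1
            exact (hX.1.2.2 m le_rfl).trans h1
        · exact shiftP_mem_escape.1 hX.2.2

omit [Nonempty (Fin d)] in
open Classical in
lemma count_blocks {X : ℕ → Site d} (h0 : X 0 = 0)
    (hX : ∀ i, FirstReg l (firstT l ((nextB l)^[i] X)) ((nextB l)^[i] X)) (R : ℝ) :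
    ∑' m, {X : ℕ → Site d | Reg l m X ∧ dot l (X m) < R}.indicator (1 : (ℕ → Site d) → ℝ≥0∞) X ≤
      ∑' i, {X : ℕ → Site d | sumH l i X < R}.indicator (1 : (ℕ → Site d) → ℝ≥0∞) X := by
  rw [ENNReal.tsum_eq_iSup_sum]
  refine iSup_le fun F => ?_
  set F' := F.filter fun m => Reg l m X ∧ dot l (X m) < R
  have hF : ∑ m ∈ F, {X : ℕ → Site d | Reg l m X ∧ dot l (X m) < R}.indicator
      (1 : (ℕ → Site d) → ℝ≥0∞) X = ∑ m ∈ F', (1 : ℝ≥0∞) := by
    rw [Finset.sum_filter]
    refine Finset.sum_congr rfl fun m _ => ?_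
    simp [Set.indicator_apply]
  rw [hF]
  have hc : ∀ m ∈ F', ∃ i, blockT l i X = m :=
    fun m hm => exists_blockT m X hX (Finset.mem_filter.1 hm).2.1
  choose! f hf using hc
  have hinj : Set.InjOn f ↑F' := fun a ha b hb he => by rw [← hf a ha, ← hf b hb, he]
  refine le_trans (le_of_eq ?_) (ENNReal.sum_le_tsum (F'.image f))
  rw [Finset.sum_image hinj]
  refine Finset.sum_congr rfl fun m hm => ?_
  rw [Set.indicator_of_mem (show X ∈ {X | sumH l (f m) X < R} by
    rw [Set.mem_ofPred_eq, sumH_eq _ X h0, hf m hm]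
    exact (Finset.mem_filter.1 hm).2.2)]
  rfl

omit [Nonempty (Fin d)] in
open Classical in
lemma records_below {L R : ℝ} (hL : 0 < L) {X : ℕ → Site d} (h0 : X 0 = 0)
    (hs : ∀ n, dot l (X (n + 1)) ≤ dot l (X n) + L) (he : X ∈ escape l) :
    ENNReal.ofReal ((R - L) / L) ≤
      ∑' m, {X : ℕ → Site d | Rec l m X ∧ dot l (X m) < R}.indicator (1 : (ℕ → Site d) → ℝ≥0∞) X := by
  have hex : ∃ n, R ≤ dot l (X n) := ((Filter.tendsto_atTop.1 he R)).exists
  by_cases hR : R ≤ L
  · rw [ENNReal.ofReal_eq_zero.2 (div_nonpos_of_nonpos_of_nonneg (by linarith) hL.le)]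
    exact bot_le
  set n := Nat.find hex
  have hn0 : n ≠ 0 := fun h => by
    have := Nat.find_spec hex
    rw [show Nat.find hex = 0 from h, h0, dot_zero] at this
    linarith
  obtain ⟨k, hk⟩ := Nat.exists_eq_succ_of_ne_zero hn0
  set F := (Finset.range (k + 1)).filter fun m => Rec l m X
  have h1 : dot l (X k) ≤ L * F.card := dot_le_records hL.le h0 hs k k le_rfl
  have h2 : R ≤ dot l (X k) + L := (Nat.find_spec hex).trans (by
    rw [show Nat.find hex = k + 1 from hk]; exact hs k)
  have h3 : (R - L) / L ≤ F.card := (div_le_iff₀ hL).2 (by nlinarith)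
  refine le_trans ((ENNReal.ofReal_le_ofReal h3).trans_eq ?_) (ENNReal.sum_le_tsum F)
  rw [ENNReal.ofReal_natCast, Finset.cast_card]
  refine Finset.sum_congr rfl fun m hm => ?_
  obtain ⟨hm1, hm2⟩ := Finset.mem_filter.1 hm
  have hlt : dot l (X m) < R := not_le.1 (Nat.find_min hex (by
    have := Finset.mem_range.1 hm1; omega))
  simp [hm2, hlt]

/-- The mean height of a block is finite. -/
theorem heightPin (hμ : ∀ᵐ p ∂μ, (∀ e, 0 < p e) ∧ ∑ e, p e = 1) : HeightPin μ l := by
  classical
  intro hq
  have hl : l ≠ 0 := by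
    rintro rfl
    refine hq ?_
    have : Good (d := d) (0 : Fin d → ℝ) = ∅ := Set.eq_empty_of_forall_notMem fun X hX => by
      obtain ⟨n, hn⟩ := (Filter.tendsto_atTop.1 hX.2 1).exists
      simp [dot] at hn
      linarith
    simp [this, ann]
  set q := ann μ (Good l)
  have hqt : q ≠ ⊤ := by
    simp only [q]; rw [ann_eq μ measurableSet_Good]; exact measure_ne_top _ _
  obtain ⟨u, hu, hmax⟩ := exists_up hl
  set L := dot l (vec u)
  have hL : ∀ e : Step d, dot l (vec e) ≤ L := fun e => by
    refine le_trans ?_ (hmax e.1)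
    rw [dot_vec]
    split_ifs
    · exact le_abs_self _
    · exact neg_le_abs _
  set hK : ℕ → (ℕ → Site d) → ℝ≥0∞ := fun K X => min (ENNReal.ofReal (blockH l X)) (K : ℝ≥0∞)
  have hKm : ∀ K, Measurable (hK K) :=
    fun K => (ENNReal.measurable_ofReal.comp measurable_blockH).min measurable_const
  have hbound : ∀ K, ∫⁻ X in Good l, hK K X ∂annM μ ≤ ENNReal.ofReal (4 * L) := by
    intro K
    set R : ℝ := K + 2 * L + 1
    have hlow : q * (q * ENNReal.ofReal ((R - L) / L)) ≤
        ∫⁻ X in Good l, ∑' i, {X | sumH l i X < R}.indicator (1 : (ℕ → Site d) → ℝ≥0∞) X ∂annM μ := by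
      have hm : ∀ (P : ℕ → (ℕ → Site d) → Prop), (∀ m, MeasurableSet {X | P m X}) →
          ∫⁻ X in Good l, ∑' m, {X | P m X ∧ dot l (X m) < R}.indicator (1 : (ℕ → Site d) → ℝ≥0∞) X ∂annM μ =
            ∑' m, annM μ (Good l ∩ {X | P m X ∧ dot l (X m) < R}) := by
        intro P hP
        have hPm : ∀ m, MeasurableSet {X : ℕ → Site d | P m X ∧ dot l (X m) < R} := fun m =>
          (hP m).inter (measurableSet_lt (measurable_dot m) measurable_const)
        rw [lintegral_tsum fun m => (measurable_one.indicator (hPm m)).aemeasurable]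
        refine tsum_congr fun m => ?_
        rw [lintegral_indicator_one (hPm m), Measure.restrict_apply (hPm m), Set.inter_comm]
      calc q * (q * ENNReal.ofReal ((R - L) / L))
          ≤ q * ∫⁻ X in Good l,
              ∑' m, {X | Rec l m X ∧ dot l (X m) < R}.indicator (1 : (ℕ → Site d) → ℝ≥0∞) X ∂annM μ := by
            refine mul_le_mul_right ?_ _
            rw [mul_comm, show q = annM μ (Good l) from ann_eq μ measurableSet_Good,
              ← setLIntegral_const]
            refine lintegral_mono_ae ?_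
            filter_upwards [ae_restrict_mem measurableSet_Good, ae_restrict_of_ae (ae_annM_zero μ),
              ae_restrict_of_ae (ae_annM_step μ hμ hL)] with X hX h0 hs
            exact records_below hu h0 hs hX.2
        _ ≤ ∫⁻ X in Good l,
              ∑' m, {X | Reg l m X ∧ dot l (X m) < R}.indicator (1 : (ℕ → Site d) → ℝ≥0∞) X ∂annM μ := by
            rw [hm _ measurableSet_Rec, hm _ measurableSet_Reg, ← ENNReal.tsum_mul_left]
            exact ENNReal.tsum_le_tsum fun m => good_rec_le μ hμ R m
        _ ≤ _ := by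
            refine lintegral_mono_ae ?_
            filter_upwards [ae_iterate_good μ hμ hq] with X hX
            exact count_blocks hX.1 (fun i => (hX.2 i).2) R
    have hup : (∫⁻ X in Good l, ∑' i, {X | sumH l i X < R}.indicator (1 : (ℕ → Site d) → ℝ≥0∞) X ∂annM μ) *
        ∫⁻ X in Good l, hK K X ∂annM μ ≤ q * (q * ENNReal.ofReal (R + K)) := by
      have hsm : ∀ i, MeasurableSet {X : ℕ → Site d | sumH l i X < R} :=
        fun i => measurableSet_lt (measurable_sumH i) measurable_const
      rw [lintegral_tsum fun i => (measurable_one.indicator (hsm i)).aemeasurable,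
        ← ENNReal.tsum_mul_right]
      simp_rw [lintegral_indicator_one (hsm _), Measure.restrict_apply (hsm _),
        Set.inter_comm _ (Good l), ← lintegral_after μ hμ hq (hKm K)]
      rw [ENNReal.tsum_mul_left]
      refine mul_le_mul_right ?_ _
      rw [← lintegral_tsum (f := fun i X => {X | sumH l i X < R}.indicator
          (1 : (ℕ → Site d) → ℝ≥0∞) X * hK K ((nextB l)^[i] X))
          fun i => ((measurable_one.indicator (hsm i)).mul
            ((hKm K).comp (measurable_nextB.iterate i))).aemeasurable, mul_comm,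
        show q = annM μ (Good l) from ann_eq μ measurableSet_Good, ← setLIntegral_const]
      refine lintegral_mono_ae ?_
      filter_upwards [ae_iterate_good μ hμ hq] with X hX
      refine ENNReal.tsum_le_of_sum_range_le fun t => ?_
      have hnn : ∀ i, 0 ≤ blockH l ((nextB l)^[i] X) := fun i =>
        sub_nonneg.2 ((hX.2 i).1.1 _)
      have : ∀ t, ∑ i ∈ Finset.range t, {X | sumH l i X < R}.indicator (1 : (ℕ → Site d) → ℝ≥0∞) X *
          hK K ((nextB l)^[i] X) ≤
            ENNReal.ofReal (min (sumH l t X) (R + K)) := by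
        intro t
        induction t with
        | zero => simp
        | succ t ih =>
          have hs : sumH l (t + 1) X = sumH l t X + blockH l ((nextB l)^[t] X) :=
            Finset.sum_range_succ _ _
          rw [Finset.sum_range_succ]
          by_cases ht : sumH l t X < R
          · rw [Set.indicator_of_mem (show X ∈ {X | sumH l t X < R} from ht), Pi.one_apply,
              one_mul]
            have hmin : hK K ((nextB l)^[t] X) =
                ENNReal.ofReal (min (blockH l ((nextB l)^[t] X)) K) := by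
              simp only [hK]
              rw [← ENNReal.ofReal_natCast K, ← ENNReal.ofReal_min]
            have hK0 : (0 : ℝ) ≤ K := Nat.cast_nonneg K
            have hs0 : 0 ≤ sumH l t X := Finset.sum_nonneg fun i _ => hnn i
            rw [hmin]
            refine (add_le_add ih le_rfl).trans ?_
            rw [← ENNReal.ofReal_add (le_min hs0 (by linarith [hu.le]))
              (le_min (hnn t) hK0), min_eq_left (by linarith : sumH l t X ≤ R + K), hs]
            refine ENNReal.ofReal_le_ofReal (le_min ?_ ?_)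
            · linarith [min_le_left (blockH l ((nextB l)^[t] X)) (K : ℝ)]
            · linarith [min_le_right (blockH l ((nextB l)^[t] X)) (K : ℝ)]
          · rw [Set.indicator_of_notMem (show X ∉ {X | sumH l t X < R} from ht), zero_mul,
              add_zero]
            refine ih.trans (ENNReal.ofReal_le_ofReal (min_le_min ?_ le_rfl))
            linarith [hnn t]
      exact (this t).trans (ENNReal.ofReal_le_ofReal (min_le_right _ _))
    have hd0 : 0 < (R - L) / L := div_pos (by
      simp only [R]; linarith [Nat.cast_nonneg (α := ℝ) K]) hu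
    have h1 : ENNReal.ofReal ((R - L) / L) * ∫⁻ X in Good l, hK K X ∂annM μ ≤
        ENNReal.ofReal (R + K) := by
      refine (ENNReal.mul_le_mul_iff_right hq hqt).1
        ((ENNReal.mul_le_mul_iff_right hq hqt).1 ?_)
      refine le_trans (le_of_eq ?_) ((mul_le_mul_left hlow _).trans hup)
      ring
    have h2 : ENNReal.ofReal (R + K) ≤
        ENNReal.ofReal ((R - L) / L) * ENNReal.ofReal (4 * L) := by
      rw [← ENNReal.ofReal_mul hd0.le, show (R - L) / L * (4 * L) = 4 * (R - L) by
        field_simp]
      refine ENNReal.ofReal_le_ofReal ?_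
      simp only [R]
      linarith [Nat.cast_nonneg (α := ℝ) K]
    exact (ENNReal.mul_le_mul_iff_right (ENNReal.ofReal_pos.2 hd0).ne'
      ENNReal.ofReal_ne_top).1 (h1.trans h2)
  have hsup : ∀ X : ℕ → Site d, ENNReal.ofReal (blockH l X) = ⨆ K, hK K X := fun X => by
    refine le_antisymm ?_ (iSup_le fun K => min_le_left _ _)
    refine le_iSup_of_le ⌈blockH l X⌉₊ (le_min le_rfl ?_)
    rw [← ENNReal.ofReal_natCast]
    exact ENNReal.ofReal_le_ofReal (Nat.le_ceil _)
  simp_rw [hsup]
  rw [lintegral_iSup hKm fun a b hab X => min_le_min le_rfl (Nat.cast_le.2 hab)]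
  exact ne_top_of_le_ne_top ENNReal.ofReal_ne_top (iSup_le hbound)

end Vale.Agent.P147.Flip
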