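import Vale.Agent.P147.Linear.Main

/-!
# If only one of two opposite escapes is possible it is certain

A path that neither escapes nor has records arbitrarily late stays below a level while visiting some
band infinitely often; either it returns to one site infinitely often, or it finds infinitely often
an unread segment leading above the level.
-/

namespace Vale.Agent.P147.Flip

open MeasureTheory Filter Topology Set Vale.Agent.P147.Balanced Vale.Agent.P147.Linear
open scoped ENNReal symmDiff

variable {d : ℕ} {l : Fin d → ℝ}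

lemma dot_line (z : Site d) (u : Step d) (i : ℕ) :
    dot l (pathPos z (fun _ => u) i) = dot l z + i * dot l (vec u) := by
  induction i with
  | zero => simp [pathPos]
  | succ i ih =>
    rw [pathPos_succ, dot_add, ih]
    push_cast
    ring

lemma line_add (z : Site d) (u : Step d) (i j : ℕ) :
    pathPos z (fun _ => u) (i + j) =
      pathPos (pathPos z (fun _ => u) i) (fun _ => u) j := by
  simp [pathPos, add_mul, add_assoc]

/-- The next `k` steps go straight. -/
def Straight (u : Step d) (k : ℕ) : Set (ℕ → Site d) :=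
  {X | ∀ i ≤ k, X i = pathPos (X 0) (fun _ => u) i}

lemma measurableSet_Straight (u : Step d) (k : ℕ) : MeasurableSet (Straight u k) := by
  have : Straight u k = ⋂ i, ⋂ (_ : i ≤ k),
      {X : ℕ → Site d | X i = pathPos (X 0) (fun _ => u) i} := by
    ext; simp [Straight]
  rw [this]
  refine MeasurableSet.iInter fun i => MeasurableSet.iInter fun _ => ?_
  exact measurableSet_eq_fun (measurable_pi_apply i)
    ((measurable_of_countable fun z : Site d => pathPos z (fun _ => u) i).comp
      (measurable_pi_apply 0))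

/-- Height at most `M` for ever and height at least `K` infinitely often. -/
def Low (l : Fin d → ℝ) (M K : ℝ) : Set (ℕ → Site d) :=
  {X | (∀ n, dot l (X n) ≤ M) ∧ ∀ N, ∃ n, N < n ∧ K ≤ dot l (X n)}

lemma measurableSet_Low (M K : ℝ) : MeasurableSet (Low (d := d) l M K) := by
  have : Low (d := d) l M K = (⋂ n, {X : ℕ → Site d | dot l (X n) ≤ M}) ∩
      ⋂ N, ⋃ n, ⋃ (_ : N < n), {X : ℕ → Site d | K ≤ dot l (X n)} := by
    ext; simp [Low]
  rw [this]
  exact (MeasurableSet.iInter fun n => measurableSet_le (measurable_dot n) measurable_const).inter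
    (MeasurableSet.iInter fun N => MeasurableSet.iUnion fun n => MeasurableSet.iUnion fun _ =>
      measurableSet_le measurable_const (measurable_dot n))

/-- Height at most `M` for ever and visits to `z` infinitely often. -/
def Recur (l : Fin d → ℝ) (M : ℝ) (z : Site d) : Set (ℕ → Site d) :=
  {X | (∀ n, dot l (X n) ≤ M) ∧ ∀ N, ∃ n, N < n ∧ X n = z}

lemma measurableSet_Recur (M : ℝ) (z : Site d) : MeasurableSet (Recur l M z) := by
  have : Recur l M z = (⋂ n, {X : ℕ → Site d | dot l (X n) ≤ M}) ∩
      ⋂ N, ⋃ n, ⋃ (_ : N < n), {X : ℕ → Site d | X n = z} := by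
    ext; simp [Recur]
  rw [this]
  exact (MeasurableSet.iInter fun n => measurableSet_le (measurable_dot n) measurable_const).inter
    (MeasurableSet.iInter fun N => MeasurableSet.iUnion fun n => MeasurableSet.iUnion fun _ =>
      measurableSet_eq_fun (measurable_pi_apply n) measurable_const)

lemma shiftP_mem_Recur {M : ℝ} {z : Site d} {X : ℕ → Site d} (hX : X ∈ Recur l M z) (k : ℕ) :
    shiftP k X ∈ Recur l M z := by
  refine ⟨fun n => hX.1 (k + n), fun N => ?_⟩
  obtain ⟨n, hn, he⟩ := hX.2 (k + N)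
  exact ⟨n - k, by omega, by simp only [shiftP]; rw [Nat.add_sub_cancel' (by omega : k ≤ n)]; exact he⟩

variable [Nonempty (Fin d)]

/-- The Markov property against a bound on the future. -/
theorem law_inter_shift_le {ω : Env d} (hω : Elliptic ω) (x : Site d) {n : ℕ}
    {E D : Set (ℕ → Site d)} (hE : MeasurableSet E) (hEp : Prefix n fun X => X ∈ E)
    (hD : MeasurableSet D) {c : ℝ≥0∞} (hc : ∀ X ∈ E, law ω (X n) D ≤ c) :
    law ω x (E ∩ shiftP n ⁻¹' D) ≤ law ω x E * c := by
  have hp : Prefix n (E.indicator (1 : (ℕ → Site d) → ℝ≥0∞)) := fun X Y hXY => by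
    have : X ∈ E ↔ Y ∈ E := iff_of_eq (hEp X Y hXY)
    by_cases hX : X ∈ E
    · simp [hX, this.1 hX]
    · simp [hX, mt this.2 hX]
  have h := lintegral_markov (x := x) hω hp (G := fun _ => D.indicator 1)
    fun _ => measurable_one.indicator hD
  have hl : ∫⁻ X, E.indicator (1 : (ℕ → Site d) → ℝ≥0∞) X * D.indicator 1 (shiftP n X) ∂law ω x =
      law ω x (E ∩ shiftP n ⁻¹' D) := by
    rw [← lintegral_indicator_one (hE.inter (measurable_shiftP n hD))]
    refine lintegral_congr fun X => ?_
    by_cases hX : X ∈ E <;> by_cases hY : shiftP n X ∈ D <;> simp [hX, hY]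
  rw [← hl, h, mul_comm, ← setLIntegral_const, ← lintegral_indicator hE]
  refine lintegral_mono fun X => ?_
  rw [lintegral_indicator_one hD]
  by_cases hX : X ∈ E
  · simp [hX, hc X hX]
  · simp [hX]

/-- In an elliptic environment no site is visited infinitely often below a level. -/
theorem law_Recur_eq_zero {ω : Env d} (hω : Elliptic ω) {u : Step d} (hu : 0 < dot l (vec u))
    (M : ℝ) (x z : Site d) : law ω x (Recur l M z) = 0 := by
  classical
  set v := law ω z (Recur l M z)
  have hle : ∀ y, law ω y (Recur l M z) ≤ v := fun y => by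
    set E : ℕ → Set (ℕ → Site d) := fun n => {X | X n = z ∧ ∀ i < n, X i ≠ z}
    have hEm : ∀ n, MeasurableSet (E n) := fun n => by
      have : E n = {X : ℕ → Site d | X n = z} ∩ ⋂ i, ⋂ (_ : i < n), {X | X i = z}ᶜ := by
        ext; simp [E]
      rw [this]
      exact (measurableSet_eq_fun (measurable_pi_apply n) measurable_const).inter
        (MeasurableSet.iInter fun i => MeasurableSet.iInter fun _ =>
          (measurableSet_eq_fun (measurable_pi_apply i) measurable_const).compl)
    have hEd : Pairwise fun n n' => Disjoint (E n) (E n') := by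
      intro n n' hne
      refine Set.disjoint_left.2 fun X hX hX' => ?_
      rcases lt_or_gt_of_ne hne with h | h
      · exact hX'.2 n h hX.1
      · exact hX.2 n' h hX'.1
    have hsub : Recur l M z ⊆ ⋃ n, E n ∩ shiftP n ⁻¹' Recur l M z := fun X hX => by
      have hex : ∃ n, X n = z := by
        obtain ⟨n, -, hn⟩ := hX.2 0
        exact ⟨n, hn⟩
      exact Set.mem_iUnion.2 ⟨Nat.find hex, ⟨Nat.find_spec hex, fun i hi => Nat.find_min hex hi⟩,
        shiftP_mem_Recur hX _⟩
    calc law ω y (Recur l M z) ≤ ∑' n, law ω y (E n ∩ shiftP n ⁻¹' Recur l M z) :=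
          (measure_mono hsub).trans (measure_iUnion_le _)
      _ ≤ ∑' n, law ω y (E n) * v := by
          refine ENNReal.tsum_le_tsum fun n => law_inter_shift_le hω y (hEm n) ?_
            (measurableSet_Recur M z) fun X hX => le_of_eq (by rw [hX.1])
          exact fun X Y hXY => propext
            ⟨fun h => ⟨(hXY n le_rfl) ▸ h.1, fun i hi => (hXY i hi.le) ▸ h.2 i hi⟩,
              fun h => ⟨(hXY n le_rfl).symm ▸ h.1, fun i hi => (hXY i hi.le).symm ▸ h.2 i hi⟩⟩
      _ = law ω y (⋃ n, E n) * v := by rw [ENNReal.tsum_mul_right, measure_iUnion hEd hEm]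
      _ ≤ v := mul_le_of_le_one_left zero_le prob_le_one
  obtain ⟨k, hk⟩ := exists_nat_gt ((M - dot l z) / dot l (vec u))
  have hk' : M < dot l (pathPos z (fun _ => u) k) := by
    rw [dot_line]
    have := (div_lt_iff₀ hu).1 hk
    linarith
  set P := pre k (pathPos z fun _ => u)
  have hP : MeasurableSet P := measurableSet_pre _ _
  have hv : v ≤ law ω z Pᶜ * v := by
    refine (measure_mono (t := Pᶜ ∩ shiftP k ⁻¹' Recur l M z)
      fun X hX => ⟨?_, shiftP_mem_Recur hX k⟩).trans
      (law_inter_shift_le hω z hP.compl ?_ (measurableSet_Recur M z) fun X _ => hle _)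
    · intro hXP
      exact absurd (hX.1 k) (by rw [hXP k le_rfl]; exact not_le.2 hk')
    · exact fun X Y hXY => propext (not_congr (forall₂_congr fun i hi => by rw [hXY i hi]))
  have hvtop : v ≠ ⊤ := measure_ne_top _ _
  have h0 : law ω z P * v = 0 := by
    have h1 : law ω z P * v + law ω z Pᶜ * v = v := by
      rw [← add_mul, measure_add_measure_compl hP, measure_univ, one_mul]
    have h2 : law ω z P * v + v ≤ 0 + v := by
      rw [zero_add]
      calc law ω z P * v + v ≤ law ω z P * v + law ω z Pᶜ * v := add_le_add le_rfl hv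
        _ = v := h1
    exact nonpos_iff_eq_zero.1 (ENNReal.le_of_add_le_add_right hvtop h2)
  refine le_antisymm ((hle x).trans (le_of_eq ?_)) bot_le
  exact (mul_eq_zero.1 h0).resolve_left (law_pre_pathPos_pos hω z k _).ne'

variable (μ : Measure (Step d → ℝ)) [IsProbabilityMeasure μ]

/-- Straight steps from a site with an unread segment ahead happen with a fixed probability. -/
theorem ann_inter_straight (hμ : ∀ᵐ p ∂μ, (∀ e, 0 < p e) ∧ ∑ e, p e = 1) (u : Step d) (k : ℕ)
    {n : ℕ} {E : Set (ℕ → Site d)} (hE : MeasurableSet E) (hEp : Prefix n fun X => X ∈ E)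
    (hclean : ∀ X ∈ E, ∀ i < k, pathPos (X n) (fun _ => u) i ∉ seen n X) :
    ann μ (E ∩ shiftP n ⁻¹' Straight u k) =
      ann μ E * ann μ (pre k (pathPos 0 fun _ => u)) := by
  classical
  rw [ann_eq_tsum_pre μ (hE.inter (measurable_shiftP n (measurableSet_Straight u k))) n,
    ann_eq_tsum_pre μ hE n, ← ENNReal.tsum_mul_right]
  refine tsum_congr fun a => ?_
  by_cases ha : ext a ∈ E
  · set γ := ext a
    have h1 : pre n γ ∩ E = pre n γ :=
      Set.inter_eq_left.2 fun X hX => (iff_of_eq (hEp X γ hX)).2 ha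
    rw [← Set.inter_assoc, h1]
    have h2 : pre n γ ∩ shiftP n ⁻¹' Straight u k =
        shiftP n ⁻¹' pre k (pathPos (γ n) fun _ => u) ∩ pre n γ := by
      ext X
      constructor
      · rintro ⟨hX, hS⟩
        refine ⟨fun i hi => ?_, hX⟩
        rw [hS i hi]
        simp [shiftP, hX n le_rfl]
      · rintro ⟨hS, hX⟩
        refine ⟨hX, fun i hi => ?_⟩
        rw [hS i hi]
        simp [shiftP, hX n le_rfl]
    rw [h2, ann, lintegral_congr_ae ((ae_elliptic μ hμ).mono fun ω hω =>
      law_markov hω (measurableSet_pre k (pathPos (γ n) fun _ => u)) n γ 0),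
      lintegral_mul_of_local μ (seen n γ) (measurable_law_apply 0 (measurableSet_pre n γ))
        (measurable_law_apply (γ n) (measurableSet_pre _ _))]
    · congr 1
      rw [lintegral_law_eq_ann μ (γ n) (measurableSet_pre _ _)]
      congr 1
      ext X
      refine forall₂_congr fun i _ => ?_
      simp only [pathPos, zero_add]
      exact ⟨fun h => add_right_cancel (h.trans (add_comm _ _)),
        fun h => by rw [h, add_comm]⟩
    · exact fun ω ω' h => law_pre_congr 0 fun i hi =>
        h _ (Finset.mem_image_of_mem _ (Finset.mem_range.2 hi))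
    · exact fun ω ω' h => law_pre_congr (γ n) fun i hi => h _ (hclean γ ha i hi)
  · have h1 : pre n (ext a) ∩ E = ∅ := Set.eq_empty_of_forall_notMem fun X hX =>
      ha ((iff_of_eq (hEp X (ext a) hX.1)).1 hX.2)
    rw [← Set.inter_assoc, h1]
    simp [ann]

/-- An event with trials of fixed success probability arbitrarily late, all failing, is null. -/
theorem null_of_trials {T S : ℕ → Set (ℕ → Site d)} {ρ : ℝ≥0∞} (hρ : ρ ≠ 0) (hρ' : ρ ≠ ⊤)
    (hT : ∀ r, MeasurableSet (T r)) (hTp : ∀ r, Prefix r fun X => X ∈ T r)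
    (hS : ∀ r, MeasurableSet (S r))
    (hfac : ∀ r E, MeasurableSet E → (Prefix r fun X => X ∈ E) → E ⊆ T r →
      ann μ (E ∩ S r) = ann μ E * ρ)
    {B : Set (ℕ → Site d)} (hB : MeasurableSet B) (hlate : ∀ X ∈ B, ∀ N, ∃ m, N < m ∧ X ∈ T m)
    (hfail : ∀ X ∈ B, ∀ m, X ∈ T m → X ∉ S m) : ann μ B = 0 := by
  classical
  have key : ∀ ε : ℝ, 0 < ε → ρ * annM μ B ≤ (ρ + 1) * ENNReal.ofReal ε := by
    intro ε hε
    obtain ⟨C', hC', hCB⟩ := (Measure.MeasureDense.of_generateFrom_isSetAlgebra_finite (μ := annM μ)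
      (isSetAlgebra_measurableCylinders (α := fun _ : ℕ => Site d))
      generateFrom_measurableCylinders.symm).approx B hB (measure_ne_top _ _) ε hε
    obtain ⟨I, U, hU, rfl⟩ := (mem_measurableCylinders _).1 hC'
    set n := I.sup id
    set C := cylinder (α := fun _ : ℕ => Site d) I U
    have hC : MeasurableSet C := hU.cylinder I
    have hCp : ∀ X Y : ℕ → Site d, (∀ i ≤ n, X i = Y i) → (X ∈ C ↔ Y ∈ C) := fun X Y hXY => by
      have : I.restrict X = I.restrict Y := funext fun i => hXY i (Finset.le_sup (f := id) i.2)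
      simp only [C, mem_cylinder, this]
    set E : ℕ → Set (ℕ → Site d) := fun r =>
      C ∩ {X | n < r ∧ X ∈ T r ∧ ∀ j, n < j → j < r → X ∉ T j}
    have hTc : ∀ {j r : ℕ}, j ≤ r → ∀ {X Y : ℕ → Site d}, (∀ i ≤ r, X i = Y i) →
        (X ∈ T j ↔ Y ∈ T j) := by
      intro j r hjr X Y hXY
      exact iff_of_eq (hTp j X Y fun i hi => hXY i (hi.trans hjr))
    have hEp : ∀ r, Prefix r fun X => X ∈ E r := fun r X Y hXY => propext <| by
      simp only [E, Set.mem_inter_iff, Set.mem_ofPred_eq]
      constructor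
      · rintro ⟨hX, hr, h1, h2⟩
        exact ⟨(hCp X Y fun i hi => hXY i (hi.trans hr.le)).1 hX, hr, (hTc le_rfl hXY).1 h1,
          fun j hj hjr h => h2 j hj hjr ((hTc hjr.le hXY).2 h)⟩
      · rintro ⟨hX, hr, h1, h2⟩
        exact ⟨(hCp X Y fun i hi => hXY i (hi.trans hr.le)).2 hX, hr, (hTc le_rfl hXY).2 h1,
          fun j hj hjr h => h2 j hj hjr ((hTc hjr.le hXY).1 h)⟩
    have hEm : ∀ r, MeasurableSet (E r) := fun r => by
      have : E r = C ∩ ((if n < r then Set.univ else ∅) ∩ T r ∩
          ⋂ j, ⋂ (_ : n < j), ⋂ (_ : j < r), (T j)ᶜ) := by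
        ext X
        by_cases hr : n < r <;> simp [E, hr]
      rw [this]
      refine hC.inter (MeasurableSet.inter (MeasurableSet.inter ?_ (hT r)) ?_)
      · split_ifs <;> simp
      · exact MeasurableSet.iInter fun j => MeasurableSet.iInter fun _ =>
          MeasurableSet.iInter fun _ => (hT j).compl
    have hdisj : Pairwise fun r r' => Disjoint (E r) (E r') := by
      intro r r' hne
      refine Set.disjoint_left.2 fun X hX hX' => ?_
      rcases lt_or_gt_of_ne hne with h | h
      · exact hX'.2.2.2 r hX.2.1 h hX.2.2.1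
      · exact hX.2.2.2 r' hX'.2.1 h hX'.2.2.1
    have hcover : C ∩ B ⊆ ⋃ r, E r := fun X hX => by
      have hex := hlate X hX.2 n
      exact Set.mem_iUnion.2 ⟨Nat.find hex, hX.1, (Nat.find_spec hex).1, (Nat.find_spec hex).2,
        fun j hj hjr hR => Nat.find_min hex hjr ⟨hj, hR⟩⟩
    have hsucc : (⋃ r, E r ∩ S r) ⊆ C \ B := by
      intro X hX
      obtain ⟨r, hr, hg⟩ := Set.mem_iUnion.1 hX
      exact ⟨hr.1, fun hXB => hfail X hXB r hr.2.2.1 hg⟩
    have hsum : ρ * annM μ (⋃ r, E r) = annM μ (⋃ r, E r ∩ S r) := by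
      rw [measure_iUnion hdisj hEm, measure_iUnion, ← ENNReal.tsum_mul_left]
      · refine tsum_congr fun r => ?_
        rw [← ann_eq μ (hEm r), ← ann_eq μ ((hEm r).inter (hS r)),
          hfac r (E r) (hEm r) (hEp r) fun X hX => hX.2.2.1, mul_comm]
      · exact fun r r' h => (hdisj h).mono Set.inter_subset_left Set.inter_subset_left
      · exact fun r => (hEm r).inter (hS r)
    have hB' : annM μ B ≤ annM μ (⋃ r, E r) + annM μ (B ∆ C) := by
      refine le_trans (measure_mono fun X hX => ?_) (measure_union_le _ _)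
      by_cases hXC : X ∈ C
      · exact Or.inl (hcover ⟨hXC, hX⟩)
      · exact Or.inr (Or.inl ⟨hX, hXC⟩)
    calc ρ * annM μ B ≤ ρ * (annM μ (⋃ r, E r) + annM μ (B ∆ C)) := mul_le_mul_right hB' ρ
      _ ≤ annM μ (B ∆ C) + ρ * annM μ (B ∆ C) := by
          rw [mul_add, hsum]
          exact add_le_add (measure_mono (hsucc.trans fun X hX => Or.inr hX)) le_rfl
      _ ≤ (ρ + 1) * ENNReal.ofReal ε := by
          rw [add_comm, add_mul, one_mul]
          exact add_le_add (mul_le_mul_right hCB.le ρ) hCB.le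
  have h0 : ρ * annM μ B ≤ 0 := by
    have hlim : Tendsto (fun k : ℕ => (ρ + 1) * ENNReal.ofReal (1 / (k + 1 : ℝ))) atTop (𝓝 0) := by
      have h := ENNReal.Tendsto.const_mul (a := ρ + 1) (ENNReal.continuous_ofReal.tendsto 0 |>.comp
        tendsto_one_div_add_atTop_nhds_zero_nat) (Or.inr (by simp [hρ']))
      simpa using h
    exact ge_of_tendsto' hlim fun k => key _ (by positivity)
  rw [ann_eq μ hB]
  exact (mul_eq_zero.1 (nonpos_iff_eq_zero.1 h0)).resolve_left hρ

/-- Staying below a level while visiting a band infinitely often has probability zero. -/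
theorem ann_Low_eq_zero (hμ : ∀ᵐ p ∂μ, (∀ e, 0 < p e) ∧ ∑ e, p e = 1) {u : Step d}
    (hu : 0 < dot l (vec u)) (M K : ℝ) : ann μ (Low l M K) = 0 := by
  classical
  have hR : ∀ z, annM μ (Recur l M z) = 0 := fun z => by
    rw [← ann_eq μ (measurableSet_Recur M z), ann,
      lintegral_congr_ae ((ae_elliptic μ hμ).mono fun ω hω =>
        law_Recur_eq_zero (l := l) hω hu M 0 z), lintegral_zero]
  obtain ⟨k, hk⟩ := exists_nat_gt ((M - K) / dot l (vec u))
  have hk' : M < K + k * dot l (vec u) := by
    have := (div_lt_iff₀ hu).1 hk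
    linarith
  set T : ℕ → Set (ℕ → Site d) := fun r =>
    {X | K ≤ dot l (X r) ∧ ∀ i < k, pathPos (X r) (fun _ => u) i ∉ seen r X}
  set B := Low l M K \ ⋃ z, Recur l M z
  have hBm : MeasurableSet B :=
    (measurableSet_Low M K).diff (MeasurableSet.iUnion fun z => measurableSet_Recur M z)
  have hTp : ∀ r, Prefix r fun X => X ∈ T r := fun r X Y h => propext <| by
    simp only [T, Set.mem_ofPred_eq]
    rw [h r le_rfl, seen_congr fun i hi => h i hi.le]
  have hTm : ∀ r, MeasurableSet (T r) := fun r => by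
    have h : T r = res r ⁻¹' {a | ext a ∈ T r} := by
      ext X
      exact iff_of_eq (hTp r X (ext (res r X)) fun i hi => (ext_res_apply hi X).symm)
    rw [h]
    exact (show Measurable (res (d := d) r) from
      measurable_pi_lambda _ fun i => measurable_pi_apply _) MeasurableSet.of_discrete
  have hlate : ∀ X ∈ B, ∀ N, ∃ m, N < m ∧ X ∈ T m := by
    intro X hX N
    by_contra hcon
    have hband : ∀ n, K ≤ dot l (X n) →
        ∃ m ≤ N, ∃ j < k, pathPos (X n) (fun _ => u) j = X m := by
      intro n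
      induction n using Nat.strong_induction_on with
      | _ n ih =>
        intro hn
        by_cases hnN : n ≤ N
        · refine ⟨n, hnN, 0, ?_, by simp [pathPos]⟩
          rcases Nat.eq_zero_or_pos k with rfl | h
          · exact absurd (hn.trans (hX.1.1 n)) (by simp at hk'; linarith)
          · exact h
        have hnT : ¬∀ i < k, pathPos (X n) (fun _ => u) i ∉ seen n X := fun h =>
          hcon ⟨n, by omega, hn, h⟩
        obtain ⟨i, -, hi⟩ : ∃ i, i < k ∧ pathPos (X n) (fun _ => u) i ∈ seen n X := by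
          simpa using hnT
        obtain ⟨m, hm, hmi⟩ := Finset.mem_image.1 hi
        have hd : dot l (X m) = dot l (X n) + i * dot l (vec u) := by rw [hmi, dot_line]
        have hm' : K ≤ dot l (X m) := by
          have : 0 ≤ (i : ℝ) * dot l (vec u) := by positivity
          linarith
        obtain ⟨m', hm'N, j, -, hj⟩ := ih m (Finset.mem_range.1 hm) hm'
        refine ⟨m', hm'N, i + j, ?_, by rw [line_add, ← hmi]; exact hj⟩
        by_contra hle
        have h1 : dot l (X m') = dot l (X n) + ((i + j : ℕ) : ℝ) * dot l (vec u) := by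
          rw [← dot_line, line_add, ← hmi, hj]
        have h2 : (k : ℝ) * dot l (vec u) ≤ ((i + j : ℕ) : ℝ) * dot l (vec u) :=
          mul_le_mul_of_nonneg_right (Nat.cast_le.2 (not_lt.1 hle)) hu.le
        linarith [hX.1.1 m']
    set F : Finset (Site d) := (Finset.range (N + 1) ×ˢ Finset.range k).image
      fun p => X p.1 - (pathPos 0 (fun _ => u) p.2)
    have hF : ∀ n, K ≤ dot l (X n) → X n ∈ F := fun n hn => by
      obtain ⟨m, hm, j, hj, he⟩ := hband n hn
      refine Finset.mem_image.2 ⟨(m, j), Finset.mem_product.2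
        ⟨Finset.mem_range.2 (by omega), Finset.mem_range.2 hj⟩, ?_⟩
      rw [← he]
      simp [pathPos]
    have hfin : ∀ z, ∃ N', ∀ n, N' < n → X n ≠ z := fun z => by
      by_contra h
      push Not at h
      exact hX.2 (Set.mem_iUnion.2 ⟨z, hX.1.1, h⟩)
    choose N' hN' using hfin
    obtain ⟨n, hn, hnK⟩ := hX.1.2 (F.sup N')
    exact hN' (X n) n (lt_of_le_of_lt (Finset.le_sup (hF n hnK)) hn) rfl
  have hB : ann μ B = 0 := by
    refine null_of_trials μ (T := T) (S := fun r => shiftP r ⁻¹' Straight u k)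
      (ann_pre_pathPos_ne_zero μ hμ k fun _ => u) ?_ hTm hTp
      (fun r => measurable_shiftP r (measurableSet_Straight u k)) ?_ hBm hlate ?_
    · rw [ann_eq μ (measurableSet_pre _ _)]
      exact measure_ne_top _ _
    · exact fun r E hE hEp hET =>
        ann_inter_straight μ hμ u k hE hEp fun X hX => (hET hX).2
    · intro X hX m hm hS
      have h1 := hX.1.1 (m + k)
      have h2 : X (m + k) = pathPos (X m) (fun _ => u) k := by
        simpa [shiftP] using hS k le_rfl
      rw [h2, dot_line] at h1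
      linarith [hm.1]
  rw [ann_eq μ (measurableSet_Low M K)]
  refine measure_mono_null (t := B ∪ ⋃ z, Recur l M z) (fun X hX => ?_)
    (measure_union_null (by rwa [← ann_eq μ hBm]) (measure_iUnion_null hR))
  by_cases h : X ∈ ⋃ z, Recur l M z
  · exact Or.inr h
  · exact Or.inl ⟨hX, h⟩

/-- Two opposite escapes exhaust everything once one of them has positive probability. -/
theorem ann_no_escape_eq_zero (hμ : ∀ᵐ p ∂μ, (∀ e, 0 < p e) ∧ ∑ e, p e = 1)
    (hA : ann μ (escape l) ≠ 0) : ann μ ((escape l ∪ escape (-l))ᶜ) = 0 := by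
  have hq := good_ne_zero μ hμ hA
  have hl : l ≠ 0 := by
    intro h
    subst h
    refine hA ?_
    have : escape (0 : Fin d → ℝ) = ∅ := Set.eq_empty_of_forall_notMem fun X hX => by
      obtain ⟨n, hn⟩ := (Filter.tendsto_atTop.1 hX 1).exists
      simp [dot] at hn
      linarith
    simp [this, ann]
  obtain ⟨u, hu, -⟩ := exists_up hl
  set Late : Set (ℕ → Site d) := ⋂ N, ⋃ m, ⋃ (_ : N < m), {X | Rec l m X}
  have hLate : MeasurableSet Late := MeasurableSet.iInter fun N =>
    MeasurableSet.iUnion fun m => MeasurableSet.iUnion fun _ => measurableSet_Rec m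
  set R := (escape (d := d) l)ᶜ ∩ Late
  have hRm : MeasurableSet R := (measurableSet_escape l).compl.inter hLate
  have hR : ann μ R = 0 := by
    refine null_of_records μ hμ hq hRm (fun X hX N => ?_) fun X hX m _ hreg =>
      hX.1 (shiftP_mem_escape.1 hreg.2.2)
    simpa [Late] using Set.mem_iInter.1 hX.2 N
  rw [ann_eq μ ((measurableSet_escape l).union (measurableSet_escape _)).compl]
  refine measure_mono_null (t := R ∪ ⋃ q : ℕ × ℕ, Low l q.1 (-(q.2 : ℝ))) (fun X hX => ?_)
    (measure_union_null (by rwa [← ann_eq μ hRm]) (measure_iUnion_null fun q => by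
      rw [← ann_eq μ (measurableSet_Low _ _)]
      exact ann_Low_eq_zero μ hμ hu _ _))
  rw [Set.mem_compl_iff, Set.mem_union, not_or] at hX
  by_cases hL : X ∈ Late
  · exact Or.inl ⟨hX.1, hL⟩
  right
  simp only [Late, Set.mem_iInter, Set.mem_iUnion, Set.mem_ofPred_eq] at hL
  push Not at hL
  obtain ⟨N, hN⟩ := hL
  obtain ⟨a, ha⟩ : ∃ a, ∀ n ≤ N, dot l (X n) ≤ a := by
    obtain ⟨i, -, hi⟩ := Finset.exists_max_image (Finset.range (N + 1)) (fun i => dot l (X i))
      ⟨0, by simp⟩
    exact ⟨_, fun n hn => hi n (Finset.mem_range.2 (by omega))⟩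
  have hall : ∀ n, dot l (X n) ≤ a := fun n => by
    induction n using Nat.strong_induction_on with
    | _ n ih =>
      by_cases hn : n ≤ N
      · exact ha n hn
      · have h1 := hN n (by omega)
        simp only [Rec, not_forall, not_lt] at h1
        obtain ⟨i, hi, hle⟩ := h1
        exact hle.trans (ih i hi)
  obtain ⟨Mn, hMn⟩ := exists_nat_ge a
  obtain ⟨b, hb⟩ : ∃ b : ℝ, ∀ N', ∃ n, N' < n ∧ -b ≤ dot l (X n) := by
    by_contra hc
    push Not at hc
    refine hX.2 (Filter.tendsto_atTop.2 fun b => ?_)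
    obtain ⟨N', hN'⟩ := hc b
    filter_upwards [Filter.eventually_gt_atTop N'] with n hn
    have := hN' n hn
    have h2 : dot (-l) (X n) = -dot l (X n) := by simp [dot]
    linarith
  obtain ⟨Kn, hKn⟩ := exists_nat_ge b
  refine Set.mem_iUnion.2 ⟨(Mn, Kn), fun n => (hall n).trans hMn, fun N' => ?_⟩
  obtain ⟨n, hn, h⟩ := hb N'
  exact ⟨n, hn, le_trans (neg_le_neg hKn) h⟩

/-- If an escape is possible and the opposite one is not, it is certain. -/
theorem oneSided (hμ : ∀ᵐ p ∂μ, (∀ e, 0 < p e) ∧ ∑ e, p e = 1)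
    (hA : ann μ (escape l) ≠ 0) (hA' : ann μ (escape (-l)) = 0) : ann μ (escape l) = 1 := by
  have h := ann_no_escape_eq_zero μ hμ hA
  have hm := measurableSet_escape (d := d) l
  have hm' := measurableSet_escape (d := d) (-l)
  rw [ann_eq μ (hm.union hm').compl] at h
  rw [ann_eq μ hm'] at hA'
  rw [ann_eq μ hm]
  refine le_antisymm prob_le_one ?_
  calc (1 : ℝ≥0∞) = annM μ Set.univ := measure_univ.symm
    _ ≤ annM μ (escape l) + annM μ ((escape l ∪ escape (-l))ᶜ ∪ escape (-l)) := by
        refine le_trans (measure_mono fun X _ => ?_) (measure_union_le _ _)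
        by_cases h1 : X ∈ escape l <;> by_cases h2 : X ∈ escape (-l) <;> simp [h1, h2]
    _ = annM μ (escape l) := by rw [measure_union_null h hA', add_zero]

end Vale.Agent.P147.Flip
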