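import Vale.Agent.P147.Linear.Eta
import Vale.Agent.P147.Flip.Defs

/-!
# The finite horizon flip bound

Two independent annealed walks from the bottom and from the top of a strip seldom meet first deep
inside the strip: a common site is either one from which the first walk is likely to fail, or one
from which the second walk is likely to fail.
-/

namespace Vale.Agent.P147.Flip

open MeasureTheory Filter Topology Set Vale.Agent.P147.Balanced Vale.Agent.P147.Linear
open scoped ENNReal

variable {d : ℕ} {l : Fin d → ℝ}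

/-- The path gets `k` above its start before it goes below it. -/
def Up (l : Fin d → ℝ) (k : ℝ) : Set (ℕ → Site d) :=
  {X | ∃ m, (∀ i < m, dot l (X 0) ≤ dot l (X i)) ∧ dot l (X 0) + k ≤ dot l (X m)}

/-- The path gets more than `r` above its start before it goes below it. -/
def UpS (l : Fin d → ℝ) (r : ℝ) : Set (ℕ → Site d) :=
  {X | ∃ m, (∀ i < m, dot l (X 0) ≤ dot l (X i)) ∧ dot l (X 0) + r < dot l (X m)}

/-- The sites of a closed strip. -/
def slab (l : Fin d → ℝ) (A B : ℝ) : Set (Site d) := {z | A ≤ dot l z ∧ dot l z ≤ B}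

/-- The path gets above `B` before it gets below `A`. -/
def UpAbs (l : Fin d → ℝ) (A B : ℝ) : Set (ℕ → Site d) :=
  {X | ∃ m, (∀ i < m, A ≤ dot l (X i)) ∧ B < dot l (X m)}

/-- The path visits the set `Z` before it leaves `R`. -/
def VisitIn (R Z : Set (Site d)) : Set (ℕ → Site d) :=
  {X | ∃ m, (∀ i ≤ m, X i ∈ R) ∧ X m ∈ Z}

/-- The path hits `S` first inside `Z`, before it leaves `R`. -/
def Hit (R Z S : Set (Site d)) : Set (ℕ → Site d) :=
  {Y | ∃ i, (∀ j ≤ i, Y j ∈ R) ∧ (∀ j < i, Y j ∉ S) ∧ Y i ∈ S ∧ Y i ∈ Z}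

/-- The sites visited before leaving `R`. -/
def rangeIn (R : Set (Site d)) (X : ℕ → Site d) : Set (Site d) :=
  {z | ∃ j, (∀ i ≤ j, X i ∈ R) ∧ X j = z}

/-- The sites visited before leaving `R` and before time `N`. -/
def rangeUpTo (R : Set (Site d)) (N : ℕ) (X : ℕ → Site d) : Set (Site d) :=
  {z | ∃ j < N, (∀ i ≤ j, X i ∈ R) ∧ X j = z}

/-- The second path, inside `R`, meets the range in `Q` of the first one first inside `Z`. -/
def Meet (Q R Z : Set (Site d)) : Set ((ℕ → Site d) × (ℕ → Site d)) :=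
  {q | q.2 ∈ Hit R Z (rangeIn Q q.1)}

/-- The same for the range up to time `N`. -/
def MeetUpTo (Q R Z : Set (Site d)) (N : ℕ) : Set ((ℕ → Site d) × (ℕ → Site d)) :=
  {q | q.2 ∈ Hit R Z (rangeUpTo Q N q.1)}

/-- The exit from `R`, cut at time `N`, happens at time `n`. -/
def Exit (R : Set (Site d)) (N n : ℕ) : Set (ℕ → Site d) :=
  {X | n ≤ N ∧ (∀ i < n, X i ∈ R) ∧ (n = N ∨ X n ∉ R)}

lemma measurableSet_inR (R : Set (Site d)) (m : ℕ) :
    MeasurableSet {X : ℕ → Site d | X m ∈ R} :=
  measurable_pi_apply m MeasurableSet.of_discrete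

lemma measurableSet_forall_lt (R : Set (Site d)) (m : ℕ) :
    MeasurableSet {X : ℕ → Site d | ∀ i < m, X i ∈ R} := by
  rw [show {X : ℕ → Site d | ∀ i < m, X i ∈ R} = ⋂ i, ⋂ (_ : i < m), {X | X i ∈ R} by ext; simp]
  exact MeasurableSet.iInter fun i => MeasurableSet.iInter fun _ => measurableSet_inR R i

lemma measurableSet_forall_le (R : Set (Site d)) (m : ℕ) :
    MeasurableSet {X : ℕ → Site d | ∀ i ≤ m, X i ∈ R} := by
  rw [show {X : ℕ → Site d | ∀ i ≤ m, X i ∈ R} = ⋂ i, ⋂ (_ : i ≤ m), {X | X i ∈ R} by ext; simp]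
  exact MeasurableSet.iInter fun i => MeasurableSet.iInter fun _ => measurableSet_inR R i

lemma measurableSet_Up (l : Fin d → ℝ) (k : ℝ) : MeasurableSet (Up l k) := by
  rw [show Up l k = ⋃ m, (⋂ i, ⋂ (_ : i < m), {X | dot l (X 0) ≤ dot l (X i)}) ∩
      {X | dot l (X 0) + k ≤ dot l (X m)} by ext; simp [Up]]
  exact MeasurableSet.iUnion fun m => (MeasurableSet.iInter fun i => MeasurableSet.iInter fun _ =>
    measurableSet_le (measurable_dot 0) (measurable_dot i)).inter
      (measurableSet_le ((measurable_dot 0).add_const k) (measurable_dot m))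

lemma measurableSet_UpS (l : Fin d → ℝ) (r : ℝ) : MeasurableSet (UpS l r) := by
  rw [show UpS l r = ⋃ m, (⋂ i, ⋂ (_ : i < m), {X | dot l (X 0) ≤ dot l (X i)}) ∩
      {X | dot l (X 0) + r < dot l (X m)} by ext; simp [UpS]]
  exact MeasurableSet.iUnion fun m => (MeasurableSet.iInter fun i => MeasurableSet.iInter fun _ =>
    measurableSet_le (measurable_dot 0) (measurable_dot i)).inter
      (measurableSet_lt ((measurable_dot 0).add_const r) (measurable_dot m))

lemma measurableSet_UpAbs (l : Fin d → ℝ) (A B : ℝ) : MeasurableSet (UpAbs l A B) := by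
  rw [show UpAbs l A B = ⋃ m, {X | ∀ i < m, X i ∈ {z | A ≤ dot l z}} ∩
      {X | X m ∈ {z | B < dot l z}} by ext; simp [UpAbs]]
  exact MeasurableSet.iUnion fun m =>
    (measurableSet_forall_lt _ m).inter (measurableSet_inR _ m)

lemma measurableSet_VisitIn (R Z : Set (Site d)) : MeasurableSet (VisitIn R Z) := by
  rw [show VisitIn R Z = ⋃ m, {X | ∀ i ≤ m, X i ∈ R} ∩ {X | X m ∈ Z} by ext; simp [VisitIn]]
  exact MeasurableSet.iUnion fun m =>
    (measurableSet_forall_le _ m).inter (measurableSet_inR _ m)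

/-- The hit happens at time `i`. -/
def HitAt (R Z S : Set (Site d)) (i : ℕ) : Set (ℕ → Site d) :=
  {Y | (∀ j ≤ i, Y j ∈ R) ∧ (∀ j < i, Y j ∉ S) ∧ Y i ∈ S ∧ Y i ∈ Z}

lemma measurableSet_HitAt (R Z S : Set (Site d)) (i : ℕ) : MeasurableSet (HitAt R Z S i) :=
  (measurableSet_forall_le R i).inter ((measurableSet_forall_lt Sᶜ i).inter
    ((measurableSet_inR S i).inter (measurableSet_inR Z i)))

lemma Hit_eq_iUnion (R Z S : Set (Site d)) : Hit R Z S = ⋃ i, HitAt R Z S i := by
  ext; simp [Hit, HitAt]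

lemma measurableSet_Hit (R Z S : Set (Site d)) : MeasurableSet (Hit R Z S) := by
  rw [Hit_eq_iUnion]; exact MeasurableSet.iUnion (measurableSet_HitAt R Z S)

lemma disjoint_HitAt (R Z S : Set (Site d)) :
    Pairwise fun i j => Disjoint (HitAt R Z S i) (HitAt R Z S j) := fun i j hij =>
  Set.disjoint_left.2 fun Y hi hj => by
    rcases lt_or_gt_of_ne hij with h | h
    · exact hj.2.1 i h hi.2.2.1
    · exact hi.2.1 j h hj.2.2.1

lemma prefix_HitAt (R Z S : Set (Site d)) (i : ℕ) :
    Prefix i fun Y => Y ∈ HitAt R Z S i := fun X Y h => propext <| by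
  simp only [HitAt, Set.mem_ofPred_eq]
  rw [h i le_rfl]
  exact and_congr (forall₂_congr fun j hj => by rw [h j hj])
    (and_congr_left fun _ => forall₂_congr fun j hj => by rw [h j hj.le])

lemma prefix_Exit (R : Set (Site d)) (N n : ℕ) :
    Prefix n fun X => X ∈ Exit R N n := fun X Y h => propext <| by
  simp only [Exit, Set.mem_ofPred_eq]
  rw [h n le_rfl]
  exact and_congr_right fun _ => and_congr_left fun _ =>
    forall₂_congr fun j hj => by rw [h j hj.le]

lemma exit_unique {R : Set (Site d)} {N m n : ℕ} {X : ℕ → Site d} (hm : X ∈ Exit R N m)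
    (hn : X ∈ Exit R N n) : m = n := by
  by_contra h
  wlog hlt : m < n generalizing m n
  · exact this hn hm (Ne.symm h) (by omega)
  rcases hm.2.2 with rfl | hm'
  · exact absurd hn.1 (by omega)
  · exact hm' (hn.2.1 m hlt)

lemma exists_exit (R : Set (Site d)) (N : ℕ) (X : ℕ → Site d) : ∃ n, X ∈ Exit R N n := by
  classical
  by_cases h : ∃ n < N, X n ∉ R
  · refine ⟨Nat.find h, (Nat.find_spec h).1.le, fun i hi => ?_, Or.inr (Nat.find_spec h).2⟩
    by_contra hc
    exact Nat.find_min h hi ⟨hi.trans (Nat.find_spec h).1, hc⟩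
  · push Not at h
    exact ⟨N, le_rfl, fun i hi => h i hi, Or.inl rfl⟩

lemma rangeUpTo_of_exit {R : Set (Site d)} {N n : ℕ} {X : ℕ → Site d} (h : X ∈ Exit R N n) :
    rangeUpTo R N X = ↑(seen n X) := by
  ext z
  simp only [rangeUpTo, Set.mem_ofPred_eq, seen, Finset.coe_image, Finset.coe_range,
    Set.mem_image, Set.mem_Iio]
  constructor
  · rintro ⟨j, hjN, hj, rfl⟩
    refine ⟨j, ?_, rfl⟩
    by_contra hc
    rcases h.2.2 with rfl | h'
    · exact hc hjN
    · exact h' (hj n (not_lt.1 hc))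
  · rintro ⟨j, hj, rfl⟩
    exact ⟨j, hj.trans_le h.1, fun i hi => h.2.1 i (hi.trans_lt hj), rfl⟩

/-- The truncated meeting, cut along the exit of the first path. -/
lemma MeetUpTo_eq (Q R Z : Set (Site d)) (N : ℕ) :
    MeetUpTo Q R Z N = ⋃ p : Σ n : ℕ, Fin (n + 1) → Site d,
      ({X | X ∈ Exit Q N p.1} ∩ pre p.1 (ext p.2)) ×ˢ Hit R Z ↑(seen p.1 (ext p.2)) := by
  ext q
  simp only [MeetUpTo, Set.mem_ofPred_eq, Set.mem_iUnion, Set.mem_prod, Set.mem_inter_iff]
  constructor
  · intro h
    obtain ⟨n, hn⟩ := exists_exit Q N q.1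
    have hpre : q.1 ∈ pre n (ext (res n q.1)) := fun i hi => (ext_res_apply hi q.1).symm
    refine ⟨⟨n, res n q.1⟩, ⟨hn, hpre⟩, ?_⟩
    rw [rangeUpTo_of_exit hn, seen_congr (Y := ext (res n q.1)) fun i hi => hpre i hi.le] at h
    exact h
  · rintro ⟨⟨n, a⟩, ⟨hn, hpre⟩, h⟩
    rw [rangeUpTo_of_exit hn, seen_congr (Y := ext a) fun i hi => hpre i hi.le]
    exact h

lemma measurableSet_Exit (R : Set (Site d)) (N n : ℕ) : MeasurableSet (Exit R N n) := by
  rw [show Exit R N n = {X | n ≤ N} ∩ ({X | ∀ i < n, X i ∈ R} ∩ ({X | n = N} ∪ {X | X n ∈ Rᶜ}))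
    by ext; simp [Exit]]
  exact (MeasurableSet.const _).inter ((measurableSet_forall_lt R n).inter
    ((MeasurableSet.const _).union (measurableSet_inR _ n)))

lemma measurableSet_MeetUpTo (Q R Z : Set (Site d)) (N : ℕ) :
    MeasurableSet (MeetUpTo Q R Z N) := by
  rw [MeetUpTo_eq]
  exact MeasurableSet.iUnion fun p =>
    ((measurableSet_Exit Q N p.1).inter (measurableSet_pre _ _)).prod (measurableSet_Hit _ _ _)

open Classical in
/-- The mass of the truncated meeting for any two laws. -/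
theorem prod_MeetUpTo (ν ν' : Measure (ℕ → Site d)) [SFinite ν'] (Q R Z : Set (Site d)) (N : ℕ) :
    (ν.prod ν') (MeetUpTo Q R Z N) = ∑' n : ℕ, ∑' a : Fin (n + 1) → Site d,
      if ext a ∈ Exit Q N n then ν (pre n (ext a)) * ν' (Hit R Z ↑(seen n (ext a))) else 0 := by
  have hd : Pairwise fun p p' : Σ n : ℕ, Fin (n + 1) → Site d =>
      Disjoint (({X | X ∈ Exit Q N p.1} ∩ pre p.1 (ext p.2)) ×ˢ Hit R Z ↑(seen p.1 (ext p.2)))
        (({X | X ∈ Exit Q N p'.1} ∩ pre p'.1 (ext p'.2)) ×ˢ
          Hit R Z ↑(seen p'.1 (ext p'.2))) := by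
    rintro ⟨n, a⟩ ⟨n', a'⟩ hne
    refine Set.disjoint_left.2 fun q hq hq' => hne ?_
    obtain rfl : n = n' := exit_unique hq.1.1 hq'.1.1
    congr 1
    funext i
    have h1 := (hq.1.2 i (Nat.le_of_lt_succ i.2)).symm.trans (hq'.1.2 i (Nat.le_of_lt_succ i.2))
    simpa [Balanced.ext, min_eq_left (Nat.le_of_lt_succ i.2)] using h1
  rw [MeetUpTo_eq, measure_iUnion hd fun p =>
    ((measurableSet_Exit Q N p.1).inter (measurableSet_pre _ _)).prod (measurableSet_Hit _ _ _),
    ENNReal.tsum_sigma']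
  refine tsum_congr fun n => tsum_congr fun a => ?_
  rw [Measure.prod_prod]
  split_ifs with h
  · congr 2
    exact Set.inter_eq_right.2 fun X hX => (iff_of_eq (prefix_Exit Q N n X (ext a) hX)).2 h
  · rw [show ({X | X ∈ Exit Q N n} ∩ pre n (ext a)) = ∅ from
      Set.eq_empty_of_forall_notMem fun X hX =>
        h ((iff_of_eq (prefix_Exit Q N n X (ext a) hX.2)).1 hX.1)]
    simp

variable [Nonempty (Fin d)]

/-- Trials at the first time of an event that depends on the past. -/
theorem trials {ω : Env d} (hω : Elliptic ω) (x : Site d) {T : ℕ → Set (ℕ → Site d)}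
    (hT : ∀ m, MeasurableSet (T m)) (hTp : ∀ m, Prefix m fun X => X ∈ T m)
    {V U : Set (ℕ → Site d)} (hV : MeasurableSet V) {c : ℝ≥0∞}
    (hc : ∀ m, ∀ X ∈ T m, c ≤ law ω (X m) V)
    (hU : ∀ m, ∀ X ∈ T m, X 0 = x → shiftP m X ∈ V → X ∈ U) :
    c * law ω x (⋃ m, T m) ≤ law ω x U := by
  set F : ℕ → Set (ℕ → Site d) := disjointed T with hF
  have hFm : ∀ m, MeasurableSet (F m) := MeasurableSet.disjointed hT
  have hFp : ∀ m, Prefix m fun X => X ∈ F m := fun m X Y h => propext <| by
    simp only [hF, disjointed_eq_inter_compl, Set.mem_inter_iff, Set.mem_iInter, Set.mem_compl_iff]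
    exact and_congr (iff_of_eq (hTp m X Y h)) (forall₂_congr fun i hi =>
      not_congr (iff_of_eq (hTp i X Y fun j hj => h j (hj.trans hi.le))))
  have key : ∀ m, c * law ω x (F m) ≤ law ω x (F m ∩ shiftP m ⁻¹' V) := fun m => by
    have hp : Prefix m ((F m).indicator (1 : (ℕ → Site d) → ℝ≥0∞)) := fun X Y hXY => by
      have h : X ∈ F m ↔ Y ∈ F m := iff_of_eq (hFp m X Y hXY)
      by_cases hX : X ∈ F m
      · simp [hX, h.1 hX]
      · simp [hX, mt h.2 hX]
    have h1 := lintegral_markov hω (x := x) hp (G := fun _ => V.indicator 1)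
      fun _ => measurable_one.indicator hV
    rw [← lintegral_indicator_one ((hFm m).inter (measurable_shiftP m hV)),
      ← lintegral_indicator_one (hFm m),
      ← lintegral_const_mul c (measurable_one.indicator (hFm m))]
    refine le_trans (lintegral_mono fun X => ?_) (h1.symm.le.trans (lintegral_mono fun X => ?_))
    · by_cases hX : X ∈ F m
      · simp only [Set.indicator_of_mem hX, Pi.one_apply, mul_one, one_mul,
          lintegral_indicator_one hV]
        exact hc m X (disjointed_subset T m hX)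
      · simp [hX]
    · by_cases h1' : X ∈ F m <;> by_cases h2 : shiftP m X ∈ V <;> simp [h1', h2]
  have hd : Pairwise fun i j => Disjoint (F i ∩ shiftP i ⁻¹' V) (F j ∩ shiftP j ⁻¹' V) :=
    fun i j hij => ((disjoint_disjointed T) hij).mono Set.inter_subset_left Set.inter_subset_left
  calc c * law ω x (⋃ m, T m) = ∑' m, c * law ω x (F m) := by
        rw [← iUnion_disjointed, measure_iUnion (disjoint_disjointed T) hFm, ENNReal.tsum_mul_left]
    _ ≤ ∑' m, law ω x (F m ∩ shiftP m ⁻¹' V) := ENNReal.tsum_le_tsum key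
    _ = law ω x (⋃ m, F m ∩ shiftP m ⁻¹' V) :=
        (measure_iUnion hd fun m => (hFm m).inter (measurable_shiftP m hV)).symm
    _ ≤ law ω x U := by
        refine measure_mono_ae ?_
        filter_upwards [ae_law_zero ω x] with X hX hm
        obtain ⟨m, hm1, hm2⟩ := Set.mem_iUnion.1 hm
        exact hU m X (disjointed_subset T m hm1) hX hm2

/-- The sites from which leaving upwards has probability below one half. -/
def lowSet (ω : Env d) (l : Fin d → ℝ) (A B : ℝ) : Set (Site d) :=
  {z | law ω z (UpAbs l A B) < 1 / 2}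

/-- The upper part of the strip, from `A + k`. -/
def high (l : Fin d → ℝ) (A k : ℝ) : Set (Site d) := {z | A + k ≤ dot l z}

/-- The lower part of the strip, up to `B - k`. -/
def low (l : Fin d → ℝ) (B k : ℝ) : Set (Site d) := {z | dot l z ≤ B - k}

/-- The first walk seldom visits an unpromising site deep inside the strip. -/
theorem bad_first {ω : Env d} (hω : Elliptic ω) (x : Site d) {B k : ℝ} :
    (1 / 2) * law ω x (VisitIn (slab l (dot l x) B) (high l (dot l x) k ∩ lowSet ω l (dot l x) B)) ≤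
      law ω x (Up l k \ UpS l (B - dot l x)) := by
  set A := dot l x
  rw [show VisitIn (slab l A B) (high l A k ∩ lowSet ω l A B) = ⋃ m,
    {X | (∀ i ≤ m, X i ∈ slab l A B) ∧ X m ∈ high l A k ∩ lowSet ω l A B} by
      ext; simp [VisitIn]]
  refine trials hω x (fun m => (measurableSet_forall_le _ m).inter (measurableSet_inR _ m))
    (fun m X Y h => propext ?_) (measurableSet_UpAbs l A B).compl (fun m X hX => ?_) ?_
  · simp only [Set.mem_inter_iff, Set.mem_ofPred_eq]
    rw [h m le_rfl]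
    exact and_congr_left fun _ => forall₂_congr fun i hi => by rw [h i hi]
  · have h1 : law ω (X m) (UpAbs l A B) < 1 / 2 := hX.2.2
    rw [prob_compl_eq_one_sub (measurableSet_UpAbs l A B)]
    refine ENNReal.le_sub_of_add_le_left (ne_top_of_lt h1)
      ((add_le_add h1.le le_rfl).trans (ENNReal.add_halves 1).le)
  rintro m X ⟨hs, hk, -⟩ hx hV
  refine ⟨⟨m, fun i hi => by rw [hx]; exact (hs i hi.le).1, by rw [hx]; exact hk⟩, ?_⟩
  rintro ⟨j, hj, hjr⟩
  rw [hx] at hjr
  have hjm : m ≤ j := by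
    by_contra hc
    have := (hs j (not_le.1 hc).le).2
    linarith
  refine hV ⟨j - m, fun i hi => ?_, ?_⟩
  · have := hj (m + i) (by omega)
    rwa [hx] at this
  · show B < dot l (shiftP m X (j - m))
    simp only [shiftP, Nat.add_sub_cancel' hjm]
    linarith

omit [Nonempty (Fin d)] in
lemma dot_negl (z : Site d) : dot (-l) z = -dot l z := by simp [dot]

/-- The second walk seldom visits a promising site deep inside the strip. -/
theorem bad_second {ω : Env d} (hω : Elliptic ω) (y : Site d) {A k : ℝ} :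
    (1 / 2) * law ω y (VisitIn (slab l A (dot l y)) (low l (dot l y) k ∩ (lowSet ω l A (dot l y))ᶜ)) ≤
      law ω y (Up (-l) k \ UpS (-l) (dot l y - A)) := by
  set B := dot l y
  rw [show VisitIn (slab l A B) (low l B k ∩ (lowSet ω l A B)ᶜ) = ⋃ m,
    {X | (∀ i ≤ m, X i ∈ slab l A B) ∧ X m ∈ low l B k ∩ (lowSet ω l A B)ᶜ} by
      ext; simp [VisitIn]]
  refine trials hω y (fun m => (measurableSet_forall_le _ m).inter (measurableSet_inR _ m))
    (fun m X Y h => propext ?_) (measurableSet_UpAbs l A B) (fun m X hX => ?_) ?_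
  · simp only [Set.mem_inter_iff, Set.mem_ofPred_eq]
    rw [h m le_rfl]
    exact and_congr_left fun _ => forall₂_congr fun i hi => by rw [h i hi]
  · have h1 : ¬law ω (X m) (UpAbs l A B) < 1 / 2 := hX.2.2
    exact not_lt.1 h1
  rintro m X ⟨hs, hk, -⟩ hy ⟨i₀, hi₀, hi₀B⟩
  simp only [shiftP] at hi₀ hi₀B
  refine ⟨⟨m, fun i hi => ?_, ?_⟩, ?_⟩
  · simp only [dot_negl, hy]; linarith [(hs i hi.le).2]
  · simp only [dot_negl, hy]
    have : dot l (X m) ≤ B - k := hk
    linarith
  rintro ⟨j, hj, hjr⟩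
  simp only [dot_negl, hy] at hj hjr
  have hA : A ≤ B := (hs m le_rfl).1.trans (hs m le_rfl).2
  have hjA : dot l (X j) < A := by linarith
  have hjm : m ≤ j := by
    by_contra hc
    linarith [(hs j (not_le.1 hc).le).1]
  rcases Nat.lt_trichotomy (j - m) i₀ with h | h | h
  · have h' := hi₀ _ h
    rw [Nat.add_sub_cancel' hjm] at h'
    linarith
  · rw [← h, Nat.add_sub_cancel' hjm] at hi₀B
    linarith
  · linarith [hj (m + i₀) (by omega)]

/-- In one environment a first meeting deep inside the strip is rare. -/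
theorem prod_law_MeetUpTo_le {ω : Env d} (hω : Elliptic ω) (x y : Site d) (k : ℝ) (N : ℕ)
    {a : ℝ} (ha : a ≤ dot l y) :
    ((law ω x).prod (law ω y))
        (MeetUpTo (slab l (dot l x) a) (slab l (dot l x) (dot l y)) (high l (dot l x) k ∩ low l (dot l y) k) N) ≤
      2 * law ω x (Up l k \ UpS l (dot l y - dot l x)) +
        2 * law ω y (Up (-l) k \ UpS (-l) (dot l y - dot l x)) := by
  set A := dot l x
  set B := dot l y
  set S1 := VisitIn (slab l A B) (high l A k ∩ lowSet ω l A B)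
  set S2 := VisitIn (slab l A B) (low l B k ∩ (lowSet ω l A B)ᶜ)
  have hsub : MeetUpTo (slab l A a) (slab l A B) (high l A k ∩ low l B k) N ⊆
      Prod.fst ⁻¹' S1 ∪ Prod.snd ⁻¹' S2 := by
    rintro q ⟨i, hi, -, ⟨j, -, hj, hjz⟩, hz⟩
    by_cases hg : q.2 i ∈ lowSet ω l A B
    · exact Or.inl ⟨j, fun i' hi' => ⟨(hj i' hi').1, (hj i' hi').2.trans ha⟩,
        by rw [hjz]; exact ⟨hz.1, hg⟩⟩
    · exact Or.inr ⟨i, hi, hz.2, hg⟩
  have h2 : ∀ a b : ℝ≥0∞, (1 / 2) * a ≤ b → a ≤ 2 * b := fun a b h => by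
    calc a = 2 * ((1 / 2) * a) := by
          rw [← mul_assoc, one_div, ENNReal.mul_inv_cancel two_ne_zero ENNReal.ofNat_ne_top,
            one_mul]
      _ ≤ 2 * b := mul_le_mul_right h 2
  refine (measure_mono hsub).trans ((measure_union_le _ _).trans (add_le_add ?_ ?_))
  · rw [← Set.prod_univ, Measure.prod_prod, measure_univ, mul_one]
    exact h2 _ _ (bad_first hω x)
  · rw [← Set.univ_prod, Measure.prod_prod, measure_univ, one_mul]
    exact h2 _ _ (bad_second hω y)

variable (μ : Measure (Step d → ℝ)) [IsProbabilityMeasure μ]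

/-- The probability to get `k` but not more than `r` ahead, summed over both directions. -/
noncomputable def phi (l : Fin d → ℝ) (k r : ℝ) : ℝ≥0∞ :=
  ann μ (Up l k \ UpS l r) + ann μ (Up (-l) k \ UpS (-l) r)

omit [IsProbabilityMeasure μ] in
lemma translate_preimage_band (l : Fin d → ℝ) (v : Site d) (k r : ℝ) :
    (fun (X : ℕ → Site d) i => X i + v) ⁻¹' (Up l k \ UpS l r) = Up l k \ UpS l r := by
  ext X
  simp only [Up, UpS, Set.mem_preimage, Set.mem_sdiff, Set.mem_ofPred_eq, dot_add,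
    add_le_add_iff_right, add_right_comm _ (dot l v), add_lt_add_iff_right]

/-- The flip bound up to a finite time. -/
theorem meetUpTo_le (hμ : ∀ᵐ p ∂μ, (∀ e, 0 < p e) ∧ ∑ e, p e = 1) (x y : Site d) (k : ℝ) (N : ℕ)
    {a : ℝ} (ha : a ≤ dot l y) :
    ((annAt μ x).prod (annAt μ y))
        (MeetUpTo (slab l (dot l x) a) (slab l (dot l x) (dot l y)) (high l (dot l x) k ∩ low l (dot l y) k) N) ≤
      2 * phi μ l k (dot l y - dot l x) := by
  classical
  set R := slab l (dot l x) (dot l y)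
  set Q := slab l (dot l x) a
  set Z := high l (dot l x) k ∩ low l (dot l y) k
  have hloc : ∀ n (a : Fin (n + 1) → Site d),
      annAt μ x (pre n (ext a)) * annAt μ y (Hit R Z ↑(seen n (ext a))) =
        ∫⁻ ω, law ω x (pre n (ext a)) * law ω y (Hit R Z ↑(seen n (ext a))) ∂envLaw μ := by
    intro n a
    rw [annAt_apply μ x (measurableSet_pre _ _), annAt_apply μ y (measurableSet_Hit _ _ _),
      lintegral_mul_of_local μ (seen n (ext a)) (measurable_law_apply x (measurableSet_pre _ _))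
        (measurable_law_apply y (measurableSet_Hit _ _ _))]
    · exact fun ω ω' h => law_pre_congr x fun i hi =>
        h _ (Finset.mem_image_of_mem _ (Finset.mem_range.2 hi))
    · intro ω ω' h
      simp only [Hit_eq_iUnion,
        measure_iUnion (disjoint_HitAt _ _ _) (measurableSet_HitAt R Z _)]
      exact tsum_congr fun i => law_congr_prefix y (measurableSet_HitAt _ _ _ i)
        (prefix_HitAt _ _ _ i) (S := (↑(seen n (ext a)) : Set (Site d))ᶜ)
        (fun Y hY j hj => hY.2.1 j hj) fun z hz => h z (by simpa using hz)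
  have e : ((annAt μ x).prod (annAt μ y)) (MeetUpTo Q R Z N) =
      ∫⁻ ω, ((law ω x).prod (law ω y)) (MeetUpTo Q R Z N) ∂envLaw μ := by
    simp only [prod_MeetUpTo]
    have hm : ∀ n (a : Fin (n + 1) → Site d), Measurable fun ω : Env d =>
        if ext a ∈ Exit Q N n then
          law ω x (pre n (ext a)) * law ω y (Hit R Z ↑(seen n (ext a))) else 0 := by
      intro n a
      split_ifs
      · exact (measurable_law_apply x (measurableSet_pre _ _)).mul
          (measurable_law_apply y (measurableSet_Hit _ _ _))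
      · exact measurable_const
    rw [lintegral_tsum fun n => (Measurable.ennreal_tsum (hm n)).aemeasurable]
    refine tsum_congr fun n => ?_
    rw [lintegral_tsum fun a => (hm n a).aemeasurable]
    refine tsum_congr fun a => ?_
    split_ifs
    · exact hloc n a
    · simp
  have hU := fun l' : Fin d → ℝ =>
    (measurableSet_Up l' k).diff (measurableSet_UpS l' (dot l y - dot l x))
  rw [e]
  refine (lintegral_mono_ae ((ae_elliptic μ hμ).mono fun ω hω =>
    prod_law_MeetUpTo_le hω x y k N ha)).trans (le_of_eq ?_)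
  rw [lintegral_add_left ((measurable_law_apply x (hU l)).const_mul 2),
    lintegral_const_mul 2 (measurable_law_apply x (hU l)),
    lintegral_const_mul 2 (measurable_law_apply y (hU (-l))),
    lintegral_law_eq_ann μ x (hU l), lintegral_law_eq_ann μ y (hU (-l)),
    translate_preimage_band, translate_preimage_band, phi, mul_add]

/-- **The finite horizon flip bound.** Two independent annealed walks, from the bottom and from the
top of a strip, meet first at depth at least `k` inside it with probability at most twice the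
probability to get `k` but not through the strip. -/
theorem meet_le (hμ : ∀ᵐ p ∂μ, (∀ e, 0 < p e) ∧ ∑ e, p e = 1) (x y : Site d) (k : ℝ)
    {a : ℝ} (ha : a ≤ dot l y) :
    ((annAt μ x).prod (annAt μ y))
        (Meet (slab l (dot l x) a) (slab l (dot l x) (dot l y)) (high l (dot l x) k ∩ low l (dot l y) k)) ≤
      2 * phi μ l k (dot l y - dot l x) := by
  set R := slab l (dot l x) (dot l y)
  set Q := slab l (dot l x) a
  set Z := high l (dot l x) k ∩ low l (dot l y) k
  set I : ℕ → Set ((ℕ → Site d) × (ℕ → Site d)) := fun M => ⋂ N, MeetUpTo Q R Z (N + M)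
  have hsub : Meet Q R Z ⊆ ⋃ M, I M := by
    rintro q ⟨i, hi, hni, ⟨j, hj, hjz⟩, hz⟩
    refine Set.mem_iUnion.2 ⟨j + 1, Set.mem_iInter.2 fun N => ?_⟩
    exact ⟨i, hi, fun i' hi' ⟨j', _, h1, h2⟩ => hni i' hi' ⟨j', h1, h2⟩,
      ⟨j, by omega, hj, hjz⟩, hz⟩
  have hmono : Monotone I := fun M M' h q hq => Set.mem_iInter.2 fun N => by
    have := Set.mem_iInter.1 hq (N + (M' - M))
    rwa [show N + (M' - M) + M = N + M' by omega] at this
  refine (measure_mono hsub).trans ?_
  rw [hmono.measure_iUnion]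
  exact iSup_le fun M => (measure_mono (Set.iInter_subset _ 0)).trans
    (meetUpTo_le μ hμ x y k (0 + M) ha)

lemma ann_up_eq_reach (l : Fin d → ℝ) (k : ℝ) : ann μ (Up l k) = ann μ (Reach0 l k) := by
  refine lintegral_congr fun ω => measure_congr ?_
  filter_upwards [ae_law_zero ω 0] with X hX
  refine propext ?_
  show X ∈ Up l k ↔ X ∈ Reach0 l k
  simp only [Up, Reach0, Set.mem_ofPred_eq, hX, dot_zero, zero_add, and_comm]

lemma ann_upS_eq_pass (l : Fin d → ℝ) (r : ℝ) : ann μ (UpS l r) = ann μ (Pass0 l r) := by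
  refine lintegral_congr fun ω => measure_congr ?_
  filter_upwards [ae_law_zero ω 0] with X hX
  refine propext ?_
  show X ∈ UpS l r ↔ X ∈ Pass0 l r
  simp only [UpS, Pass0, Set.mem_ofPred_eq, hX, dot_zero, zero_add, and_comm]

lemma ann_band (l : Fin d → ℝ) {k r : ℝ} (h : k ≤ r) :
    ann μ (Up l k \ UpS l r) = ann μ (Reach0 l k) - ann μ (Pass0 l r) := by
  have hsub : UpS l r ⊆ Up l k := fun X ⟨m, h1, h2⟩ => ⟨m, h1, by linarith⟩
  rw [← ann_up_eq_reach, ← ann_upS_eq_pass,
    ann_eq μ ((measurableSet_Up l k).diff (measurableSet_UpS l r)),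
    ann_eq μ (measurableSet_Up l k), ann_eq μ (measurableSet_UpS l r)]
  exact measure_sdiff hsub (measurableSet_UpS l r).nullMeasurableSet (measure_ne_top _ _)

/-- The pinned form of the flip bound. -/
theorem stripPin (hμ : ∀ᵐ p ∂μ, (∀ e, 0 < p e) ∧ ∑ e, p e = 1) : StripPin μ l := by
  intro x y k _ hkr
  rw [← mul_add, ← ann_band μ l hkr, ← ann_band μ (-l) hkr]
  refine le_trans (measure_mono ?_) (meet_le μ hμ x y k le_rfl)
  rintro q ⟨i, j, he, h1, h2, hU, hW, hfirst⟩
  refine ⟨j, hW, fun j' hj' ⟨i', hi', hie⟩ => hfirst j' hj' i' hi' hie, ⟨i, hU, he⟩, ?_, ?_⟩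
  · show dot l x + k ≤ dot l (q.2 j)
    rw [← he]; exact h1
  · show dot l (q.2 j) ≤ dot l y - k
    rw [← he]; exact h2

/-- The second path first meets the part of the first one below the level `a` away from the
boundaries of the strip `[lo, hi]`. -/
def StripMeetCut (l : Fin d → ℝ) (lo hi a k : ℝ) : Set ((ℕ → Site d) × (ℕ → Site d)) :=
  {q | ∃ i j, q.1 i = q.2 j ∧ lo + k ≤ dot l (q.1 i) ∧ dot l (q.1 i) ≤ hi - k ∧
    (∀ i' ≤ i, dot l (q.1 i') ∈ Set.Icc lo a) ∧ (∀ j' ≤ j, dot l (q.2 j') ∈ Set.Icc lo hi) ∧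
    ∀ j' < j, ∀ i', (∀ i'' ≤ i', dot l (q.1 i'') ∈ Set.Icc lo a) → q.1 i' ≠ q.2 j'}

/-- The flip bound for the sites that the first walk visits before it passes a level `a`. -/
theorem stripCut_le (hμ : ∀ᵐ p ∂μ, (∀ e, 0 < p e) ∧ ∑ e, p e = 1) (x y : Site d) {a k : ℝ}
    (ha : a ≤ dot l y) (hkr : k ≤ dot l y - dot l x) :
    ((annFrom μ x).prod (annFrom μ y)) (StripMeetCut l (dot l x) (dot l y) a k) ≤
      2 * (ann μ (Reach0 l k) - ann μ (Pass0 l (dot l y - dot l x))) +
      2 * (ann μ (Reach0 (-l) k) - ann μ (Pass0 (-l) (dot l y - dot l x))) := by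
  rw [← mul_add, ← ann_band μ l hkr, ← ann_band μ (-l) hkr]
  refine le_trans (measure_mono ?_) (meet_le μ hμ x y k ha)
  rintro q ⟨i, j, he, h1, h2, hU, hW, hfirst⟩
  refine ⟨j, hW, fun j' hj' ⟨i', hi', hie⟩ => hfirst j' hj' i' hi' hie, ⟨i, hU, he⟩, ?_, ?_⟩
  · show dot l x + k ≤ dot l (q.2 j)
    rw [← he]; exact h1
  · show dot l (q.2 j) ≤ dot l y - k
    rw [← he]; exact h2

end Vale.Agent.P147.Flip
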