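import Vale.Agent.P147.Flip.Disjoint
import Vale.Agent.P147.Flip.Strip

/-!
# Meetings above the middle of the strip are rare

The walk from the top of `m` blocks can meet them only at a site from which an escape downwards is
likely. The first walk visits such a site with small probability, and the law of the end of its
blocks, seen from any time on, is dominated by a function of small mean total mass.
-/

namespace Vale.Agent.P147.Flip

open MeasureTheory Filter Topology Set Vale.Agent.P147.Balanced Vale.Agent.P147.Linear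
open scoped ENNReal

variable {d : ℕ} {l : Fin d → ℝ}

/-! ## Maximal inequalities -/

/-- A number at most one is below its dyadic staircase. -/
lemma le_dyadic {f : ℝ≥0∞} (hf : f ≤ 1) : ∀ J : ℕ, f ≤
    (∑ j ∈ Finset.range J, (2⁻¹ : ℝ≥0∞) ^ j * (if (2⁻¹ : ℝ≥0∞) ^ (j + 1) < f then 1 else 0)) +
      (2⁻¹ : ℝ≥0∞) ^ J
  | 0 => by simpa using hf
  | J + 1 => by
    rw [Finset.sum_range_succ]
    split_ifs with h
    · rw [mul_one]
      exact (le_dyadic hf J).trans le_self_add
    · exact (not_lt.1 h).trans le_add_self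

/-- A function at most one whose levels are weakly bounded by `m` has a small mean. -/
theorem lintegral_le_dyadic (ν : Measure (ℕ → Site d)) [IsProbabilityMeasure ν]
    {f : (ℕ → Site d) → ℝ≥0∞} (hf : ∀ X, f X ≤ 1) (hfm : Measurable f) {m : ℝ≥0∞}
    (h : ∀ s : ℝ≥0∞, s * ν {X | s < f X} ≤ m) (J : ℕ) :
    ∫⁻ X, f X ∂ν ≤ 2 * J * m + (2⁻¹ : ℝ≥0∞) ^ J := by
  have hs : ∀ j : ℕ, MeasurableSet {X | (2⁻¹ : ℝ≥0∞) ^ (j + 1) < f X} := fun j =>
    measurableSet_lt measurable_const hfm
  refine (lintegral_mono fun X => le_dyadic (hf X) J).trans ?_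
  rw [lintegral_add_right _ measurable_const, lintegral_finsetSum _ fun j _ =>
    (Measurable.ite (hs j) measurable_const measurable_const).const_mul _]
  refine add_le_add ?_ (by simp)
  calc ∑ j ∈ Finset.range J, ∫⁻ X, (2⁻¹ : ℝ≥0∞) ^ j *
        (if (2⁻¹ : ℝ≥0∞) ^ (j + 1) < f X then 1 else 0) ∂ν
      ≤ ∑ j ∈ Finset.range J, 2 * m := by
        refine Finset.sum_le_sum fun j _ => ?_
        rw [lintegral_const_mul _ (Measurable.ite (hs j) measurable_const measurable_const)]
        have e : (∫⁻ X, (if (2⁻¹ : ℝ≥0∞) ^ (j + 1) < f X then 1 else 0) ∂ν) =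
            ν {X | (2⁻¹ : ℝ≥0∞) ^ (j + 1) < f X} := by
          rw [← lintegral_indicator_one (hs j)]
          refine lintegral_congr fun X => ?_
          simp [Set.indicator_apply]
        rw [e]
        calc (2⁻¹ : ℝ≥0∞) ^ j * ν {X | (2⁻¹ : ℝ≥0∞) ^ (j + 1) < f X}
            = 2 * ((2⁻¹ : ℝ≥0∞) ^ (j + 1) * ν {X | (2⁻¹ : ℝ≥0∞) ^ (j + 1) < f X}) := by
              rw [← mul_assoc, pow_succ', ← mul_assoc,
                ENNReal.mul_inv_cancel two_ne_zero ENNReal.ofNat_ne_top, one_mul]
          _ ≤ 2 * m := mul_le_mul_right (h _) 2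
    _ = 2 * J * m := by simp; ring

/-- The probability of `E` given the path up to time `k`. -/
noncomputable def cmp (ν : Measure (ℕ → Site d)) (E : Set (ℕ → Site d)) (k : ℕ)
    (X : ℕ → Site d) : ℝ≥0∞ :=
  ν (pre k X ∩ E) / ν (pre k X)

lemma pre_congr {k : ℕ} {X Y : ℕ → Site d} (h : ∀ i ≤ k, X i = Y i) : pre k X = pre k Y := by
  ext Z
  exact forall₂_congr fun i hi => by rw [h i hi]

lemma prefix_cmp (ν : Measure (ℕ → Site d)) (E : Set (ℕ → Site d)) (k : ℕ) :
    Prefix k (cmp ν E k) := fun X Y h => by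
  simp only [cmp, pre_congr h]

lemma measurable_of_prefix {β : Type*} [MeasurableSpace β] {k : ℕ} {F : (ℕ → Site d) → β}
    (hF : Prefix k F) : Measurable F := by
  have e : F = (fun a : Fin (k + 1) → Site d => F (ext a)) ∘ res k := by
    funext X
    exact hF X _ fun i hi => (ext_res_apply hi X).symm
  rw [e]
  exact (measurable_of_countable _).comp (measurable_pi_lambda _ fun i => measurable_pi_apply _)

lemma cmp_le_one (ν : Measure (ℕ → Site d)) (E : Set (ℕ → Site d)) (k : ℕ) (X : ℕ → Site d) :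
    cmp ν E k X ≤ 1 :=
  ENNReal.div_le_of_le_mul (by rw [one_mul]; exact measure_mono Set.inter_subset_left)

lemma cmp_mul (ν : Measure (ℕ → Site d)) [IsFiniteMeasure ν] (E : Set (ℕ → Site d)) (k : ℕ)
    (X : ℕ → Site d) : cmp ν E k X * ν (pre k X) = ν (pre k X ∩ E) :=
  ENNReal.div_mul_cancel' (fun h => measure_mono_null Set.inter_subset_left h)
    fun h => absurd h (measure_ne_top _ _)

/-- The maximal inequality for the probability of an event given the past. -/
theorem cmp_maximal (ν : Measure (ℕ → Site d)) [IsFiniteMeasure ν] {E : Set (ℕ → Site d)}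
    (hE : MeasurableSet E) (s : ℝ≥0∞) : s * ν {X | s < ⨆ k, cmp ν E k X} ≤ ν E := by
  classical
  set T : ℕ → Set (ℕ → Site d) := fun k => {X | s < cmp ν E k X}
  have hTp : ∀ k, Prefix k fun X => X ∈ T k := fun k X Y h => by
    simp only [T, Set.mem_ofPred_eq, prefix_cmp ν E k X Y h]
  have hTm : ∀ k, MeasurableSet (T k) := fun k =>
    measurableSet_lt measurable_const (measurable_of_prefix (prefix_cmp ν E k))
  set F : ℕ → Set (ℕ → Site d) := disjointed T
  have hFm : ∀ k, MeasurableSet (F k) := MeasurableSet.disjointed hTm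
  have hFp : ∀ k, Prefix k fun X => X ∈ F k := fun k X Y h => propext <| by
    simp only [F, disjointed_eq_inter_compl, Set.mem_inter_iff, Set.mem_iInter, Set.mem_compl_iff]
    exact and_congr (iff_of_eq (hTp k X Y h)) (forall₂_congr fun i hi =>
      not_congr (iff_of_eq (hTp i X Y fun j hj => h j (hj.trans hi.le))))
  have key : ∀ k, s * ν (F k) ≤ ν (F k ∩ E) := by
    intro k
    have split : ∀ G : Set (ℕ → Site d), MeasurableSet G →
        ν G = ∑' a : Fin (k + 1) → Site d, ν (pre k (ext a) ∩ G) := by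
      intro G hG
      rw [← lintegral_indicator_one hG, lintegral_eq_tsum ν k]
      refine tsum_congr fun a => ?_
      rw [← lintegral_indicator_one ((measurableSet_pre _ _).inter hG),
        ← lintegral_indicator (measurableSet_pre _ _)]
      refine lintegral_congr fun X => ?_
      rw [Set.indicator_indicator]
    rw [split _ (hFm k), split _ ((hFm k).inter hE), ← ENNReal.tsum_mul_left]
    refine ENNReal.tsum_le_tsum fun a => ?_
    by_cases ha : ext a ∈ F k
    · have h1 : pre k (ext a) ∩ F k = pre k (ext a) :=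
        Set.inter_eq_left.2 fun X hX => (iff_of_eq (hFp k X (ext a) hX)).2 ha
      rw [← Set.inter_assoc, h1]
      refine le_trans ?_ (cmp_mul ν E k (ext a)).le
      exact mul_le_mul_left (disjointed_subset T k ha : s < cmp ν E k (ext a)).le _
    · have h1 : pre k (ext a) ∩ F k = ∅ := Set.eq_empty_of_forall_notMem fun X hX =>
        ha ((iff_of_eq (hFp k X (ext a) hX.1)).1 hX.2)
      rw [h1]
      simp
  have hU : {X | s < ⨆ k, cmp ν E k X} = ⋃ k, T k := by
    ext X; simp [T, lt_iSup_iff]
  have hd : Pairwise fun i j => Disjoint (F i ∩ E) (F j ∩ E) := fun i j hij =>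
    ((disjoint_disjointed T) hij).mono Set.inter_subset_left Set.inter_subset_left
  rw [hU, ← iUnion_disjointed, measure_iUnion (disjoint_disjointed T) hFm,
    ← ENNReal.tsum_mul_left]
  refine (ENNReal.tsum_le_tsum key).trans ?_
  rw [← measure_iUnion hd fun k => (hFm k).inter hE]
  exact measure_mono (Set.iUnion_subset fun k => Set.inter_subset_right)

/-! ## The events -/

/-- The `m` blocks end at `t`, and the path escapes without return. -/
def EndAt (l : Fin d → ℝ) (m : ℕ) (t : Site d) : Set (ℕ → Site d) :=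
  Good l ∩ {X | X (blockT l m X) = t}

lemma measurableSet_EndAt (m : ℕ) (t : Site d) : MeasurableSet (EndAt (d := d) l m t) :=
  measurableSet_Good.inter (measurable_apply_time (measurable_blockT m) (measurableSet_singleton t))

/-- The walk from the end of `m` blocks meets them first, along the first walk, above `lo`. -/
def HighMeet (l : Fin d → ℝ) (m : ℕ) (lo hi : ℝ) : Set ((ℕ → Site d) × (ℕ → Site d)) :=
  {q | ∃ i < blockT l m q.1, lo ≤ dot l (q.1 i) ∧ dot l (q.1 (blockT l m q.1)) ≤ hi ∧
    (∃ j, q.1 i = q.1 (blockT l m q.1) + q.2 j) ∧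
    ∀ i' < i, ∀ j, q.1 i' ≠ q.1 (blockT l m q.1) + q.2 j}

/-- The site at time `k` is above `lo`, before the exit of the strip `[0, hi]`. -/
def InBand (l : Fin d → ℝ) (lo hi : ℝ) (k : ℕ) (X : ℕ → Site d) : Prop :=
  (∀ i ≤ k, X i ∈ slab l 0 hi) ∧ lo ≤ dot l (X k)

lemma InBand_congr (lo hi : ℝ) {k : ℕ} {X Y : ℕ → Site d} (h : ∀ i ≤ k, X i = Y i) :
    InBand l lo hi k X ↔ InBand l lo hi k Y := by
  rw [InBand, InBand, h k le_rfl]
  exact and_congr_left fun _ => forall₂_congr fun i hi => by rw [h i hi]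

lemma measurableSet_InBand (lo hi : ℝ) (k : ℕ) :
    MeasurableSet {X : ℕ → Site d | InBand l lo hi k X} :=
  (measurableSet_forall_le _ k).inter (measurableSet_le measurable_const (measurable_dot k))

variable [Nonempty (Fin d)]

/-- Upper bound for trials at the first time of an event that depends on the past. -/
theorem trials_le {ω : Env d} (hω : Elliptic ω) (x : Site d) {T : ℕ → Set (ℕ → Site d)}
    (hT : ∀ m, MeasurableSet (T m)) (hTp : ∀ m, Prefix m fun X => X ∈ T m)
    {V : Set (ℕ → Site d)} (hV : MeasurableSet V) {c : ℝ≥0∞}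
    (hc : ∀ m, ∀ X ∈ T m, law ω (X m) V ≤ c) :
    law ω x (⋃ m, disjointed T m ∩ shiftP m ⁻¹' V) ≤ c := by
  set F : ℕ → Set (ℕ → Site d) := disjointed T with hF
  have hFm : ∀ m, MeasurableSet (F m) := MeasurableSet.disjointed hT
  have hFp : ∀ m, Prefix m fun X => X ∈ F m := fun m X Y h => propext <| by
    simp only [hF, disjointed_eq_inter_compl, Set.mem_inter_iff, Set.mem_iInter, Set.mem_compl_iff]
    exact and_congr (iff_of_eq (hTp m X Y h)) (forall₂_congr fun i hi =>
      not_congr (iff_of_eq (hTp i X Y fun j hj => h j (hj.trans hi.le))))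
  have key : ∀ m, law ω x (F m ∩ shiftP m ⁻¹' V) ≤ c * law ω x (F m) := fun m => by
    have hp : Prefix m ((F m).indicator (1 : (ℕ → Site d) → ℝ≥0∞)) := fun X Y hXY => by
      have h : X ∈ F m ↔ Y ∈ F m := iff_of_eq (hFp m X Y hXY)
      by_cases hX : X ∈ F m
      · simp [hX, h.1 hX]
      · simp [hX, mt h.2 hX]
    have h1 := lintegral_markov hω (x := x) hp (G := fun _ => V.indicator 1)
      fun _ => measurable_one.indicator hV
    rw [← lintegral_indicator_one ((hFm m).inter (measurable_shiftP m hV)),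
      ← lintegral_indicator_one (hFm m),
      ← lintegral_const_mul c (measurable_one.indicator (hFm m))]
    refine le_trans (lintegral_mono fun X => ?_) (h1.le.trans (lintegral_mono fun X => ?_))
    · by_cases h1' : X ∈ F m <;> by_cases h2 : shiftP m X ∈ V <;> simp [h1', h2]
    · by_cases hX : X ∈ F m
      · simp only [Set.indicator_of_mem hX, Pi.one_apply, mul_one, one_mul,
          lintegral_indicator_one hV]
        exact hc m X (disjointed_subset T m hX)
      · simp [hX]
  have hd : Pairwise fun i j => Disjoint (F i ∩ shiftP i ⁻¹' V) (F j ∩ shiftP j ⁻¹' V) :=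
    fun i j hij => ((disjoint_disjointed T) hij).mono Set.inter_subset_left Set.inter_subset_left
  calc law ω x (⋃ m, F m ∩ shiftP m ⁻¹' V) = ∑' m, law ω x (F m ∩ shiftP m ⁻¹' V) :=
        measure_iUnion hd fun m => (hFm m).inter (measurable_shiftP m hV)
    _ ≤ ∑' m, c * law ω x (F m) := ENNReal.tsum_le_tsum key
    _ = c * law ω x (⋃ m, F m) := by
        rw [measure_iUnion (disjoint_disjointed T) hFm, ENNReal.tsum_mul_left]
    _ ≤ c := mul_le_of_le_one_right' prob_le_one

/-- The worst site that the first walk visits in the band. -/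
noncomputable def worst (ω : Env d) (l : Fin d → ℝ) (lo hi : ℝ) (X : ℕ → Site d) : ℝ≥0∞ :=
  ⨆ k, {Y | InBand l lo hi k Y}.indicator (fun Y => law ω (Y k) (UpAbs l 0 hi)ᶜ) X

lemma measurable_worst (ω : Env d) (lo hi : ℝ) : Measurable (worst ω l lo hi) :=
  Measurable.iSup fun k => ((measurable_of_countable fun z => law ω z (UpAbs l 0 hi)ᶜ).comp
    (measurable_pi_apply k)).indicator (measurableSet_InBand lo hi k)

lemma worst_le_one (ω : Env d) (lo hi : ℝ) (X : ℕ → Site d) : worst ω l lo hi X ≤ 1 :=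
  iSup_le fun _ => Set.indicator_le (fun _ _ => prob_le_one) X

/-- The first walk seldom visits a bad site of the band. -/
theorem worst_maximal {ω : Env d} (hω : Elliptic ω) (lo hi : ℝ) (s : ℝ≥0∞) :
    s * law ω 0 {X | s < worst ω l lo hi X} ≤ law ω 0 (Up l lo \ UpS l hi) := by
  classical
  have hU : {X | s < worst ω l lo hi X} =
      ⋃ k, {X | InBand l lo hi k X ∧ s < law ω (X k) (UpAbs l 0 hi)ᶜ} := by
    ext X
    simp only [worst, Set.mem_ofPred_eq, lt_iSup_iff, Set.mem_iUnion, Set.indicator_apply]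
    refine exists_congr fun k => ?_
    by_cases hb : InBand l lo hi k X <;> simp [hb]
  rw [hU]
  refine trials hω 0 (fun k => (measurableSet_InBand lo hi k).inter
    (measurableSet_lt measurable_const ((measurable_of_countable fun z =>
      law ω z (UpAbs l 0 hi)ᶜ).comp (measurable_pi_apply k))))
    (fun k X Y h => propext ?_) (measurableSet_UpAbs l 0 hi).compl (fun k X hX => hX.2.le) ?_
  · simp only [Set.mem_inter_iff, Set.mem_ofPred_eq, InBand_congr lo hi h, Function.comp_apply,
      h k le_rfl]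
  rintro m X ⟨⟨hs, hk⟩, -⟩ hx hV
  have h0 : dot l (X 0) = 0 := by rw [hx]; simp [dot]
  refine ⟨⟨m, fun i hi' => by rw [h0]; exact (hs i hi'.le).1, by rw [h0, zero_add]; exact hk⟩, ?_⟩
  rintro ⟨j, hj, hjr⟩
  rw [h0, zero_add] at hjr
  have hjm : m ≤ j := by
    by_contra hc
    have := (hs j (not_le.1 hc).le).2
    linarith
  refine hV ⟨j - m, fun i hi' => ?_, ?_⟩
  · have := hj (m + i) (by omega)
    rwa [h0] at this
  · show hi < dot l (shiftP m X (j - m))
    simp only [shiftP, Nat.add_sub_cancel' hjm]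
    exact hjr

/-- From below `hi`, a walk that never rises and visits the band sites of `X` is rare. -/
theorem hit_band_le {ω : Env d} (hω : Elliptic ω) (lo hi : ℝ) (X : ℕ → Site d) {t : Site d}
    (ht : dot l t ≤ hi) :
    law ω t (Good (-l) ∩ {Y | ∃ k, InBand l lo hi k X ∧ ∃ j, Y j = X k}) ≤
      worst ω l lo hi X := by
  set B : Set (Site d) := {z | ∃ k, InBand l lo hi k X ∧ z = X k}
  set T : ℕ → Set (ℕ → Site d) := fun j => {Y | Y j ∈ B}
  have hTp : ∀ j, Prefix j fun Y => Y ∈ T j := fun j Y Y' h => by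
    simp only [T, Set.mem_ofPred_eq, h j le_rfl]
  refine le_trans (measure_mono_ae ?_)
    (trials_le hω t (fun j => measurableSet_inR B j) hTp (measurableSet_UpAbs l 0 hi).compl ?_)
  · filter_upwards [ae_law_zero ω t] with Y hY0 hY
    obtain ⟨k, hk, j, hj⟩ := hY.2
    have hmem : Y ∈ ⋃ j, T j := Set.mem_iUnion.2 ⟨j, show Y j ∈ B from ⟨k, hk, hj⟩⟩
    rw [← iUnion_disjointed] at hmem
    obtain ⟨j', hj'⟩ := Set.mem_iUnion.1 hmem
    refine Set.mem_iUnion.2 ⟨j', hj', ?_⟩
    rintro ⟨i, -, hi'⟩
    have h1 := hY.1.1 (j' + i)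
    simp only [dot_negl, hY0] at h1
    simp only [shiftP] at hi'
    linarith
  · rintro j Y ⟨k, hk, hjk⟩
    rw [hjk]
    refine le_iSup_of_le k ?_
    rw [Set.indicator_of_mem (show X ∈ {Y | InBand l lo hi k Y} from hk)]

variable (μ : Measure (Step d → ℝ)) [IsProbabilityMeasure μ]

/-- The total of the probabilities of the ends given the path, maximised up to time `k`. -/
noncomputable def tot (l : Fin d → ℝ) (m k : ℕ) (X : ℕ → Site d) : ℝ≥0∞ :=
  ∑' t, ⨆ i, ⨆ (_ : i ≤ k), cmp (annM μ) (EndAt l m t) i X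

/-- The same over all times. -/
noncomputable def totAll (l : Fin d → ℝ) (m : ℕ) (X : ℕ → Site d) : ℝ≥0∞ :=
  ∑' t, ⨆ i, cmp (annM μ) (EndAt l m t) i X

lemma prefix_tot (m k : ℕ) : Prefix k (tot μ l m k) := fun X Y h =>
  tsum_congr fun t => iSup_congr fun i => iSup_congr fun hi =>
    prefix_cmp _ _ i X Y fun j hj => h j (hj.trans hi)

lemma measurable_totAll (m : ℕ) : Measurable (totAll (d := d) μ l m) :=
  Measurable.ennreal_tsum fun t => Measurable.iSup fun i =>
    measurable_of_prefix (prefix_cmp _ _ i)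

/-- The mean of the total. -/
theorem lintegral_totAll (m : ℕ) (J : Site d → ℕ) :
    ∫⁻ X, totAll μ l m X ∂annM μ ≤ ∑' t, (2 * J t * ((annM μ).restrict (Good l))
      {X | X (blockT l m X) = t} + (2⁻¹ : ℝ≥0∞) ^ J t) := by
  unfold totAll
  rw [lintegral_tsum fun t => (Measurable.iSup fun i =>
    measurable_of_prefix (prefix_cmp _ _ i)).aemeasurable]
  refine ENNReal.tsum_le_tsum fun t => ?_
  rw [Measure.restrict_apply' measurableSet_Good, Set.inter_comm]
  exact lintegral_le_dyadic _ (fun X => iSup_le fun i => cmp_le_one _ _ i X)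
    (Measurable.iSup fun i => measurable_of_prefix (prefix_cmp _ _ i))
    (cmp_maximal _ (measurableSet_EndAt m t)) (J t)

/-- The mean of the worst site of the band. -/
theorem lintegral_worst (hμ : ∀ᵐ p ∂μ, (∀ e, 0 < p e) ∧ ∑ e, p e = 1) (lo hi : ℝ) (J : ℕ) :
    ∫⁻ ω, ∫⁻ X, worst ω l lo hi X ∂law ω 0 ∂envLaw μ ≤
      2 * J * ann μ (Up l lo \ UpS l hi) + (2⁻¹ : ℝ≥0∞) ^ J := by
  refine (lintegral_mono_ae ((ae_elliptic μ hμ).mono fun ω hω =>
    lintegral_le_dyadic (law ω 0) (worst_le_one ω lo hi) (measurable_worst ω lo hi)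
      (worst_maximal hω lo hi) J)).trans (le_of_eq ?_)
  have hm := measurable_law_apply (0 : Site d)
    ((measurableSet_Up l lo).diff (measurableSet_UpS l hi))
  rw [lintegral_add_left (hm.const_mul _), lintegral_const_mul _ hm, lintegral_const,
    measure_univ, mul_one, ann]

/-! ## Product law and common environment -/

/-- The times in the band at which the total is still at most `lam`. -/
def OK (l : Fin d → ℝ) (m : ℕ) (lo hi : ℝ) (lam : ℝ≥0∞) (k : ℕ) (X : ℕ → Site d) : Prop :=
  InBand l lo hi k X ∧ tot μ l m k X ≤ lam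

/-- The second walk avoids the first one before time `k` and visits its site at time `k`. -/
def Turn (l : Fin d → ℝ) (k : ℕ) (X : ℕ → Site d) : Set (ℕ → Site d) :=
  {Y | ∀ n, Y n ∉ (↑(seen k X) : Set (Site d))} ∩ (Good (-l) ∩ {Y | ∃ j, Y j = X k})

omit [Nonempty (Fin d)] in
lemma measurableSet_visit (z : Site d) : MeasurableSet {Y : ℕ → Site d | ∃ j, Y j = z} := by
  rw [show {Y : ℕ → Site d | ∃ j, Y j = z} = ⋃ j, {Y | Y j ∈ ({z} : Set (Site d))} by ext; simp]
  exact MeasurableSet.iUnion fun j => measurableSet_inR _ j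

omit [Nonempty (Fin d)] in
lemma measurableSet_Turn (k : ℕ) (X : ℕ → Site d) : MeasurableSet (Turn l k X) := by
  refine MeasurableSet.inter ?_ (measurableSet_Good.inter (measurableSet_visit _))
  rw [show {Y : ℕ → Site d | ∀ n, Y n ∉ (↑(seen k X) : Set (Site d))} =
    ⋂ n, {Y | Y n ∈ (↑(seen k X) : Set (Site d))ᶜ} by ext; simp]
  exact MeasurableSet.iInter fun n => measurableSet_inR _ n

open Classical in
/-- The weight of a turn at time `k`, in one environment. -/
noncomputable def turnW (ω : Env d) (l : Fin d → ℝ) (m : ℕ) (lo hi : ℝ) (lam : ℝ≥0∞) (k : ℕ)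
    (X : ℕ → Site d) : ℝ≥0∞ :=
  ∑' t, if OK μ l m lo hi lam k X ∧ dot l t ≤ hi then
    cmp (annM μ) (EndAt l m t) k X * law ω t (Turn l k X) else 0

lemma prefix_turnW (ω : Env d) (m : ℕ) (lo hi : ℝ) (lam : ℝ≥0∞) (k : ℕ) :
    Prefix k (turnW μ ω l m lo hi lam k) := fun X Y h => by
  classical
  have h1 : OK μ l m lo hi lam k X ↔ OK μ l m lo hi lam k Y := by
    rw [OK, OK, InBand_congr lo hi h, prefix_tot μ m k X Y h]
  have h2 : Turn l k X = Turn l k Y := by
    simp only [Turn, seen_congr fun i hi => h i hi.le, h k le_rfl]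
  simp only [turnW, h1, h2]
  exact tsum_congr fun t => by rw [prefix_cmp (annM μ) (EndAt l m t) k X Y h]

open Classical in
/-- In one environment, along one path of the first walk, the turns weigh at most `lam` times the
worst site. -/
theorem tsum_turnW_le {ω : Env d} (hω : Elliptic ω) (m : ℕ) (lo hi : ℝ) (lam : ℝ≥0∞)
    (X : ℕ → Site d) : ∑' k, turnW μ ω l m lo hi lam k X ≤ lam * worst ω l lo hi X := by
  set g : Site d → ℕ → ℝ≥0∞ := fun t K =>
    ⨆ i, ⨆ (_ : i ≤ K), if OK μ l m lo hi lam i X then cmp (annM μ) (EndAt l m t) i X else 0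
  have hg : ∀ t, Monotone (g t) := fun t K K' hK =>
    iSup_mono fun i => iSup_le fun h => le_iSup_of_le (h.trans hK) le_rfl
  have hsum : ∀ K, ∑' t, g t K ≤ lam := by
    intro K
    by_cases hex : ∃ i ≤ K, OK μ l m lo hi lam i X
    · obtain ⟨i₀, hi₀, hmax⟩ := ((Finset.range (K + 1)).filter
        (fun i => OK μ l m lo hi lam i X)).exists_max_image id
        (by obtain ⟨i, h1, h2⟩ := hex
            exact ⟨i, Finset.mem_filter.2 ⟨Finset.mem_range.2 (by omega), h2⟩⟩)
      refine le_trans (ENNReal.tsum_le_tsum fun t => ?_) (Finset.mem_filter.1 hi₀).2.2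
      refine iSup₂_le fun i hi' => ?_
      split_ifs with h
      · exact le_iSup₂_of_le i (hmax i (Finset.mem_filter.2 ⟨Finset.mem_range.2 (by omega), h⟩))
          le_rfl
      · exact bot_le
    · push Not at hex
      have : ∀ t, g t K = 0 := fun t => by
        refine le_antisymm (iSup₂_le fun i hi' => ?_) bot_le
        simp [hex i hi']
      simp [this]
  have hG : ∑' t, ⨆ K, g t K ≤ lam := by
    rw [ENNReal.tsum_eq_iSup_sum]
    refine iSup_le fun S => ?_
    rw [ENNReal.finsetSum_iSup_of_monotone fun t => hg t]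
    exact iSup_le fun K => (ENNReal.sum_le_tsum S).trans (hsum K)
  have hd : Pairwise fun k k' => Disjoint (Turn l k X) (Turn l k' X) := by
    intro k k' hne
    refine Set.disjoint_left.2 fun Y h h' => ?_
    rcases lt_or_gt_of_ne hne with hlt | hlt
    · obtain ⟨j, hj⟩ := h.2.2
      exact h'.1 j (by rw [hj]; exact Finset.mem_image_of_mem _ (Finset.mem_range.2 hlt))
    · obtain ⟨j, hj⟩ := h'.2.2
      exact h.1 j (by rw [hj]; exact Finset.mem_image_of_mem _ (Finset.mem_range.2 hlt))
  calc ∑' k, turnW μ ω l m lo hi lam k X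
      = ∑' t, ∑' k, if OK μ l m lo hi lam k X ∧ dot l t ≤ hi then
          cmp (annM μ) (EndAt l m t) k X * law ω t (Turn l k X) else 0 := ENNReal.tsum_comm
    _ ≤ ∑' t, (⨆ K, g t K) * worst ω l lo hi X := by
        refine ENNReal.tsum_le_tsum fun t => ?_
        by_cases ht : dot l t ≤ hi
        swap
        · simp [ht]
        calc (∑' k, if OK μ l m lo hi lam k X ∧ dot l t ≤ hi then
              cmp (annM μ) (EndAt l m t) k X * law ω t (Turn l k X) else 0)
            ≤ ∑' k, (⨆ K, g t K) *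
                law ω t (if InBand l lo hi k X then Turn l k X else ∅) := by
              refine ENNReal.tsum_le_tsum fun k => ?_
              split_ifs with h1 h2
              · refine mul_le_mul_left ?_ _
                exact le_iSup_of_le k (le_iSup_of_le k (le_iSup_of_le le_rfl
                  (by rw [if_pos h1.1])))
              · exact absurd h1.1.1 h2
              all_goals exact bot_le
          _ = (⨆ K, g t K) *
              law ω t (⋃ k, if InBand l lo hi k X then Turn l k X else ∅) := by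
              rw [ENNReal.tsum_mul_left, measure_iUnion]
              · intro k k' hne
                simp only [Function.onFun]
                split_ifs <;> simp [hd hne]
              · intro k
                split_ifs
                · exact measurableSet_Turn k X
                · exact MeasurableSet.empty
          _ ≤ (⨆ K, g t K) * worst ω l lo hi X := by
              refine mul_le_mul_right ((measure_mono ?_).trans (hit_band_le hω lo hi X ht)) _
              refine Set.iUnion_subset fun k => ?_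
              split_ifs with h
              · exact fun Y hY => ⟨hY.2.1, k, h, hY.2.2⟩
              · exact Set.empty_subset _
    _ = (∑' t, ⨆ K, g t K) * worst ω l lo hi X := ENNReal.tsum_mul_right
    _ ≤ lam * worst ω l lo hi X := mul_le_mul_left hG _

omit [IsProbabilityMeasure μ] in
/-- A turn of the shifted second walk. -/
lemma translate_Turn (t : Site d) (k : ℕ) (X : ℕ → Site d) :
    (fun (Y : ℕ → Site d) i => Y i + t) ⁻¹' Turn l k X =
      Good (-l) ∩ ({Y | ∀ n, Y n + t ∉ seen k X} ∩ {Y | ∃ j, Y j + t = X k}) := by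
  rw [Turn, Set.preimage_inter, Set.preimage_inter, translate_preimage_Good, Set.inter_left_comm]
  rfl

open Classical in
/-- Meetings with the total still at most `lam`. -/
theorem small_le (hμ : ∀ᵐ p ∂μ, (∀ e, 0 < p e) ∧ ∑ e, p e = 1) (m : ℕ) (lo hi : ℝ) {lam : ℝ≥0∞}
    (hlt : lam ≠ ⊤) :
    ∑' k : ℕ, ∑' a : Fin (k + 1) → Site d, ∑' t : Site d,
      (if OK μ l m lo hi lam k (ext a) ∧ dot l t ≤ hi then
        annM μ (pre k (ext a) ∩ EndAt l m t) * ∫⁻ ω, law ω t (Turn l k (ext a)) ∂envLaw μ else 0)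
      ≤ lam * ∫⁻ ω, ∫⁻ X, worst ω l lo hi X ∂law ω 0 ∂envLaw μ := by
  have hterm : ∀ k (a : Fin (k + 1) → Site d), (∑' t : Site d,
      (if OK μ l m lo hi lam k (ext a) ∧ dot l t ≤ hi then
        annM μ (pre k (ext a) ∩ EndAt l m t) * ∫⁻ ω, law ω t (Turn l k (ext a)) ∂envLaw μ else 0)) =
      ∫⁻ ω, turnW μ ω l m lo hi lam k (ext a) * law ω 0 (pre k (ext a)) ∂envLaw μ := by
    intro k a
    simp only [turnW, ← ENNReal.tsum_mul_right]
    rw [lintegral_tsum]
    swap
    · intro t
      refine Measurable.aemeasurable (Measurable.mul ?_ (measurable_law_apply _ (measurableSet_pre _ _)))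
      split_ifs
      · exact (measurable_law_apply _ (measurableSet_Turn _ _)).const_mul _
      · exact measurable_const
    refine tsum_congr fun t => ?_
    split_ifs
    swap
    · simp
    rw [← cmp_mul, ← ann_eq μ (measurableSet_pre _ _), ann, mul_assoc,
      ← lintegral_mul_of_local μ (seen k (ext a)) (measurable_law_apply 0 (measurableSet_pre _ _))
        (measurable_law_apply t (measurableSet_Turn _ _)) (fun ω ω' h => law_pre_congr 0 fun i hi =>
          h _ (Finset.mem_image_of_mem _ (Finset.mem_range.2 hi))) fun ω ω' h =>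
        law_avoid_congr t (measurableSet_Good.inter (measurableSet_visit _))
          fun z hz => h z (by simpa using hz),
      ← lintegral_const_mul _ ((measurable_law_apply 0 (measurableSet_pre k (ext a))).fun_mul
        (measurable_law_apply t (measurableSet_Turn k (ext a))))]
    exact lintegral_congr fun ω => by ring
  simp only [hterm]
  have hm : ∀ k (a : Fin (k + 1) → Site d), Measurable fun ω : Env d =>
      turnW μ ω l m lo hi lam k (ext a) := fun k a => by
    refine Measurable.ennreal_tsum fun t => ?_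
    split_ifs
    · exact (measurable_law_apply _ (measurableSet_Turn _ _)).const_mul _
    · exact measurable_const
  have hlam : ∫⁻ ω, (∑' k, ∫⁻ X, turnW μ ω l m lo hi lam k X ∂law ω 0) ∂envLaw μ ≤
      lam * ∫⁻ ω, ∫⁻ X, worst ω l lo hi X ∂law ω 0 ∂envLaw μ := by
    refine (lintegral_mono_ae (g := fun ω => lam * ∫⁻ X, worst ω l lo hi X ∂law ω 0)
      ((ae_elliptic μ hμ).mono fun ω hω => ?_)).trans
      (le_of_eq (lintegral_const_mul' _ _ hlt))
    rw [← lintegral_tsum fun k => (measurable_of_prefix (prefix_turnW μ ω m lo hi lam k)).aemeasurable,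
      ← lintegral_const_mul _ (measurable_worst ω lo hi)]
    exact lintegral_mono fun X => tsum_turnW_le μ hω m lo hi lam X
  refine le_of_eq_of_le ?_ hlam
  have hp : ∀ ω k, ∫⁻ X, turnW μ ω l m lo hi lam k X ∂law ω 0 =
      ∑' a : Fin (k + 1) → Site d, turnW μ ω l m lo hi lam k (ext a) * law ω 0 (pre k (ext a)) :=
    fun ω k => lintegral_prefix _ (prefix_turnW μ ω m lo hi lam k)
  simp only [hp]
  have hm' : ∀ k (a : Fin (k + 1) → Site d), Measurable fun ω : Env d =>
      turnW μ ω l m lo hi lam k (ext a) * law ω 0 (pre k (ext a)) := fun k a =>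
    (hm k a).fun_mul (measurable_law_apply _ (measurableSet_pre _ _))
  rw [lintegral_tsum fun k => (Measurable.ennreal_tsum fun a => hm' k a).aemeasurable]
  exact tsum_congr fun k => (lintegral_tsum fun a => (hm' k a).aemeasurable).symm

open Classical in
/-- **Meetings above the middle are rare.** -/
theorem high_le (hμ : ∀ᵐ p ∂μ, (∀ e, 0 < p e) ∧ ∑ e, p e = 1) (hq : ann μ (Good l) ≠ 0) (m : ℕ)
    (lo hi : ℝ) {lam : ℝ≥0∞} (h0 : lam ≠ 0) (htop : lam ≠ ⊤) (J : Site d → ℕ) (J₀ : ℕ) :
    (((annM μ).restrict (Good l)).prod ((annM μ).restrict (Good (-l)))) (HighMeet l m lo hi) ≤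
      lam⁻¹ * ∑' t, (2 * J t * ((annM μ).restrict (Good l)) {X | X (blockT l m X) = t} +
        (2⁻¹ : ℝ≥0∞) ^ J t) +
      lam * (2 * J₀ * ann μ (Up l lo \ UpS l hi) + (2⁻¹ : ℝ≥0∞) ^ J₀) := by
  set ν := (annM μ).restrict (Good l) with hν
  set ν' := (annM μ).restrict (Good (-l)) with hν'
  set Big : Set (ℕ → Site d) := {X | lam ≤ totAll μ l m X}
  set V : (k : ℕ) → (Fin (k + 1) → Site d) → Site d → Set (ℕ → Site d) := fun k a t =>
    {Y | ∀ n, Y n + t ∉ seen k (ext a)} ∩ {Y | ∃ j, Y j + t = ext a k}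
  set P : (Σ k : ℕ, (Fin (k + 1) → Site d) × Site d) → Set ((ℕ → Site d) × (ℕ → Site d)) := fun p =>
    if OK μ l m lo hi lam p.1 (ext p.2.1) ∧ dot l p.2.2 ≤ hi then
      (pre p.1 (ext p.2.1) ∩ EndAt l m p.2.2) ×ˢ V p.1 p.2.1 p.2.2 else ∅
  have hgood : ∀ᵐ X ∂ν, X ∈ Good l ∧ X 0 = 0 ∧ Rec l (blockT l m X) X := by
    filter_upwards [ae_iterate_good μ hμ hq, ae_restrict_mem measurableSet_Good] with X h1 h2
    exact ⟨h2, h1.1, (reg_blockT h1.1 h1.2 m).1.1⟩
  have hcover : HighMeet l m lo hi ≤ᵐ[ν.prod ν'] (Prod.fst ⁻¹' Big ∪ ⋃ p, P p : Set _) := by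
    filter_upwards [(Measure.quasiMeasurePreserving_fst (μ := ν) (ν := ν')).ae hgood]
      with q ⟨hg, hz, hrec⟩ hq'
    obtain ⟨i, hi', hlo, hhi, ⟨j, hj⟩, hfirst⟩ := hq'
    by_cases hb : lam ≤ totAll μ l m q.1
    · exact Or.inl hb
    refine Or.inr (Set.mem_iUnion.2 ⟨⟨i, res i q.1, q.1 (blockT l m q.1)⟩, ?_⟩)
    have hpre : ∀ n ≤ i, q.1 n = ext (res i q.1) n := fun n hn => (ext_res_apply hn q.1).symm
    have hband : InBand l lo hi i q.1 := ⟨fun n hn => ⟨by
      have := hg.1 n
      rwa [hz, show dot l (0 : Site d) = 0 by simp [dot]] at this,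
      (hrec n (by omega)).le.trans hhi⟩, hlo⟩
    have hok : OK μ l m lo hi lam i (ext (res i q.1)) := by
      refine ⟨(InBand_congr lo hi hpre).1 hband, ?_⟩
      rw [← prefix_tot μ m i q.1 _ hpre]
      exact le_trans (ENNReal.tsum_le_tsum fun t => iSup_le fun n => iSup_le fun _ =>
        le_iSup (fun n => cmp (annM μ) (EndAt l m t) n q.1) n) (not_le.1 hb).le
    show q ∈ P _
    simp only [P]
    rw [if_pos ⟨hok, hhi⟩]
    refine ⟨⟨hpre, hg, rfl⟩, fun n hn => ?_, j, ?_⟩
    · obtain ⟨i', hi'', he⟩ := Finset.mem_image.1 hn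
      rw [← hpre i' (Finset.mem_range.1 hi'').le, add_comm] at he
      exact hfirst i' (Finset.mem_range.1 hi'') n he
    · rw [← hpre i le_rfl, hj, add_comm]
  have hbig : (ν.prod ν') (Prod.fst ⁻¹' Big) ≤
      lam⁻¹ * ∑' t, (2 * J t * ν {X | X (blockT l m X) = t} + (2⁻¹ : ℝ≥0∞) ^ J t) := by
    rw [← Set.prod_univ, Measure.prod_prod]
    refine (mul_le_mul' (Measure.restrict_apply_le _ _)
      ((Measure.restrict_apply_le _ _).trans prob_le_one)).trans ?_
    rw [mul_one]
    refine le_trans ?_ (mul_le_mul_right (lintegral_totAll μ m J) lam⁻¹)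
    rw [mul_comm lam⁻¹, ← div_eq_mul_inv, ENNReal.le_div_iff_mul_le (Or.inl h0) (Or.inl htop),
      mul_comm]
    exact mul_meas_ge_le_lintegral (measurable_totAll μ m) lam
  have hsmall : (ν.prod ν') (⋃ p, P p) ≤
      lam * (2 * J₀ * ann μ (Up l lo \ UpS l hi) + (2⁻¹ : ℝ≥0∞) ^ J₀) := by
    refine le_trans (le_trans ?_ (small_le μ hμ m lo hi htop))
      (mul_le_mul_right (lintegral_worst μ hμ lo hi J₀) lam)
    refine (measure_iUnion_le _).trans (le_of_eq_of_le (ENNReal.tsum_sigma' _) ?_)
    refine ENNReal.tsum_le_tsum fun k => le_of_eq_of_le ENNReal.tsum_prod'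
      (ENNReal.tsum_le_tsum fun a => ENNReal.tsum_le_tsum fun t => ?_)
    simp only [P]
    split_ifs
    swap
    · simp
    rw [Measure.prod_prod]
    refine mul_le_mul' (Measure.restrict_apply_le _ _) (le_of_eq ?_)
    have hm : MeasurableSet (V k a t) := by
      refine MeasurableSet.inter ?_ ?_
      · rw [show {Y : ℕ → Site d | ∀ n, Y n + t ∉ seen k (ext a)} =
          ⋂ n, {Y | Y n ∈ {y | y + t ∉ seen k (ext a)}} by ext; simp]
        exact MeasurableSet.iInter fun n => measurableSet_inR _ n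
      · rw [show {Y : ℕ → Site d | ∃ j, Y j + t = ext a k} =
          ⋃ j, {Y | Y j ∈ {y | y + t = ext a k}} by ext; simp]
        exact MeasurableSet.iUnion fun j => measurableSet_inR _ j
    rw [lintegral_law_eq_ann μ t (measurableSet_Turn _ _), translate_Turn,
      ann_eq μ (measurableSet_Good.inter hm), hν', Measure.restrict_apply hm, Set.inter_comm]
  exact (measure_mono_ae hcover).trans ((measure_union_le _ _).trans (add_le_add hbig hsmall))

end Vale.Agent.P147.Flip
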