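import Vale.Agent.P147.Flip.Defs

/-!
# The sequence of blocks of a walk that escapes without return is stationary
-/

namespace Vale.Agent.P147.Flip

open MeasureTheory Filter Topology Set Vale.Agent.P147.Balanced Vale.Agent.P147.Linear
open scoped ENNReal

variable {d : ℕ} {l : Fin d → ℝ}

lemma firstT_eq {n : ℕ} {X : ℕ → Site d} (h : FirstReg l n X) : firstT l X = n := by
  have hs : {m | FirstReg l m X} = {n} := by
    ext m
    refine ⟨fun hm => ?_, fun hm => by rw [show m = n from hm]; exact h⟩
    by_contra hne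
    exact Set.disjoint_left.1 (disjoint_FirstReg (l := l) (Ne.symm hne)) h hm
  rw [firstT, hs, csInf_singleton]

lemma firstReg_firstT {X : ℕ → Site d} (h : ∃ n, FirstReg l n X) :
    FirstReg l (firstT l X) X := by
  obtain ⟨n, hn⟩ := h
  rw [firstT_eq hn]
  exact hn

lemma measurable_firstT : Measurable (firstT (d := d) l) := by
  refine measurable_to_countable' fun n => ?_
  have hU : MeasurableSet (⋃ m, {X : ℕ → Site d | FirstReg l m X}) :=
    MeasurableSet.iUnion measurableSet_FirstReg
  have : firstT l ⁻¹' {n} = {X : ℕ → Site d | FirstReg l n X} ∪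
      (if n = 0 then (⋃ m, {X : ℕ → Site d | FirstReg l m X})ᶜ else ∅) := by
    ext X
    by_cases h : ∃ m, FirstReg l m X
    · have h' := firstReg_firstT h
      constructor
      · rintro rfl; exact Or.inl h'
      · rintro (hn | hn)
        · exact firstT_eq hn
        · split_ifs at hn
          · exact absurd (Set.mem_iUnion.2 h) hn
          · exact absurd hn (Set.notMem_empty _)
    · have h0 : firstT l X = 0 := Nat.sInf_eq_zero.2 (Or.inr (Set.eq_empty_of_forall_notMem
        fun m hm => h ⟨m, hm⟩))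
      constructor
      · rintro rfl
        exact Or.inr (by rw [if_pos h0]; exact fun hc => h (Set.mem_iUnion.1 hc))
      · rintro (hn | hn)
        · exact absurd ⟨n, hn⟩ h
        · split_ifs at hn with hn0
          · exact h0.trans hn0.symm
          · exact absurd hn (Set.notMem_empty _)
  rw [this]
  refine (measurableSet_FirstReg n).union ?_
  split_ifs
  · exact hU.compl
  · exact MeasurableSet.empty

lemma measurable_apply_time {f : (ℕ → Site d) → ℕ} (hf : Measurable f) :
    Measurable fun X : ℕ → Site d => X (f X) := by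
  refine measurable_to_countable' fun z => ?_
  have : (fun X : ℕ → Site d => X (f X)) ⁻¹' {z} =
      ⋃ n, f ⁻¹' {n} ∩ (fun X => X n) ⁻¹' {z} := by
    ext X; simp
  rw [this]
  exact MeasurableSet.iUnion fun n => (hf (measurableSet_singleton n)).inter
    (measurable_pi_apply n (measurableSet_singleton z))

lemma measurable_nextB : Measurable (nextB (d := d) l) :=
  measurable_pi_lambda _ fun i => Measurable.sub
    (measurable_apply_time (f := fun X : ℕ → Site d => firstT l X + i)
      (measurable_firstT.add_const i))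
    (measurable_apply_time measurable_firstT)

lemma blockT_zero (X : ℕ → Site d) : blockT l 0 X = 0 := by simp [blockT]

lemma blockT_succ (n : ℕ) (X : ℕ → Site d) :
    blockT l (n + 1) X = firstT l X + blockT l n (nextB l X) := by
  simp only [blockT, Finset.sum_range_succ', Function.iterate_zero_apply,
    Function.iterate_succ_apply]
  rw [add_comm]

/-- The path seen from the end of the `n`-th block. -/
lemma iterate_nextB_apply (n i : ℕ) :
    ∀ X : ℕ → Site d, X 0 = 0 →
      ((nextB l)^[n] X) i = X (blockT l n X + i) - X (blockT l n X) := by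
  induction n generalizing i with
  | zero => intro X h0; simp [blockT_zero, h0]
  | succ n ih =>
    intro X h0
    rw [Function.iterate_succ_apply, ih i (nextB l X) (by simp [nextB]), blockT_succ]
    simp only [nextB, add_assoc]
    abel

variable [Nonempty (Fin d)] (μ : Measure (Step d → ℝ)) [IsProbabilityMeasure μ]

lemma ae_annM_zero : ∀ᵐ X ∂annM μ, X 0 = (0 : Site d) := by
  have hm : MeasurableSet {X : ℕ → Site d | ¬X 0 = 0} :=
    (show MeasurableSet ((fun X : ℕ → Site d => X 0) ⁻¹' {(0 : Site d)}) from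
      measurable_pi_apply 0 (measurableSet_singleton (0 : Site d))).compl
  refine ae_iff.2 ?_
  rw [← ann_eq μ hm]
  exact (lintegral_eq_zero_iff (measurable_law_apply 0 hm)).2
    (Filter.Eventually.of_forall fun ω => ae_iff.1 (ae_law_zero ω 0))

lemma ae_firstReg (hμ : ∀ᵐ p ∂μ, (∀ e, 0 < p e) ∧ ∑ e, p e = 1) (hq : ann μ (Good l) ≠ 0) :
    ∀ᵐ X ∂(annM μ).restrict (Good l), FirstReg l (firstT l X) X := by
  rw [ae_restrict_iff' measurableSet_Good]
  refine measure_mono_null (fun X hX => ?_) (annM_good_no_reg μ hμ hq)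
  simp only [Set.mem_compl_iff, Set.mem_ofPred_eq, Classical.not_imp] at hX
  exact ⟨hX.1, fun h => hX.2 (firstReg_firstT (Set.mem_iUnion.1 h))⟩

open Classical in
/-- Splitting along the first block, for an event of the path after it. -/
theorem annM_block_next (hμ : ∀ᵐ p ∂μ, (∀ e, 0 < p e) ∧ ∑ e, p e = 1) (n : ℕ)
    (a : Fin (n + 1) → Site d) {B : Set (ℕ → Site d)} (hB : MeasurableSet B) :
    annM μ (Good l ∩ {X | FirstReg l n X} ∩ pre n (ext a) ∩ nextB l ⁻¹' B) =
      if Block l n (ext a) then wt μ n a * annM μ (Good l ∩ B) else 0 := by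
  set T0 : (ℕ → Site d) → (ℕ → Site d) := fun Y i => Y i - Y 0
  have hT0 : Measurable T0 :=
    measurable_pi_lambda _ fun i => (measurable_pi_apply i).sub (measurable_pi_apply 0)
  have hset : Good l ∩ {X | FirstReg l n X} ∩ pre n (ext a) ∩ nextB l ⁻¹' B =
      Good l ∩ {X | FirstReg l n X} ∩ pre n (ext a) ∩ shiftP n ⁻¹' (T0 ⁻¹' B) := by
    ext X
    refine and_congr_right fun h => ?_
    have h' : nextB l X = T0 (shiftP n X) := by
      funext i; simp [nextB, T0, shiftP, firstT_eq h.1.2]
    simp only [Set.mem_preimage, h']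
  have hm : MeasurableSet (Good l ∩ {X | FirstReg l n X} ∩ pre n (ext a) ∩
      shiftP n ⁻¹' (T0 ⁻¹' B)) :=
    ((measurableSet_Good.inter (measurableSet_FirstReg n)).inter (measurableSet_pre _ _)).inter
      (measurable_shiftP n (hT0 hB))
  rw [hset, ← ann_eq μ hm, ann_firstReg μ hμ n a (hT0 hB)]
  split_ifs
  · have hpre : (fun (X : ℕ → Site d) i => X i + ext a n) ⁻¹' (T0 ⁻¹' B) = T0 ⁻¹' B := by
      ext X
      simp only [Set.mem_preimage, T0, add_sub_add_right_eq_sub]
    rw [hpre, ann_eq μ (measurableSet_Good.inter (hT0 hB))]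
    congr 1
    refine measure_congr ?_
    filter_upwards [ae_annM_zero μ] with X hX
    have : T0 X = X := by funext i; simp [T0, hX]
    exact propext ⟨fun h => ⟨h.1, by simpa [this] using h.2⟩, fun h => ⟨h.1, by simpa [this] using h.2⟩⟩
  · rfl

open Classical in
/-- The blocks have total weight one. -/
theorem tsum_block_eq_one (hμ : ∀ᵐ p ∂μ, (∀ e, 0 < p e) ∧ ∑ e, p e = 1)
    (hq : ann μ (Good l) ≠ 0) :
    ∑' n, ∑' a : Fin (n + 1) → Site d, (if Block l n (ext a) then wt μ n a else 0) = 1 := by
  have hqt : ann μ (Good l) ≠ ⊤ := by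
    rw [ann_eq μ measurableSet_Good]; exact measure_ne_top _ _
  refine (ENNReal.mul_eq_right hq hqt).1 ?_
  have h := annM_good_eq_tsum μ hμ hq (l := l) MeasurableSet.univ
  simp only [Set.inter_univ] at h
  conv_rhs => rw [ann_eq μ measurableSet_Good, h]
  simp only [← ENNReal.tsum_mul_right]
  refine tsum_congr fun n => tsum_congr fun a => ?_
  have h2 := annM_block_next μ hμ n a (l := l) MeasurableSet.univ
  simp only [Set.preimage_univ, Set.inter_univ] at h2
  rw [h2, ann_eq μ measurableSet_Good]
  split_ifs <;> simp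

/-- The first block is followed by an independent copy of the walk. -/
theorem annM_nextB (hμ : ∀ᵐ p ∂μ, (∀ e, 0 < p e) ∧ ∑ e, p e = 1) (hq : ann μ (Good l) ≠ 0)
    {B : Set (ℕ → Site d)} (hB : MeasurableSet B) :
    annM μ (Good l ∩ nextB l ⁻¹' B) = annM μ (Good l ∩ B) := by
  classical
  rw [annM_good_eq_tsum μ hμ hq (measurable_nextB hB)]
  conv_rhs => rw [← one_mul (annM μ (Good l ∩ B)), ← tsum_block_eq_one μ hμ hq (l := l)]
  simp only [← ENNReal.tsum_mul_right]
  refine tsum_congr fun n => tsum_congr fun a => ?_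
  rw [annM_block_next μ hμ n a hB]
  split_ifs <;> simp

theorem measurePreserving_nextB (hμ : ∀ᵐ p ∂μ, (∀ e, 0 < p e) ∧ ∑ e, p e = 1)
    (hq : ann μ (Good l) ≠ 0) :
    MeasurePreserving (nextB l) ((annM μ).restrict (Good l)) ((annM μ).restrict (Good l)) := by
  refine ⟨measurable_nextB, Measure.ext fun B hB => ?_⟩
  rw [Measure.map_apply measurable_nextB hB, Measure.restrict_apply (measurable_nextB hB),
    Measure.restrict_apply hB, Set.inter_comm, annM_nextB μ hμ hq hB, Set.inter_comm]

lemma lintegral_iterate (hμ : ∀ᵐ p ∂μ, (∀ e, 0 < p e) ∧ ∑ e, p e = 1)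
    (hq : ann μ (Good l) ≠ 0) (i : ℕ) {F : (ℕ → Site d) → ℝ≥0∞} (hF : Measurable F) :
    ∫⁻ X in Good l, F ((nextB l)^[i] X) ∂annM μ = ∫⁻ X in Good l, F X ∂annM μ :=
  ((measurePreserving_nextB μ hμ hq).iterate i).lintegral_comp hF

lemma ae_iterate_good (hμ : ∀ᵐ p ∂μ, (∀ e, 0 < p e) ∧ ∑ e, p e = 1)
    (hq : ann μ (Good l) ≠ 0) :
    ∀ᵐ X ∂(annM μ).restrict (Good l), X 0 = 0 ∧ ∀ i, (nextB l)^[i] X ∈ Good l ∧
      FirstReg l (firstT l ((nextB l)^[i] X)) ((nextB l)^[i] X) := by
  have h : ∀ i, ∀ᵐ X ∂(annM μ).restrict (Good l), (nextB l)^[i] X ∈ Good l ∧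
      FirstReg l (firstT l ((nextB l)^[i] X)) ((nextB l)^[i] X) := fun i =>
    ((measurePreserving_nextB μ hμ hq).iterate i).quasiMeasurePreserving.ae
      ((ae_restrict_mem measurableSet_Good).and (ae_firstReg μ hμ hq))
  filter_upwards [ae_restrict_of_ae (ae_annM_zero μ), ae_all_iff.2 h] with X h0 h1
  exact ⟨h0, h1⟩

end Vale.Agent.P147.Flip
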