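import Vale.Agent.P147.Balanced.Quenched

/-!
# The largest conditional probability along the prefixes of a path

For an event of probability `b` the largest of its conditional probabilities given the prefixes
has mean at most `b (1 + log (1 / b))`; for a family of events, the sum over the family of the
largest one so far is rarely large, and along it a sum against disjoint events is bounded by it.
-/

namespace Vale.Agent.P147.Flip

open MeasureTheory Set Vale.Agent.P147.Balanced
open scoped ENNReal

variable {d : ℕ}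

lemma ofReal_le_ofReal_div {A s : ℝ} {x : ℝ≥0∞} (hs : 0 < s)
    (h : ENNReal.ofReal s * x ≤ ENNReal.ofReal A) : x ≤ ENNReal.ofReal (A / s) := by
  rw [ENNReal.ofReal_div_of_pos hs,
    ENNReal.le_div_iff_mul_le (Or.inl (ENNReal.ofReal_pos.2 hs).ne') (Or.inl ENNReal.ofReal_ne_top),
    mul_comm]
  exact h

/-- The integral of a function below one with weak norm `A` is at most `A + A log (1 / A)`. -/
theorem lintegral_le_of_tail {α : Type*} [MeasurableSpace α] (ν : Measure α)
    (hν : ν Set.univ ≤ 1) {f : α → ℝ≥0∞} (hf : Measurable f) (hf1 : ∀ x, f x ≤ 1) {A : ℝ}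
    (hA0 : 0 ≤ A) (hA1 : A ≤ 1)
    (htail : ∀ s : ℝ, 0 < s → s ≤ 1 →
      ENNReal.ofReal s * ν {x | ENNReal.ofReal s < f x} ≤ ENNReal.ofReal A) :
    ∫⁻ x, f x ∂ν ≤ ENNReal.ofReal (A + Real.negMulLog A) := by
  have hne : ∀ x, f x ≠ ⊤ := fun x => ne_top_of_le_ne_top ENNReal.one_ne_top (hf1 x)
  have h1 : ∫⁻ x, f x ∂ν = ∫⁻ t in Set.Ioi (0 : ℝ), ν {x | t < (f x).toReal} := by
    rw [← lintegral_eq_lintegral_meas_lt ν (ae_of_all _ fun x => ENNReal.toReal_nonneg)
      hf.ennreal_toReal.aemeasurable]
    exact lintegral_congr fun x => (ENNReal.ofReal_toReal (hne x)).symm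
  set g : ℝ → ℝ≥0∞ := fun t =>
    (Set.Ioc 0 A).indicator (fun _ => (1 : ℝ≥0∞)) t +
      (Set.Ioc A 1).indicator (fun t => ENNReal.ofReal (A / t)) t
  have h2 : ∀ t ∈ Set.Ioi (0 : ℝ), ν {x | t < (f x).toReal} ≤ g t := by
    intro t ht
    rcases lt_or_ge 1 t with h | h
    · rw [show {x | t < (f x).toReal} = (∅ : Set α) from Set.eq_empty_of_forall_notMem fun x hx =>
        (lt_irrefl t) (lt_of_lt_of_le (lt_of_lt_of_le hx (ENNReal.toReal_mono ENNReal.one_ne_top
          (hf1 x))) (by simpa using h.le)), measure_empty]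
      exact zero_le
    · rcases le_or_gt t A with h' | h'
      · refine (measure_mono (Set.subset_univ _)).trans (hν.trans ?_)
        simp only [g]
        rw [Set.indicator_of_mem (show t ∈ Set.Ioc 0 A from ⟨ht, h'⟩)]
        exact le_self_add
      · simp only [g]
        rw [Set.indicator_of_mem (show t ∈ Set.Ioc A 1 from ⟨h', h⟩)]
        refine le_trans (le_trans (measure_mono fun x hx => ?_)
          (ofReal_le_ofReal_div ht (htail t ht h))) le_add_self
        exact (ENNReal.ofReal_lt_iff_lt_toReal (le_of_lt ht) (hne x)).2 hx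
  have h3 : Measurable fun t : ℝ => (Set.Ioc 0 A).indicator (fun _ => (1 : ℝ≥0∞)) t :=
    measurable_const.indicator measurableSet_Ioc
  have h4 : ∫⁻ t in Set.Ioc A 1, ENNReal.ofReal (A / t) = ENNReal.ofReal (Real.negMulLog A) := by
    rcases eq_or_lt_of_le hA0 with h0 | h0
    · subst h0; simp
    · have hc : ContinuousOn (fun t : ℝ => A / t) (Set.Icc A 1) :=
        continuousOn_const.div continuousOn_id fun t ht => (h0.trans_le ht.1).ne'
      rw [← ofReal_integral_eq_lintegral_ofReal (hc.integrableOn_Icc.mono_set Set.Ioc_subset_Icc_self)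
        ((ae_restrict_iff' measurableSet_Ioc).2 (ae_of_all _ fun t ht =>
          div_nonneg hA0 (h0.trans ht.1).le))]
      rw [← intervalIntegral.integral_of_le hA1]
      simp only [div_eq_mul_inv, intervalIntegral.integral_const_mul]
      rw [integral_inv_of_pos h0 one_pos, one_div, Real.log_inv, Real.negMulLog]
      congr 1
      ring
  calc ∫⁻ x, f x ∂ν = ∫⁻ t in Set.Ioi (0 : ℝ), ν {x | t < (f x).toReal} := h1
    _ ≤ ∫⁻ t in Set.Ioi (0 : ℝ), g t := setLIntegral_mono' measurableSet_Ioi h2
    _ ≤ ∫⁻ t, g t := setLIntegral_le_lintegral _ _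
    _ = ENNReal.ofReal A + ENNReal.ofReal (Real.negMulLog A) := by
        rw [lintegral_add_left h3, lintegral_indicator measurableSet_Ioc,
          lintegral_indicator measurableSet_Ioc, setLIntegral_one, Real.volume_Ioc, sub_zero, h4]
    _ = _ := (ENNReal.ofReal_add hA0 (Real.negMulLog_nonneg hA0 hA1)).symm

/-- The probability of `B` given the first `r + 1` sites of `X`. -/
noncomputable def condPre (P : Measure (ℕ → Site d)) (B : Set (ℕ → Site d)) (r : ℕ)
    (X : ℕ → Site d) : ℝ≥0∞ :=
  P (pre r X ∩ B) / P (pre r X)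

/-- The largest of these probabilities. -/
noncomputable def supPre (P : Measure (ℕ → Site d)) (B : Set (ℕ → Site d)) (X : ℕ → Site d) :
    ℝ≥0∞ :=
  ⨆ r, condPre P B r X

/-- The sum over a family of the largest such probability so far. -/
noncomputable def sumMax {ι : Type*} (P : Measure (ℕ → Site d)) (B : ι → Set (ℕ → Site d))
    (r : ℕ) (X : ℕ → Site d) : ℝ≥0∞ :=
  ∑' t, ⨆ i ∈ Finset.range (r + 1), condPre P (B t) i X

lemma pre_congr {r : ℕ} {X Y : ℕ → Site d} (h : ∀ i ≤ r, X i = Y i) : pre r X = pre r Y := by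
  ext Z
  simp only [pre, Set.mem_ofPred_eq]
  exact forall₂_congr fun i hi => by rw [h i hi]

lemma measurable_of_prefix {β : Type*} [MeasurableSpace β] {n : ℕ} {F : (ℕ → Site d) → β}
    (hF : Prefix n F) : Measurable F := by
  have h : F = (fun a => F (ext a)) ∘ res n :=
    funext fun X => hF X _ fun i hi => (ext_res_apply hi X).symm
  rw [h]
  exact (measurable_of_countable _).comp
    (measurable_pi_lambda _ fun i => measurable_pi_apply (i : ℕ))

section Cond

variable (P : Measure (ℕ → Site d)) (B : Set (ℕ → Site d))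

lemma prefix_condPre (r : ℕ) : Prefix r (condPre P B r) := fun X Y h => by
  simp only [condPre, pre_congr h]

lemma measurable_condPre (r : ℕ) : Measurable (condPre P B r) :=
  measurable_of_prefix (prefix_condPre P B r)

lemma measurable_supPre : Measurable (supPre P B) := Measurable.iSup fun r => measurable_condPre P B r

lemma condPre_le_one (r : ℕ) (X : ℕ → Site d) : condPre P B r X ≤ 1 :=
  ENNReal.div_le_of_le_mul (by rw [one_mul]; exact measure_mono Set.inter_subset_left)

lemma supPre_le_one (X : ℕ → Site d) : supPre P B X ≤ 1 := iSup_le fun r => condPre_le_one P B r X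

lemma condPre_le_supPre (r : ℕ) (X : ℕ → Site d) : condPre P B r X ≤ supPre P B X :=
  le_iSup (fun r => condPre P B r X) r

lemma condPre_mul [IsFiniteMeasure P] (r : ℕ) (X : ℕ → Site d) :
    condPre P B r X * P (pre r X) = P (pre r X ∩ B) := by
  rcases eq_or_ne (P (pre r X)) 0 with h | h
  · simp [h, measure_mono_null Set.inter_subset_left h]
  · exact ENNReal.div_mul_cancel h (measure_ne_top _ _)

/-- The maximal inequality for the conditional probabilities. -/
theorem mul_measure_supPre_gt [IsFiniteMeasure P] (s : ℝ≥0∞) :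
    s * P {X | s < supPre P B X} ≤ P B := by
  classical
  set E : ℕ → Set (ℕ → Site d) := fun r =>
    {X | s < condPre P B r X ∧ ∀ i < r, ¬ s < condPre P B i X}
  have hp : ∀ r, Prefix r fun X => X ∈ E r := fun r X Y h => propext <| by
    simp only [E, Set.mem_ofPred_eq]
    rw [prefix_condPre P B r X Y h]
    exact and_congr_right fun _ => forall₂_congr fun i hi => by
      rw [prefix_condPre P B i X Y fun j hj => h j (hj.trans hi.le)]
  have hm : ∀ r, MeasurableSet (E r) := fun r => by
    have := measurable_of_prefix (hp r)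
    exact measurableSet_setOfPred.2 this
  have hd : Pairwise fun r r' => Disjoint (E r) (E r') := by
    intro r r' hne
    refine Set.disjoint_left.2 fun X hX hX' => ?_
    rcases lt_or_gt_of_ne hne with h | h
    · exact hX'.2 r h hX.1
    · exact hX.2 r' h hX'.1
  have hsub : {X | s < supPre P B X} ⊆ ⋃ r, E r := fun X hX => by
    have hex : ∃ r, s < condPre P B r X := lt_iSup_iff.1 hX
    exact Set.mem_iUnion.2 ⟨Nat.find hex, Nat.find_spec hex, fun i hi => Nat.find_min hex hi⟩
  have key : ∀ r, s * P (E r) ≤ (P.restrict B) (E r) := by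
    intro r
    have hpi : Prefix r ((E r).indicator (1 : (ℕ → Site d) → ℝ≥0∞)) := fun X Y h => by
      have : X ∈ E r ↔ Y ∈ E r := iff_of_eq (hp r X Y h)
      by_cases hX : X ∈ E r
      · simp [hX, this.1 hX]
      · simp [hX, mt this.2 hX]
    rw [← lintegral_indicator_one (hm r), ← lintegral_indicator_one (hm r),
      lintegral_prefix _ hpi, lintegral_prefix _ hpi, ← ENNReal.tsum_mul_left]
    refine ENNReal.tsum_le_tsum fun a => ?_
    by_cases ha : ext a ∈ E r
    · simp only [Set.indicator_of_mem ha, Pi.one_apply, one_mul]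
      rw [Measure.restrict_apply (measurableSet_pre _ _), ← condPre_mul P B r (ext a)]
      exact mul_le_mul_left ha.1.le _
    · simp [Set.indicator_of_notMem ha]
  calc s * P {X | s < supPre P B X} ≤ s * P (⋃ r, E r) := mul_le_mul_right (measure_mono hsub) s
    _ = ∑' r, s * P (E r) := by rw [measure_iUnion hd hm, ENNReal.tsum_mul_left]
    _ ≤ ∑' r, (P.restrict B) (E r) := ENNReal.tsum_le_tsum key
    _ = (P.restrict B) (⋃ r, E r) := (measure_iUnion hd hm).symm
    _ ≤ (P.restrict B) Set.univ := measure_mono (Set.subset_univ _)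
    _ = P B := Measure.restrict_apply_univ B

/-- The mean of the largest conditional probability. -/
theorem lintegral_supPre_le [IsProbabilityMeasure P] :
    ∫⁻ X, supPre P B X ∂P ≤ ENNReal.ofReal ((P B).toReal + Real.negMulLog (P B).toReal) := by
  refine lintegral_le_of_tail P measure_univ.le (measurable_supPre P B) (supPre_le_one P B)
    ENNReal.toReal_nonneg ?_ fun s _ _ => ?_
  · simpa using ENNReal.toReal_mono ENNReal.one_ne_top (prob_le_one (μ := P) (s := B))
  · rw [ENNReal.ofReal_toReal (measure_ne_top P B)]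
    exact mul_measure_supPre_gt P B _

end Cond

section Sum

variable {ι : Type*} (P : Measure (ℕ → Site d)) (B : ι → Set (ℕ → Site d))

lemma prefix_sumMax (r : ℕ) : Prefix r (sumMax P B r) := fun X Y h => by
  simp only [sumMax]
  refine tsum_congr fun t => iSup_congr fun i => iSup_congr fun hi => ?_
  exact prefix_condPre P (B t) i X Y fun j hj => h j
    (hj.trans (Nat.lt_succ_iff.1 (Finset.mem_range.1 hi)))

lemma measurable_sumMax (r : ℕ) : Measurable (sumMax P B r) :=
  measurable_of_prefix (prefix_sumMax P B r)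

lemma sumMax_mono (X : ℕ → Site d) : Monotone fun r => sumMax P B r X := fun r r' h =>
  ENNReal.tsum_le_tsum fun _ => biSup_mono fun i hi =>
    Finset.mem_range.2 (lt_of_lt_of_le (Finset.mem_range.1 hi) (by omega))

lemma sumMax_le_tsum_supPre (r : ℕ) (X : ℕ → Site d) :
    sumMax P B r X ≤ ∑' t, supPre P (B t) X :=
  ENNReal.tsum_le_tsum fun t => iSup₂_le fun i _ => condPre_le_supPre P (B t) i X

/-- The sum of the maxima is rarely large. -/
theorem mul_measure_sumMax_gt [Countable ι] [IsProbabilityMeasure P] (lam : ℝ≥0∞) :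
    lam * P {X | ∃ r, lam < sumMax P B r X} ≤
      ∑' t, ENNReal.ofReal ((P (B t)).toReal + Real.negMulLog (P (B t)).toReal) := by
  calc lam * P {X | ∃ r, lam < sumMax P B r X}
      ≤ lam * P {X | lam ≤ ∑' t, supPre P (B t) X} := mul_le_mul_right (measure_mono fun X hX => by
        obtain ⟨r, hr⟩ := hX
        exact le_trans hr.le (sumMax_le_tsum_supPre P B r X)) lam
    _ ≤ ∫⁻ X, ∑' t, supPre P (B t) X ∂P :=
        mul_meas_ge_le_lintegral (Measurable.tsum fun t => measurable_supPre P (B t)) lam
    _ = ∑' t, ∫⁻ X, supPre P (B t) X ∂P :=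
        lintegral_tsum fun t => (measurable_supPre P (B t)).aemeasurable
    _ ≤ _ := ENNReal.tsum_le_tsum fun t => lintegral_supPre_le P (B t)

open Classical in
/-- While the sum of the maxima stays below `lam`, a sum against events of total probability at
most `θ` for each member of the family is at most `lam * θ`. -/
theorem tsum_condPre_mul_le (X : ℕ → Site d) (lam θ : ℝ≥0∞) (Q : ι → ℕ → ℝ≥0∞)
    (hQ : ∀ t, ∑' r, Q t r ≤ θ) :
    ∑' t, ∑' r, (if sumMax P B r X ≤ lam then condPre P (B t) r X * Q t r else 0) ≤ lam * θ := by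
  set h : ι → ℕ → ℝ≥0∞ := fun t r => ⨆ i ∈ Finset.range (r + 1),
    if sumMax P B i X ≤ lam then condPre P (B t) i X else 0
  have hmono : ∀ t, Monotone (h t) := fun t r r' hr =>
    biSup_mono fun i hi => Finset.mem_range.2 (lt_of_lt_of_le (Finset.mem_range.1 hi) (by omega))
  have hle : ∀ r, ∑' t, h t r ≤ lam := by
    intro r
    by_cases hn : ((Finset.range (r + 1)).filter fun i => sumMax P B i X ≤ lam).Nonempty
    · obtain ⟨-, hj⟩ := Finset.mem_filter.1 (Finset.max'_mem _ hn)
      refine le_trans (ENNReal.tsum_le_tsum fun t => iSup₂_le fun i hi => ?_) hj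
      split_ifs with hi'
      · exact le_iSup₂ (f := fun i (_ : i ∈ Finset.range _) => condPre P (B t) i X) i
          (Finset.mem_range.2 (Nat.lt_succ_of_le
            (Finset.le_max' _ i (Finset.mem_filter.2 ⟨hi, hi'⟩))))
      · exact zero_le
    · refine le_trans (ENNReal.tsum_le_tsum (g := fun _ => 0) fun t => iSup₂_le fun i hi => ?_)
        (by simp)
      rw [if_neg fun hi' => hn ⟨i, Finset.mem_filter.2 ⟨hi, hi'⟩⟩]
  calc ∑' t, ∑' r, (if sumMax P B r X ≤ lam then condPre P (B t) r X * Q t r else 0)
      ≤ ∑' t, ∑' r, (⨆ j, h t j) * Q t r := by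
        refine ENNReal.tsum_le_tsum fun t => ENNReal.tsum_le_tsum fun r => ?_
        split_ifs with hr
        · refine mul_le_mul_left (le_trans ?_ (le_iSup (h t) r)) _
          refine le_trans ?_ (le_iSup₂ (f := fun i (_ : i ∈ Finset.range (r + 1)) =>
            if sumMax P B i X ≤ lam then condPre P (B t) i X else 0) r (by simp))
          simp [hr]
        · exact zero_le
    _ ≤ ∑' t, (⨆ j, h t j) * θ := ENNReal.tsum_le_tsum fun t => by
        rw [ENNReal.tsum_mul_left]; exact mul_le_mul_right (hQ t) _
    _ = (∑' t, ⨆ j, h t j) * θ := ENNReal.tsum_mul_right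
    _ ≤ lam * θ := mul_le_mul_left (by
        rw [ENNReal.tsum_eq_iSup_sum]
        refine iSup_le fun S => ?_
        rw [ENNReal.finsetSum_iSup_of_monotone fun t => hmono t]
        exact iSup_le fun j => (ENNReal.sum_le_tsum S).trans (hle j)) _

end Sum

end Vale.Agent.P147.Flip
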