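import Vale.Agent.P147.Flip.Height

/-!
# Trials at the records of a tilted functional

If from a fresh start the walk climbs `T` inside a band of a tilted functional with probability at
least `p`, then wandering in a slab of height `T` is geometric in units of the band.
-/

namespace Vale.Agent.P147.Flip

open MeasureTheory Filter Topology Set Vale.Agent.P147.Balanced Vale.Agent.P147.Linear
open scoped ENNReal

variable {d : ℕ}

/-- Height `T` above the start is reached inside the band `[0, G]` of `l'` above the start. -/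
def Climb (l l' : Fin d → ℝ) (T G : ℝ) : Set (ℕ → Site d) :=
  {Y | ∃ n, dot l (Y 0) + T ≤ dot l (Y n) ∧
    ∀ i ≤ n, dot l' (Y i) ∈ Set.Icc (dot l' (Y 0)) (dot l' (Y 0) + G)}

/-- The first such time is `n`. -/
def ClimbAt (l l' : Fin d → ℝ) (T G : ℝ) (n : ℕ) : Set (ℕ → Site d) :=
  {Y | (dot l (Y 0) + T ≤ dot l (Y n) ∧ ∀ i < n, dot l (Y i) < dot l (Y 0) + T) ∧
    ∀ i ≤ n, dot l' (Y i) ∈ Set.Icc (dot l' (Y 0)) (dot l' (Y 0) + G)}

/-- Level `r` of `l'` is reached inside the slab `[0, T)` of `l`. -/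
def Wander (l l' : Fin d → ℝ) (T r : ℝ) : Set (ℕ → Site d) :=
  {X | ∃ n, r ≤ dot l' (X n) ∧ ∀ i ≤ n, dot l (X i) ∈ Set.Ico 0 T}

/-- The first such time is `n`. -/
def WanderAt (l l' : Fin d → ℝ) (T r : ℝ) (n : ℕ) : Set (ℕ → Site d) :=
  {X | (r ≤ dot l' (X n) ∧ ∀ i < n, dot l' (X i) < r) ∧
    ∀ i ≤ n, dot l (X i) ∈ Set.Ico 0 T}

variable {l l' : Fin d → ℝ} {T G r : ℝ}

lemma Climb_eq : Climb l l' T G = ⋃ n, ClimbAt l l' T G n := by
  classical
  ext Y
  constructor
  · rintro ⟨n, hn, hb⟩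
    have hex : ∃ m, dot l (Y 0) + T ≤ dot l (Y m) := ⟨n, hn⟩
    exact Set.mem_iUnion.2 ⟨Nat.find hex, ⟨Nat.find_spec hex, fun i hi =>
      not_le.1 (Nat.find_min hex hi)⟩, fun i hi => hb i (hi.trans (Nat.find_min' hex hn))⟩
  · intro h
    obtain ⟨n, ⟨h1, -⟩, h2⟩ := Set.mem_iUnion.1 h
    exact ⟨n, h1, h2⟩

lemma disjoint_ClimbAt : Pairwise fun m n => Disjoint (ClimbAt l l' T G m) (ClimbAt l l' T G n) := by
  intro m n hne
  refine Set.disjoint_left.2 fun Y h h' => ?_
  rcases lt_or_gt_of_ne hne with hlt | hlt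
  · exact (h'.1.2 m hlt).not_ge h.1.1
  · exact (h.1.2 n hlt).not_ge h'.1.1

lemma Wander_eq : Wander l l' T r = ⋃ n, WanderAt l l' T r n := by
  classical
  ext X
  constructor
  · rintro ⟨n, hn, hb⟩
    have hex : ∃ m, r ≤ dot l' (X m) := ⟨n, hn⟩
    exact Set.mem_iUnion.2 ⟨Nat.find hex, ⟨Nat.find_spec hex, fun i hi =>
      not_le.1 (Nat.find_min hex hi)⟩, fun i hi => hb i (hi.trans (Nat.find_min' hex hn))⟩
  · intro h
    obtain ⟨n, ⟨h1, -⟩, h2⟩ := Set.mem_iUnion.1 h
    exact ⟨n, h1, h2⟩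

lemma disjoint_WanderAt :
    Pairwise fun m n => Disjoint (WanderAt l l' T r m) (WanderAt l l' T r n) := by
  intro m n hne
  refine Set.disjoint_left.2 fun X h h' => ?_
  rcases lt_or_gt_of_ne hne with hlt | hlt
  · exact (h'.1.2 m hlt).not_ge h.1.1
  · exact (h.1.2 n hlt).not_ge h'.1.1

lemma prefix_ClimbAt (n : ℕ) : Prefix n fun Y => Y ∈ ClimbAt l l' T G n := fun X Y h => propext <| by
  simp only [ClimbAt, Set.mem_ofPred_eq]
  rw [h 0 (Nat.zero_le n), h n le_rfl]
  exact and_congr (and_congr_right fun _ => forall₂_congr fun i hi => by rw [h i hi.le])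
    (forall₂_congr fun i hi => by rw [h i hi])

lemma prefix_WanderAt (n : ℕ) : Prefix n fun X => X ∈ WanderAt l l' T r n :=
  fun X Y h => propext <| by
  simp only [WanderAt, Set.mem_ofPred_eq]
  rw [h n le_rfl]
  exact and_congr (and_congr_right fun _ => forall₂_congr fun i hi => by rw [h i hi.le])
    (forall₂_congr fun i hi => by rw [h i hi])

lemma measurableSet_of_prefix {n : ℕ} {E : Set (ℕ → Site d)} (hE : Prefix n fun X => X ∈ E) :
    MeasurableSet E := by
  rw [show E = res n ⁻¹' (res n '' E) by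
    ext X
    refine ⟨fun h => ⟨X, h, rfl⟩, fun ⟨Y, hY, he⟩ => ?_⟩
    exact (iff_of_eq (hE Y X fun i hi => congrFun he ⟨i, Nat.lt_succ_of_le hi⟩)).1 hY]
  exact (measurable_pi_lambda _ fun i : Fin (n + 1) => measurable_pi_apply (i : ℕ) :
    Measurable (res n : (ℕ → Site d) → Fin (n + 1) → Site d)) MeasurableSet.of_discrete

variable [Nonempty (Fin d)] (μ : Measure (Step d → ℝ)) [IsProbabilityMeasure μ]

/-- An event of finitely many steps avoiding the rows of the past is independent of it. -/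
theorem fresh_prefix (hμ : ∀ᵐ p ∂μ, (∀ e, 0 < p e) ∧ ∑ e, p e = 1) {m N : ℕ}
    {E B : Set (ℕ → Site d)} (hEp : Prefix m fun X => X ∈ E) (hBp : Prefix N fun X => X ∈ B)
    (hBt : ∀ y : Site d, (fun (X : ℕ → Site d) i => X i + y) ⁻¹' B = B)
    (hav : ∀ X ∈ E, ∀ Y ∈ B, Y 0 = X m → ∀ i ≤ N, Y i ∉ seen m X) :
    annM μ (E ∩ shiftP m ⁻¹' B) = annM μ E * annM μ B := by
  classical
  have hE := measurableSet_of_prefix hEp
  have hB := measurableSet_of_prefix hBp
  rw [← ann_eq μ (hE.inter (measurable_shiftP m hB)), ← ann_eq μ hE, ← ann_eq μ hB,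
    ann_eq_tsum_pre μ (hE.inter (measurable_shiftP m hB)) m, ann_eq_tsum_pre μ hE m,
    ← ENNReal.tsum_mul_right]
  refine tsum_congr fun a => ?_
  by_cases ha : ext a ∈ E
  · have h1 : pre m (ext a) ∩ E = pre m (ext a) :=
      Set.inter_eq_left.2 fun X hX => (iff_of_eq (hEp X (ext a) hX)).2 ha
    rw [← Set.inter_assoc, h1]
    set B' : Set (ℕ → Site d) := {Y | Y 0 = ext a m} ∩ B
    have hB' : MeasurableSet B' :=
      (show MeasurableSet ((fun Y : ℕ → Site d => Y 0) ⁻¹' {ext a m}) from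
        measurable_pi_apply 0 (measurableSet_singleton _)).inter hB
    have hset : pre m (ext a) ∩ shiftP m ⁻¹' B = pre m (ext a) ∩ shiftP m ⁻¹' B' := by
      ext X
      exact ⟨fun h => ⟨h.1, by simpa [shiftP] using h.1 m le_rfl, h.2⟩, fun h => ⟨h.1, h.2.2⟩⟩
    rw [hset, ann, lintegral_congr_ae (g := fun ω => law ω 0 (pre m (ext a)) * law ω (ext a m) B')
      ((ae_elliptic μ hμ).mono fun ω hω => by
        rw [Set.inter_comm]; exact law_markov hω hB' m (ext a) 0),
      lintegral_mul_of_local μ (seen m (ext a)) (measurable_law_apply 0 (measurableSet_pre _ _))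
        (measurable_law_apply _ hB')]
    · congr 1
      rw [← hBt (ext a m), ← lintegral_law_eq_ann μ (ext a m) hB]
      refine lintegral_congr fun ω => measure_congr ?_
      filter_upwards [ae_law_zero ω (ext a m)] with Y hY
      exact propext ⟨fun h => h.2, fun h => ⟨hY, h⟩⟩
    · exact fun ω ω' h => law_pre_congr 0 fun i hi =>
        h _ (Finset.mem_image_of_mem _ (Finset.mem_range.2 hi))
    · intro ω ω' h
      refine law_congr_prefix (n := N) _ hB' (fun X Y hXY => propext ?_)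
        (S := {z | z ∉ seen m (ext a)}) (fun Y hY i hi => hav _ ha Y hY.2 hY.1 i hi.le)
        fun z hz => h z hz
      exact and_congr (by show X 0 = ext a m ↔ Y 0 = ext a m; rw [hXY 0 (Nat.zero_le N)])
        (iff_of_eq (hBp X Y hXY))
  · have h1 : pre m (ext a) ∩ E = ∅ := Set.eq_empty_of_forall_notMem fun X hX =>
      ha ((iff_of_eq (hEp X (ext a) hX.1)).1 hX.2)
    rw [← Set.inter_assoc, h1]
    simp [ann]

/-- A climb after a record of `l'` is independent of the past. -/
theorem wander_climb (hμ : ∀ᵐ p ∂μ, (∀ e, 0 < p e) ∧ ∑ e, p e = 1) (m : ℕ) :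
    annM μ (WanderAt l l' T r m ∩ shiftP m ⁻¹' Climb l l' T G) =
      annM μ (WanderAt l l' T r m) * annM μ (Climb l l' T G) := by
  have hm : ∀ n, MeasurableSet (ClimbAt l l' T G n) :=
    fun n => measurableSet_of_prefix (prefix_ClimbAt n)
  have hW := measurableSet_of_prefix (prefix_WanderAt (l := l) (l' := l') (T := T) (r := r) m)
  rw [Climb_eq, Set.preimage_iUnion, Set.inter_iUnion, measure_iUnion
      (fun a b h => ((disjoint_ClimbAt h).preimage _).mono Set.inter_subset_right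
        Set.inter_subset_right) fun n => hW.inter (measurable_shiftP m (hm n)),
    measure_iUnion disjoint_ClimbAt hm, ← ENNReal.tsum_mul_left]
  refine tsum_congr fun n => fresh_prefix μ hμ (prefix_WanderAt m) (prefix_ClimbAt n) (fun y => ?_)
    fun X hX Y hY h0 i hi hc => ?_
  · ext Y
    simp only [ClimbAt, Set.mem_preimage, Set.mem_ofPred_eq, dot_add, Set.mem_Icc]
    constructor <;> rintro ⟨⟨h1, h2⟩, h3⟩ <;>
      exact ⟨⟨by linarith, fun i hi => by linarith [h2 i hi]⟩,
        fun i hi => ⟨by linarith [(h3 i hi).1], by linarith [(h3 i hi).2]⟩⟩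
  · obtain ⟨j, hj, he⟩ := Finset.mem_image.1 hc
    have h1 := hX.1.2 j (Finset.mem_range.1 hj)
    have h2 := (hY.2 i hi).1
    rw [h0, ← he] at h2
    linarith [hX.1.1]

/-- One more band costs a factor. -/
theorem wander_succ (hμ : ∀ᵐ p ∂μ, (∀ e, 0 < p e) ∧ ∑ e, p e = 1) {L' : ℝ} (hL' : 0 ≤ L')
    (hG : 0 ≤ G) (hstep : ∀ e : Step d, dot l' (vec e) ≤ L') (hr : 0 ≤ r) :
    annM μ (Wander l l' T (r + (G + L' + 1))) ≤
      annM μ (Wander l l' T r) * (1 - annM μ (Climb l l' T G)) := by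
  have hW : ∀ m, MeasurableSet (WanderAt l l' T r m) :=
    fun m => measurableSet_of_prefix (prefix_WanderAt m)
  have hC : MeasurableSet (Climb l l' T G) := by
    rw [Climb_eq]
    exact MeasurableSet.iUnion fun n => measurableSet_of_prefix (prefix_ClimbAt n)
  refine (measure_mono_ae (t := ⋃ m, WanderAt l l' T r m \ shiftP m ⁻¹' Climb l l' T G) ?_).trans
    ((measure_iUnion_le _).trans (le_of_eq ?_))
  · filter_upwards [ae_annM_zero μ, ae_annM_step μ (l := l') hμ hstep] with X h0 hs hX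
    obtain ⟨n', hn', hslab⟩ := hX
    have hmem : X ∈ Wander l l' T r := ⟨n', by linarith, hslab⟩
    rw [Wander_eq] at hmem
    obtain ⟨m, hm⟩ := Set.mem_iUnion.1 hmem
    refine Set.mem_iUnion.2 ⟨m, hm, fun hc => ?_⟩
    obtain ⟨n, hn, hb⟩ := hc
    simp only [shiftP, add_zero] at hn hb
    have hmn : m ≤ n' := not_lt.1 fun h => by linarith [hm.1.2 n' h]
    have hlvl : dot l' (X m) ≤ r + L' := by
      cases m with
      | zero => rw [h0, dot_zero]; linarith
      | succ k => linarith [hs k, hm.1.2 k (Nat.lt_succ_self k)]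
    have hlt : n' < m + n := by
      by_contra hge
      have h1 := (hslab (m + n) (not_lt.1 hge)).2
      have h2 := (hm.2 m le_rfl).1
      linarith
    have := (hb (n' - m) (by omega)).2
    rw [Nat.add_sub_cancel' hmn] at this
    linarith
  · rw [Wander_eq, measure_iUnion disjoint_WanderAt hW, ← ENNReal.tsum_mul_right]
    refine tsum_congr fun m => ?_
    rw [← Set.sdiff_inter_self_eq_sdiff, measure_sdiff Set.inter_subset_right
      ((measurable_shiftP m hC).inter (hW m)).nullMeasurableSet (measure_ne_top _ _),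
      Set.inter_comm, wander_climb μ hμ m, ENNReal.mul_sub fun _ _ => measure_ne_top _ _, mul_one]

/-- Wandering in a slab is geometric. -/
theorem wander_le (hμ : ∀ᵐ p ∂μ, (∀ e, 0 < p e) ∧ ∑ e, p e = 1) {L' : ℝ} (hL' : 0 ≤ L')
    (hG : 0 ≤ G) (hstep : ∀ e : Step d, dot l' (vec e) ≤ L') {p : ℝ≥0∞}
    (hp : p ≤ annM μ (Climb l l' T G)) (m : ℕ) :
    annM μ (Wander l l' T (m * (G + L' + 1))) ≤ (1 - p) ^ m := by
  induction m with
  | zero => simpa using prob_le_one
  | succ m ih =>
    rw [show ((m + 1 : ℕ) : ℝ) * (G + L' + 1) = m * (G + L' + 1) + (G + L' + 1) by push_cast; ring,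
      pow_succ]
    exact (wander_succ μ hμ hL' hG hstep (by positivity)).trans
      (mul_le_mul' ih (tsub_le_tsub_left hp 1))

/-- A maximal inequality for a measure preserving map. -/
theorem maximal_ineq {α : Type*} [MeasurableSpace α] {ν : Measure α} [IsFiniteMeasure ν]
    {σ : α → α} (hσ : MeasurePreserving σ ν ν) {f : α → ℝ≥0∞} (hf : Measurable f) (N : ℕ)
    (c : ℝ≥0∞) :
    c * ν {x | ∃ k, 1 ≤ k ∧ k ≤ N ∧ c * k < ∑ i ∈ Finset.range k, f (σ^[i] x)} ≤
      ∫⁻ x, f x ∂ν := by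
  classical
  set B : Set α := {x | ∃ k, 1 ≤ k ∧ k ≤ N ∧ c * k < ∑ i ∈ Finset.range k, f (σ^[i] x)} with hB
  have hBm : MeasurableSet B := by
    rw [show B = ⋃ k, ⋃ (_ : 1 ≤ k ∧ k ≤ N),
        {x | c * k < ∑ i ∈ Finset.range k, f (σ^[i] x)} by ext; simp [B, and_assoc]]
    exact MeasurableSet.iUnion fun k => MeasurableSet.iUnion fun _ =>
      measurableSet_lt measurable_const
        (Finset.measurable_sum _ fun i _ => hf.comp (hσ.measurable.iterate i))
  have hcount : ∀ (k : ℕ) (x : α),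
      ∑ j ∈ Finset.range k, B.indicator (1 : α → ℝ≥0∞) (σ^[j] x) ≤ k := fun k x => by
    refine (Finset.sum_le_sum (g := fun _ => (1 : ℝ≥0∞)) fun j _ => ?_).trans (by simp)
    by_cases h : σ^[j] x ∈ B <;> simp [h]
  have key : ∀ n : ℕ, ∀ x, c * (∑ j ∈ Finset.range n, B.indicator (1 : α → ℝ≥0∞) (σ^[j] x)) ≤
      ∑ i ∈ Finset.range (n + N), f (σ^[i] x) := by
    intro n
    induction n using Nat.strong_induction_on with
    | _ n ih =>
    intro x
    rcases Nat.eq_zero_or_pos n with rfl | hn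
    · simp
    by_cases hx : x ∈ B
    · obtain ⟨k, hk1, hkN, hk⟩ := hx
      by_cases hkn : n ≤ k
      · calc c * (∑ j ∈ Finset.range n, B.indicator (1 : α → ℝ≥0∞) (σ^[j] x))
            ≤ c * k := mul_le_mul_right ((hcount n x).trans (Nat.cast_le.2 hkn)) _
          _ ≤ ∑ i ∈ Finset.range k, f (σ^[i] x) := hk.le
          _ ≤ _ := Finset.sum_le_sum_of_subset (Finset.range_subset_range.2 (by omega))
      · obtain ⟨n', rfl⟩ := Nat.exists_eq_add_of_le (not_le.1 hkn).le
        rw [Finset.sum_range_add, mul_add, show k + n' + N = k + (n' + N) by ring,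
          Finset.sum_range_add (fun i => f (σ^[i] x))]
        have h1 : ∀ i, σ^[k + i] x = σ^[i] (σ^[k] x) := fun i => by
          rw [← Function.iterate_add_apply, add_comm]
        refine add_le_add ?_ ?_
        · exact (mul_le_mul_right (hcount k x) _).trans hk.le
        · simp only [h1]
          exact ih n' (by omega) _
    · obtain ⟨n', rfl⟩ := Nat.exists_eq_succ_of_ne_zero hn.ne'
      rw [Finset.sum_range_succ', show n'.succ + N = (n' + N) + 1 by omega,
        Finset.sum_range_succ']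
      simp only [Function.iterate_succ_apply, Function.iterate_zero_apply,
        Set.indicator_of_notMem hx, add_zero]
      exact le_add_right (ih n' (Nat.lt_succ_self n') (σ x))
  have hn : ∀ n : ℕ, (n : ℝ≥0∞) * (c * ν B) ≤ ((n + N : ℕ) : ℝ≥0∞) * ∫⁻ x, f x ∂ν := by
    intro n
    have hi : ∀ j, Measurable fun x => B.indicator (1 : α → ℝ≥0∞) (σ^[j] x) :=
      fun j => (measurable_one.indicator hBm).comp (hσ.measurable.iterate j)
    have h := lintegral_mono (μ := ν) (key n)
    rw [lintegral_const_mul _ (Finset.measurable_sum _ fun j _ => hi j),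
      lintegral_finsetSum _ fun j _ => hi j,
      lintegral_finsetSum (f := fun i x => f (σ^[i] x)) (Finset.range (n + N))
        fun i _ => hf.comp (hσ.measurable.iterate i)] at h
    simp only [fun j => (hσ.iterate j).lintegral_comp (f := B.indicator (1 : α → ℝ≥0∞))
        (measurable_one.indicator hBm),
      fun j => (hσ.iterate j).lintegral_comp hf, lintegral_indicator_one hBm, Finset.sum_const,
      Finset.card_range, nsmul_eq_mul] at h
    rwa [mul_left_comm]
  rcases eq_or_ne (∫⁻ x, f x ∂ν) ⊤ with htop | htop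
  · rw [htop]; exact le_top
  refine ENNReal.le_of_forall_pos_le_add fun ε hε _ => ?_
  obtain ⟨n, hn1, hn2⟩ : ∃ n : ℕ, 1 ≤ n ∧ (N : ℝ≥0∞) * ∫⁻ x, f x ∂ν ≤ n * (ε : ℝ≥0∞) := by
    obtain ⟨n, hn⟩ := ENNReal.exists_nat_mul_gt (a := (ε : ℝ≥0∞))
      (by simp [hε.ne']) (ENNReal.mul_ne_top (ENNReal.natCast_ne_top N) htop)
    exact ⟨max n 1, le_max_right _ _, hn.le.trans (mul_le_mul_left
      (Nat.cast_le.2 (le_max_left n 1)) _)⟩
  refine (ENNReal.mul_le_mul_iff_right (a := (n : ℝ≥0∞)) (by simp; omega)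
    (ENNReal.natCast_ne_top n)).1 ((hn n).trans ?_)
  rw [Nat.cast_add, add_mul, mul_add]
  exact add_le_add le_rfl hn2

end Vale.Agent.P147.Flip
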